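import Crest.Agent.R100.Caps_341
import Crest.Agent.R100.Id_833
import Crest.Agent.R100.Wide_933
import Crest.Agent.R081.FrPl
import Crest.Agent.R100.Tree2_711
import Crest.Agent.R100.Tree1_711
import Crest.Agent.R100.CoreX_916

-- ▼ part R100/Pop_341
section

/-!
# R100 / S0132, block B4 of doc 1968, part 2 (helper341): pigeonhole and popular level

From the caps (`Caps341.cap`) and the `L^p` norm of the labels to ONE cap `R` and ONE level `b`.
-/

set_option autoImplicit false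

open MeasureTheory Set
open scoped ENNReal

noncomputable section

namespace Crest.Agent.R100.Pop341

open Crest.Agent.R100.Mart933 Crest.Agent.R100.Wide933 Crest.Agent.R100.Id833
open Crest.Agent.R100.Caps341

variable {g : ℝ → ℂ} {kap : ℝ → ℕ} {M : ℝ}

/-- the local coefficient is a measurable function of the label -/
theorem measurable_coef (hg : Measurable g) (k : ℕ) (j : ℤ) :
    Measurable fun Y : ℝ => coef g Y k j := by
  unfold coef
  refine Measurable.const_mul ?_ _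
  have h : StronglyMeasurable fun p : ℝ × ℝ => g p.2 * e (-p.1) p.2 :=
    ((hg.comp measurable_snd).mul (measurable_e₂ measurable_fst.neg
      measurable_snd)).stronglyMeasurable
  exact (h.integral_prod_right (ν := volume.restrict (Ivl k j))).measurable

theorem measurable_norm_coef (hg : Measurable g) (k : ℕ) (j : ℤ) :
    Measurable fun Y : ℝ => ‖coef g Y k j‖ := (measurable_coef hg k j).norm

/-- the labels of one class: cap `R`, level `b` -/
def LL (g : ℝ → ℂ) (kap : ℝ → ℕ) (k : ℕ) (j : ℤ) (bmin : ℝ) (R : ℕ) (b : ℝ) : Set ℝ :=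
  {Y | bmin ≤ ‖coef g Y k j‖ ∧ 3 / 8 * ‖coef g Y k j‖ ≤ ‖coef (lo g kap R) Y k j‖ ∧
    3 / 8 * ‖coef g Y k j‖ ≤ ‖coef (hi g kap (R - 1)) Y k j‖ ∧
    b ≤ ‖coef (lo g kap R) Y k j‖ ∧ ‖coef (lo g kap R) Y k j‖ < 2 * b}

theorem measurableSet_LL (hg : Measurable g) (hk : Measurable kap) (k : ℕ) (j : ℤ) (bmin : ℝ)
    (R : ℕ) (b : ℝ) : MeasurableSet (LL g kap k j bmin R b) := by
  have h0 := measurable_norm_coef hg k j
  have h1 := measurable_norm_coef (measurable_lo hg hk R) k j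
  have h2 := measurable_norm_coef (measurable_hi hg hk (R - 1)) k j
  refine (measurableSet_le measurable_const h0).inter
    ((measurableSet_le (h0.const_mul _) h1).inter
    ((measurableSet_le (h0.const_mul _) h2).inter
    ((measurableSet_le measurable_const h1).inter (measurableSet_lt h1 measurable_const))))

theorem lintegral_biUnion_le {ι : Type*} (s : Finset ι) (A : ι → Set ℝ) (Φ : ℝ → ℝ≥0∞) :
    ∫⁻ Y in ⋃ i ∈ s, A i, Φ Y ≤ ∑ i ∈ s, ∫⁻ Y in A i, Φ Y := by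
  classical
  induction s using Finset.induction_on with
  | empty => simp
  | insert a s ha ih =>
    rw [Finset.sum_insert ha, Finset.set_biUnion_insert]
    exact (lintegral_union_le _ _ _).trans (add_le_add le_rfl ih)

/-- every label with `|coef g| ≥ bmin` is in one of the classes -/
theorem mem_LL (hg : Measurable g) (hM : ∀ x, ‖g x‖ ≤ M) (hk : Measurable kap) {m : ℕ}
    (hm : ∀ y, kap y ≤ m) (k : ℕ) (j : ℤ) {bmin : ℝ} (hb : 0 < bmin) {J : ℕ}
    (hJ : avN g k j < 2 ^ J * (3 / 8 * bmin)) {Y : ℝ} (hY : bmin ≤ ‖coef g Y k j‖) :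
    ∃ R ∈ (grid g kap k j (bmin / 8)).filter (1 ≤ ·), ∃ i ∈ Finset.range J,
      Y ∈ LL g kap k j bmin R (2 ^ i * (3 / 8 * bmin)) := by
  obtain ⟨R, hR, hR1, h1, h2⟩ := cap hg hM hk hm k j hb hY
  refine ⟨R, Finset.mem_filter.2 ⟨hR, hR1⟩, ?_⟩
  set β := 3 / 8 * bmin with hβ
  have hβ0 : 0 < β := by positivity
  set a := ‖coef (lo g kap R) Y k j‖ with ha
  have ha1 : β ≤ a := by rw [hβ]; linarith
  have ha2 : a < 2 ^ J * β := by
    refine lt_of_le_of_lt ?_ hJ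
    refine (norm_coef_le _ _ _ _).trans ?_
    exact mu_le hg hM hk k j R
  classical
  have hex : ∃ i : ℕ, a < 2 ^ (i + 1) * β := by
    refine ⟨J, ha2.trans_le ?_⟩
    have : (2 : ℝ) ^ J ≤ 2 ^ (J + 1) := pow_le_pow_right₀ (by norm_num) (by omega)
    nlinarith
  set i := Nat.find hex with hi
  have hi1 : a < 2 ^ (i + 1) * β := Nat.find_spec hex
  have hi2 : 2 ^ i * β ≤ a := by
    by_cases h0 : i = 0
    · rw [h0, pow_zero, one_mul]; exact ha1
    · have := Nat.find_min hex (m := i - 1) (by omega)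
      rw [not_lt, show i - 1 + 1 = i by omega] at this
      exact this
  have hiJ : i < J := by
    by_contra hcon
    have : (2 : ℝ) ^ J ≤ 2 ^ i := pow_le_pow_right₀ (by norm_num) (by omega)
    nlinarith
  refine ⟨i, Finset.mem_range.2 hiJ, hY, h1, h2, hi2, ?_⟩
  rw [pow_succ] at hi1
  linarith

/-- on a class the coefficient is at most `16/3 b` -/
theorem norm_coef_of_mem_LL {k : ℕ} {j : ℤ} {bmin : ℝ} {R : ℕ} {b Y : ℝ}
    (h : Y ∈ LL g kap k j bmin R b) : ‖coef g Y k j‖ ≤ 16 / 3 * b := by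
  obtain ⟨_, h2, _, _, h5⟩ := h
  linarith

/-- **popular class** -/
theorem pop (hg : Measurable g) (hM : ∀ x, ‖g x‖ ≤ M) (hk : Measurable kap) {m : ℕ}
    (hm : ∀ y, kap y ≤ m) (k : ℕ) (j : ℤ) {bmin : ℝ} (hb : 0 < bmin) {J : ℕ}
    (hJ : avN g k j < 2 ^ J * (3 / 8 * bmin)) {p : ℝ} (hp : 0 ≤ p)
    (hpos : ∫⁻ Y, ‖coef g Y k j‖ₑ ^ p ≠ 0)
    (hfin : ∫⁻ Y, ‖coef g Y k j‖ₑ ^ p ≠ ⊤)
    (hsmall : ∫⁻ Y in {Y | ‖coef g Y k j‖ < bmin}, ‖coef g Y k j‖ₑ ^ p ≤
      (∫⁻ Y, ‖coef g Y k j‖ₑ ^ p) / 2) :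
    ∃ R ∈ grid g kap k j (bmin / 8), 1 ≤ R ∧ ∃ i < J,
      ∫⁻ Y, ‖coef g Y k j‖ₑ ^ p ≤
        2 * ((2 * (⌊avN g k j / (bmin / 8)⌋₊ + 1) * J : ℕ) : ℝ≥0∞) *
          (volume (LL g kap k j bmin R (2 ^ i * (3 / 8 * bmin))) *
            ENNReal.ofReal (16 / 3 * (2 ^ i * (3 / 8 * bmin))) ^ p) := by
  classical
  set Φ : ℝ → ℝ≥0∞ := fun Y => ‖coef g Y k j‖ₑ ^ p with hΦ
  set T := ∫⁻ Y, Φ Y with hT
  set GR := (grid g kap k j (bmin / 8)).filter (1 ≤ ·) with hGR
  set bb : ℕ → ℝ := fun i => 2 ^ i * (3 / 8 * bmin) with hbb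
  have hΦm : Measurable Φ := (measurable_coef hg k j).enorm.pow_const p
  have hms : MeasurableSet {Y | ‖coef g Y k j‖ < bmin} :=
    measurableSet_lt (measurable_norm_coef hg k j) measurable_const
  -- the large labels
  have hlarge : T / 2 ≤ ∫⁻ Y in {Y | ‖coef g Y k j‖ < bmin}ᶜ, Φ Y := by
    have h1 : (∫⁻ Y in {Y | ‖coef g Y k j‖ < bmin}, Φ Y) +
        (∫⁻ Y in {Y | ‖coef g Y k j‖ < bmin}ᶜ, Φ Y) = T := lintegral_add_compl Φ hms
    have h2 : T ≤ T / 2 + ∫⁻ Y in {Y | ‖coef g Y k j‖ < bmin}ᶜ, Φ Y := by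
      calc T = _ := h1.symm
        _ ≤ _ := add_le_add hsmall le_rfl
    have h3 : T / 2 + T / 2 ≤ T / 2 + ∫⁻ Y in {Y | ‖coef g Y k j‖ < bmin}ᶜ, Φ Y := by
      rwa [ENNReal.add_halves]
    exact (ENNReal.add_le_add_iff_left (ENNReal.div_ne_top hfin (by norm_num))).1 h3
  -- covering
  have hcov : {Y | ‖coef g Y k j‖ < bmin}ᶜ ⊆
      ⋃ q ∈ GR ×ˢ Finset.range J, LL g kap k j bmin q.1 (bb q.2) := by
    intro Y hY
    have hY' : bmin ≤ ‖coef g Y k j‖ := by
      simpa using hY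
    obtain ⟨R, hR, i, hi, hmem⟩ := mem_LL hg hM hk hm k j hb hJ hY'
    exact mem_iUnion₂.2 ⟨(R, i), Finset.mem_product.2 ⟨hR, hi⟩, hmem⟩
  have hclass : ∀ q : ℕ × ℕ, ∫⁻ Y in LL g kap k j bmin q.1 (bb q.2), Φ Y ≤
      volume (LL g kap k j bmin q.1 (bb q.2)) * ENNReal.ofReal (16 / 3 * bb q.2) ^ p := by
    intro q
    have h1 : ∀ Y ∈ LL g kap k j bmin q.1 (bb q.2),
        Φ Y ≤ ENNReal.ofReal (16 / 3 * bb q.2) ^ p := by
      intro Y hY
      refine ENNReal.rpow_le_rpow ?_ hp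
      rw [← ofReal_norm]
      exact ENNReal.ofReal_le_ofReal (norm_coef_of_mem_LL hY)
    refine (setLIntegral_mono measurable_const h1).trans (le_of_eq ?_)
    rw [setLIntegral_const, mul_comm]
  have hsum : T / 2 ≤ ∑ q ∈ GR ×ˢ Finset.range J,
      volume (LL g kap k j bmin q.1 (bb q.2)) * ENNReal.ofReal (16 / 3 * bb q.2) ^ p := by
    refine hlarge.trans ((lintegral_mono_set hcov).trans ?_)
    refine (lintegral_biUnion_le _ _ _).trans ?_
    exact Finset.sum_le_sum fun q _ => hclass q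
  -- pigeonhole
  have hne : (GR ×ˢ Finset.range J).Nonempty := by
    by_contra hcon
    rw [Finset.not_nonempty_iff_eq_empty] at hcon
    rw [hcon, Finset.sum_empty, nonpos_iff_eq_zero, ENNReal.div_eq_zero_iff] at hsum
    rcases hsum with h | h
    · exact hpos h
    · exact absurd h (by norm_num)
  obtain ⟨q, hq, hmax⟩ := Finset.exists_max_image (GR ×ˢ Finset.range J)
    (fun q => volume (LL g kap k j bmin q.1 (bb q.2)) * ENNReal.ofReal (16 / 3 * bb q.2) ^ p) hne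
  rw [Finset.mem_product, hGR, Finset.mem_filter, Finset.mem_range] at hq
  refine ⟨q.1, hq.1.1, hq.1.2, q.2, hq.2, ?_⟩
  have hcard : ((GR ×ˢ Finset.range J).card : ℝ≥0∞) ≤
      ((2 * (⌊avN g k j / (bmin / 8)⌋₊ + 1) * J : ℕ) : ℝ≥0∞) := by
    rw [Finset.card_product, Finset.card_range]
    refine Nat.cast_le.2 (Nat.mul_le_mul_right _ ?_)
    exact (Finset.card_filter_le _ _).trans (card_grid _ _ _ _ _)
  have h4 : T / 2 ≤ ((GR ×ˢ Finset.range J).card : ℝ≥0∞) *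
      (volume (LL g kap k j bmin q.1 (bb q.2)) * ENNReal.ofReal (16 / 3 * bb q.2) ^ p) := by
    refine hsum.trans ((Finset.sum_le_card_nsmul _ _ _ hmax).trans (le_of_eq ?_))
    rw [nsmul_eq_mul]
  have h5 : T = 2 * (T / 2) := by
    rw [ENNReal.mul_div_cancel (by norm_num) (by norm_num)]
  rw [h5, mul_assoc]
  gcongr
  exact h4.trans (mul_le_mul_left hcard _)

end Crest.Agent.R100.Pop341
end
end

-- ▼ part R100/Mult_939
section

/-!
# R100 / S0132, helper939: multiplicity at one scale (doc 1968, sec 3, (MULT))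

`G` supported in a node `Ivl k₀ j₀`, with averages of `|G|` at most `Q` on the nodes of generation
`r`.  Then `∫_{W} |coef G Y k₀ j₀|² dY ≤ (π²/2) Q 2^{k₀} avN G k₀ j₀` for every interval `W` of
length `2^r`.
-/

set_option autoImplicit false

open MeasureTheory Set
open scoped ENNReal FourierTransform

noncomputable section

namespace Crest.Agent.R100.Mult939

open Crest.Agent.R100.Mart933 Crest.Agent.R100.Wide933

/-! ## Plancherel -/

theorem integral_norm_sq_eq {f : ℝ → ℂ} (h2 : MemLp f 2) :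
    ∫ w, ‖f w‖ ^ 2 = ((eLpNorm f 2 volume) ^ 2).toReal := by
  have hm : AEStronglyMeasurable (fun w => ‖f w‖ ^ 2) volume := h2.1.norm.pow 2
  rw [integral_eq_lintegral_of_nonneg_ae (Filter.Eventually.of_forall fun w => by positivity) hm]
  congr 1
  have h := eLpNorm_nnreal_pow_eq_lintegral (f := f) (μ := volume) (p := 2) (by norm_num)
  have h3 : ((2 : NNReal) : ENNReal) = 2 := rfl
  rw [h3] at h
  have h4 : (eLpNorm f 2 volume) ^ 2 = (eLpNorm f 2 volume) ^ ((2 : NNReal) : ℝ) := by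
    norm_num
  rw [h4, h]
  refine lintegral_congr fun w => ?_
  rw [← ofReal_norm]
  norm_num

theorem plancherel {f : ℝ → ℂ} (h1 : Integrable f) (h2 : MemLp f 2) :
    Integrable (fun ξ => ‖𝓕 f ξ‖ ^ 2) ∧ ∫ ξ, ‖𝓕 f ξ‖ ^ 2 = ∫ w, ‖f w‖ ^ 2 := by
  have h3 := Crest.Agent.R081.Fr.memLp_fourier h1 h2
  refine ⟨(memLp_two_iff_integrable_sq_norm h3.1).mp h3, ?_⟩
  rw [integral_norm_sq_eq h3, integral_norm_sq_eq h2, Crest.Agent.R081.Fr.eLpNorm_fourier h1 h2]

theorem fourier_eq (f : ℝ → ℂ) (Y : ℝ) : 𝓕 f Y = ∫ y, f y * e (-Y) y := by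
  rw [Real.fourier_real_eq_integral_exp_smul]
  refine integral_congr_ae (Filter.Eventually.of_forall fun y => ?_)
  simp only [smul_eq_mul, e]
  rw [mul_comm]
  congr 2
  push_cast
  ring

/-! ## the sliding average -/

/-- sliding average over a window of length `2^{-r}` -/
def sl (r : ℕ) (G : ℝ → ℂ) (y : ℝ) : ℂ := 2 ^ r * ∫ u in Ioc (0 : ℝ) (1 / 2 ^ r), G (y + u)

theorem norm_e_sub_one (t : ℝ) (y : ℝ) : ‖e t y - 1‖ = |2 * Real.sin (Real.pi * (t * y))| := by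
  unfold e
  have := Complex.norm_exp_I_mul_ofReal_sub_one (2 * Real.pi * (t * y))
  rw [mul_comm Complex.I] at this
  rw [this, Real.norm_eq_abs]
  congr 3
  ring

/-- the multiplier of the sliding average -/
def mu (r : ℕ) (ξ : ℝ) : ℂ := 2 ^ r * ∫ u in Ioc (0 : ℝ) (1 / 2 ^ r), e ξ u

theorem norm_mu_ge (r : ℕ) {ξ : ℝ} (h : |ξ| ≤ 2 ^ r / 2) : 2 / Real.pi ≤ ‖mu r ξ‖ := by
  have h2 : (0 : ℝ) < 2 ^ r := by positivity
  have hd : (0 : ℝ) ≤ 1 / 2 ^ r := by positivity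
  unfold mu
  by_cases h0 : ξ = 0
  · subst h0
    have : (fun u => e 0 u) = fun _ => 1 := by
      ext u
      simp [e]
    rw [this]
    simp only [integral_const, MeasurableSet.univ, measureReal_restrict_apply, univ_inter,
      Real.volume_real_Ioc_of_le hd]
    simp only [sub_zero, one_div, Complex.real_smul, mul_one]
    push_cast
    rw [mul_inv_cancel₀ (by simp), norm_one]
    rw [div_le_one Real.pi_pos]
    linarith [Real.pi_gt_three]
  · have hpi := Real.pi_pos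
    have hc : (2 * Real.pi * ξ : ℂ) * Complex.I ≠ 0 := by
      simp [h0, Real.pi_ne_zero]
    have e1 : ∫ u in Ioc (0 : ℝ) (1 / 2 ^ r), e ξ u =
        (e ξ (1 / 2 ^ r) - 1) / ((2 * Real.pi * ξ : ℂ) * Complex.I) := by
      rw [← intervalIntegral.integral_of_le hd]
      have e2 : ∀ u : ℝ, e ξ u = Complex.exp (((2 * Real.pi * ξ : ℂ) * Complex.I) * (u : ℂ)) := by
        intro u
        unfold e
        congr 1
        push_cast
        ring
      simp_rw [e2]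
      rw [integral_exp_mul_complex hc]
      simp
    rw [e1, norm_mul, norm_div, norm_e_sub_one]
    have e3 : ‖(2 * Real.pi * ξ : ℂ) * Complex.I‖ = 2 * Real.pi * |ξ| := by
      rw [norm_mul, Complex.norm_I, mul_one, norm_mul, norm_mul, Complex.norm_real,
        Complex.norm_real, Real.norm_eq_abs, Real.norm_eq_abs, abs_of_pos hpi]
      simp
    rw [e3, norm_pow, Complex.norm_ofNat]
    have e4 : |2 * Real.sin (Real.pi * (ξ * (1 / 2 ^ r)))| =
        2 * Real.sin (Real.pi * (|ξ| * (1 / 2 ^ r))) := by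
      rw [abs_mul, abs_two]
      congr 1
      have hx0 : 0 ≤ Real.pi * (|ξ| * (1 / 2 ^ r)) := by positivity
      have hx1 : Real.pi * (|ξ| * (1 / 2 ^ r)) ≤ Real.pi := by
        have : |ξ| * (1 / 2 ^ r) ≤ 1 := by
          rw [mul_one_div, div_le_one h2]
          linarith
        nlinarith
      rcases abs_cases ξ with ⟨h', _⟩ | ⟨h', _⟩
      · rw [h'] at hx0 hx1 ⊢
        rw [abs_of_nonneg (Real.sin_nonneg_of_nonneg_of_le_pi hx0 hx1)]
      · have : Real.pi * (ξ * (1 / 2 ^ r)) = -(Real.pi * (|ξ| * (1 / 2 ^ r))) := by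
          rw [h']; ring
        rw [this, Real.sin_neg, abs_neg,
          abs_of_nonneg (Real.sin_nonneg_of_nonneg_of_le_pi hx0 hx1)]
    rw [e4]
    have hxi : 0 < |ξ| := abs_pos.2 h0
    have h5 : 2 / Real.pi * (Real.pi * (|ξ| * (1 / 2 ^ r))) ≤
        Real.sin (Real.pi * (|ξ| * (1 / 2 ^ r))) := by
      apply Real.mul_le_sin (by positivity)
      have : |ξ| * (1 / 2 ^ r) ≤ 1 / 2 := by
        rw [mul_one_div, div_le_div_iff₀ h2 (by norm_num)]
        linarith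
      nlinarith
    have h6 : 2 / Real.pi * (Real.pi * (|ξ| * (1 / 2 ^ r))) = 2 * |ξ| / 2 ^ r := by
      field_simp
    rw [h6] at h5
    have h7 : 2 / Real.pi = 2 ^ r * (2 * (2 * |ξ| / 2 ^ r) / (2 * Real.pi * |ξ|)) := by
      field_simp
    rw [h7]
    gcongr

variable {G : ℝ → ℂ} {M Q : ℝ}

theorem integrable_of_supp {k : ℕ} {j : ℤ} (hG : Measurable G) (hM : ∀ x, ‖G x‖ ≤ M)
    (hs : ∀ x, x ∉ Ivl k j → G x = 0) : Integrable G := by
  have h1 : IntegrableOn G (Ivl k j) := intOn k j hG hM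
  have h2 : (Ivl k j).indicator G = G := by
    ext x
    by_cases hx : x ∈ Ivl k j
    · rw [indicator_of_mem hx]
    · rw [indicator_of_notMem hx, hs x hx]
  rw [← h2]
  exact h1.integrable_indicator (measurableSet_Ivl k j)

theorem setIntegral_eq_of_supp {E : Type*} [NormedAddCommGroup E] [NormedSpace ℝ E] {F : ℝ → E}
    {k : ℕ} {j : ℤ} (hs : ∀ x, x ∉ Ivl k j → F x = 0) : ∫ x in Ivl k j, F x = ∫ x, F x :=
  setIntegral_eq_integral_of_forall_compl_eq_zero hs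

theorem coef_eq {k : ℕ} {j : ℤ} (hs : ∀ x, x ∉ Ivl k j → G x = 0) (Y : ℝ) :
    coef G Y k j = 2 ^ k * 𝓕 G Y := by
  rw [fourier_eq]
  unfold coef
  rw [setIntegral_eq_of_supp]
  intro x hx
  rw [hs x hx, zero_mul]

theorem avN_eq {k : ℕ} {j : ℤ} (hs : ∀ x, x ∉ Ivl k j → G x = 0) :
    avN G k j = 2 ^ k * ∫ y, ‖G y‖ := by
  unfold avN
  rw [setIntegral_eq_of_supp]
  intro x hx
  rw [hs x hx, norm_zero]


theorem norm_sl_le_int (r : ℕ) (G : ℝ → ℂ) (y : ℝ) :
    ‖sl r G y‖ ≤ 2 ^ r * ∫ u in Ioc (0 : ℝ) (1 / 2 ^ r), ‖G (y + u)‖ := by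
  unfold sl
  rw [norm_mul, norm_pow, Complex.norm_ofNat]
  gcongr
  exact norm_integral_le_integral_norm _

theorem norm_sl_le (r : ℕ) (hG : Measurable G) (hM : ∀ x, ‖G x‖ ≤ M)
    (hQ : ∀ i : ℤ, avN G r i ≤ Q) (y : ℝ) : ‖sl r G y‖ ≤ 2 * Q := by
  refine (norm_sl_le_int r G y).trans ?_
  have h2 : (0 : ℝ) < 2 ^ r := by positivity
  have hd : (0 : ℝ) ≤ 1 / 2 ^ r := by positivity
  have e1 : ∫ u in Ioc (0 : ℝ) (1 / 2 ^ r), ‖G (y + u)‖ =
      ∫ u in Ioc y (y + 1 / 2 ^ r), ‖G u‖ := by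
    rw [← intervalIntegral.integral_of_le hd, ← intervalIntegral.integral_of_le (by linarith)]
    have := intervalIntegral.integral_comp_add_left (a := 0) (b := 1 / 2 ^ r)
      (fun u => ‖G u‖) y
    rw [this, add_zero]
  rw [e1]
  set i := fl r y with hi
  have hsub : Ioc y (y + 1 / 2 ^ r) ⊆ Ivl r i ∪ Ivl r (i + 1) := by
    intro x hx
    have hy : y ∈ Ivl r i := mem_Ivl.2 rfl
    unfold Ivl at hy ⊢
    rcases lt_or_ge x (((i : ℝ) + 1) / 2 ^ r) with h | h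
    · left
      exact ⟨hy.1.trans hx.1.le, h⟩
    · right
      refine ⟨by push_cast; exact h, ?_⟩
      push_cast
      have := hx.2
      have h3 := hy.2
      have : ((i : ℝ) + 1 + 1) / 2 ^ r = ((i : ℝ) + 1) / 2 ^ r + 1 / 2 ^ r := by ring
      rw [this]
      linarith
  have hint : ∀ i, IntegrableOn (fun x => ‖G x‖) (Ivl r i) := fun i =>
    intOn r i hG.norm (M := M) fun x => by simpa using hM x
  have h3 : ∫ u in Ioc y (y + 1 / 2 ^ r), ‖G u‖ ≤
      (∫ u in Ivl r i, ‖G u‖) + ∫ u in Ivl r (i + 1), ‖G u‖ := by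
    have hdis : Disjoint (Ivl r i) (Ivl r (i + 1)) := by
      rw [Set.disjoint_left]
      intro x hx hx'
      rw [mem_Ivl] at hx hx'
      omega
    rw [← setIntegral_union hdis (measurableSet_Ivl _ _) (hint _) (hint _)]
    refine setIntegral_mono_set ((hint _).union (hint _)) ?_ (Filter.Eventually.of_forall hsub)
    exact Filter.Eventually.of_forall fun x => norm_nonneg _
  calc (2 : ℝ) ^ r * ∫ u in Ioc y (y + 1 / 2 ^ r), ‖G u‖
      ≤ 2 ^ r * ((∫ u in Ivl r i, ‖G u‖) + ∫ u in Ivl r (i + 1), ‖G u‖) := by gcongr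
    _ = avN G r i + avN G r (i + 1) := by unfold avN; ring
    _ ≤ 2 * Q := by linarith [hQ i, hQ (i + 1)]

theorem finite_Ioc (r : ℕ) : IsFiniteMeasure (volume.restrict (Ioc (0 : ℝ) (1 / 2 ^ r))) :=
  ⟨by
    rw [Measure.restrict_apply MeasurableSet.univ, univ_inter, Real.volume_Ioc]
    exact ENNReal.ofReal_lt_top⟩

theorem integrable_shift (r : ℕ) (hG : Measurable G) (hGi : Integrable G) (ξ : ℝ) :
    Integrable (fun p : ℝ × ℝ => G (p.1 + p.2) * e ξ p.1)
      ((volume : Measure ℝ).prod (volume.restrict (Ioc (0 : ℝ) (1 / 2 ^ r)))) := by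
  have hfin := finite_Ioc r
  have hm : Measurable fun p : ℝ × ℝ => G (p.1 + p.2) * e ξ p.1 :=
    (hG.comp (measurable_fst.add measurable_snd)).mul ((measurable_e ξ).comp measurable_fst)
  rw [integrable_prod_iff' hm.aestronglyMeasurable]
  refine ⟨Filter.Eventually.of_forall fun u => ?_, ?_⟩
  · have h1 : Integrable (fun x => G (x + u)) := hGi.comp_add_right u
    refine h1.norm.mono' (hm.comp (measurable_id.prodMk measurable_const)).aestronglyMeasurable
      (Filter.Eventually.of_forall fun x => ?_)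
    simp
  · have : (fun u => ∫ x, ‖G (x + u) * e ξ x‖) = fun _ => ∫ x, ‖G x‖ := by
      ext u
      simp only [norm_mul, norm_e, mul_one]
      exact integral_add_right_eq_self (fun x => ‖G x‖) u
    simp only at this ⊢
    rw [this]
    exact integrable_const _

theorem integrable_sl (r : ℕ) (hG : Measurable G) (hGi : Integrable G) :
    Integrable (sl r G) := by
  have hfin := finite_Ioc r
  have h := (integrable_shift r hG hGi 0).integral_prod_left
  unfold sl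
  refine Integrable.const_mul ?_ _
  refine h.congr (Filter.Eventually.of_forall fun x => ?_)
  simp [e]

theorem integral_norm_sl_le (r : ℕ) (hG : Measurable G) (hGi : Integrable G) :
    ∫ y, ‖sl r G y‖ ≤ ∫ y, ‖G y‖ := by
  have hfin := finite_Ioc r
  have hd : (0 : ℝ) ≤ 1 / 2 ^ r := by positivity
  have h := (integrable_shift r hG hGi 0).norm
  have h1 : ∫ y, ‖sl r G y‖ ≤
      ∫ y, 2 ^ r * ∫ u in Ioc (0 : ℝ) (1 / 2 ^ r), ‖G (y + u) * e 0 y‖ := by
    refine integral_mono (integrable_sl r hG hGi).norm (h.integral_prod_left.const_mul _)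
      fun y => ?_
    refine (norm_sl_le_int r G y).trans (le_of_eq ?_)
    simp
  refine h1.trans (le_of_eq ?_)
  rw [integral_const_mul, integral_integral_swap h]
  have : (fun u => ∫ x, ‖G (x + u) * e 0 x‖) = fun _ => ∫ x, ‖G x‖ := by
    ext u
    simp only [norm_mul, norm_e, mul_one]
    exact integral_add_right_eq_self (fun x => ‖G x‖) u
  rw [this]
  simp only [integral_const, MeasurableSet.univ, measureReal_restrict_apply, univ_inter,
    Real.volume_real_Ioc_of_le hd, smul_eq_mul]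
  field_simp
  simp

theorem fourier_sl (r : ℕ) (hG : Measurable G) (hGi : Integrable G) (ξ : ℝ) :
    𝓕 (sl r G) ξ = mu r ξ * 𝓕 G ξ := by
  have hfin := finite_Ioc r
  rw [fourier_eq, fourier_eq]
  have h := integrable_shift r hG hGi (-ξ)
  have e1 : ∫ y, sl r G y * e (-ξ) y =
      2 ^ r * ∫ y, ∫ u in Ioc (0 : ℝ) (1 / 2 ^ r), G (y + u) * e (-ξ) y := by
    rw [← integral_const_mul]
    refine integral_congr_ae (Filter.Eventually.of_forall fun y => ?_)
    simp only [sl]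
    rw [integral_mul_const]
    ring
  rw [e1, integral_integral_swap h]
  have e2 : ∀ u : ℝ, ∫ y, G (y + u) * e (-ξ) y = e ξ u * ∫ y, G y * e (-ξ) y := by
    intro u
    rw [← integral_const_mul]
    rw [← integral_add_right_eq_self (fun y => e ξ u * (G y * e (-ξ) y)) u]
    refine integral_congr_ae (Filter.Eventually.of_forall fun y => ?_)
    have : e (-ξ) y = e ξ u * e (-ξ) (y + u) := by
      unfold e
      rw [← Complex.exp_add]
      congr 1
      push_cast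
      ring
    simp only [this]
    ring
  simp_rw [e2]
  rw [integral_mul_const]
  unfold mu
  ring

/-- **local Bessel at one scale**, for the Fourier transform -/
theorem bessel_window (r : ℕ) {k : ℕ} {j : ℤ} (hG : Measurable G) (hM : ∀ x, ‖G x‖ ≤ M)
    (hs : ∀ x, x ∉ Ivl k j → G x = 0) (hQ : ∀ i : ℤ, avN G r i ≤ Q) (c : ℝ) :
    ∫ Y in Icc c (c + 2 ^ r), ‖𝓕 G Y‖ ^ 2 ≤ Real.pi ^ 2 / 2 * Q * ∫ y, ‖G y‖ := by
  have h2 : (0 : ℝ) < 2 ^ r := by positivity
  set z : ℝ := c + 2 ^ r / 2 with hz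
  set Gz : ℝ → ℂ := fun y => G y * e (-z) y with hGz
  have hGzm : Measurable Gz := hG.mul (measurable_e _)
  have hnorm : ∀ y, ‖Gz y‖ = ‖G y‖ := fun y => by simp [hGz]
  have hGzM : ∀ x, ‖Gz x‖ ≤ M := fun x => (hnorm x).le.trans (hM x)
  have hGzs : ∀ x, x ∉ Ivl k j → Gz x = 0 := fun x hx => by simp [hGz, hs x hx]
  have hGzi : Integrable Gz := integrable_of_supp hGzm hGzM hGzs
  have hQz : ∀ i : ℤ, avN Gz r i ≤ Q := by
    intro i
    have : avN Gz r i = avN G r i := by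
      unfold avN
      simp only [hnorm]
    rw [this]
    exact hQ i
  set H := sl r Gz with hH
  have hHi : Integrable H := integrable_sl r hGzm hGzi
  have hHb : ∀ y, ‖H y‖ ≤ 2 * Q := norm_sl_le r hGzm hGzM hQz
  have hH2 : Integrable (fun y => ‖H y‖ ^ 2) := by
    refine (hHi.norm.const_mul (2 * Q)).mono' (hHi.aestronglyMeasurable.norm.pow 2) ?_
    refine Filter.Eventually.of_forall fun w => ?_
    rw [Real.norm_of_nonneg (by positivity), sq]
    exact mul_le_mul_of_nonneg_right (hHb w) (norm_nonneg _)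
  have hHm : MemLp H 2 := (memLp_two_iff_integrable_sq_norm hHi.aestronglyMeasurable).2 hH2
  obtain ⟨hPi, hP⟩ := plancherel hHi hHm
  have hQ0 : 0 ≤ Q := (avN_nonneg G r 0).trans (hQ 0)
  have h3 : ∫ ξ, ‖𝓕 H ξ‖ ^ 2 ≤ 2 * Q * ∫ y, ‖G y‖ := by
    rw [hP]
    calc ∫ w, ‖H w‖ ^ 2 ≤ ∫ w, 2 * Q * ‖H w‖ := by
          refine integral_mono hH2 (hHi.norm.const_mul _) fun w => ?_
          simp only [sq]
          exact mul_le_mul_of_nonneg_right (hHb w) (norm_nonneg _)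
      _ = 2 * Q * ∫ w, ‖H w‖ := integral_const_mul _ _
      _ ≤ 2 * Q * ∫ w, ‖Gz w‖ :=
          mul_le_mul_of_nonneg_left (integral_norm_sl_le r hGzm hGzi) (by positivity)
      _ = 2 * Q * ∫ y, ‖G y‖ := by simp only [hnorm]
  have hshift : Integrable (fun Y => ‖𝓕 H (Y - z)‖ ^ 2) := hPi.comp_sub_right z
  have hpt : ∀ Y ∈ Icc c (c + 2 ^ r), ‖𝓕 G Y‖ ^ 2 ≤ (Real.pi / 2) ^ 2 * ‖𝓕 H (Y - z)‖ ^ 2 := by
    intro Y hY
    have h4 : 𝓕 H (Y - z) = mu r (Y - z) * 𝓕 G Y := by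
      rw [hH, fourier_sl r hGzm hGzi]
      congr 1
      rw [fourier_eq, fourier_eq]
      refine integral_congr_ae (Filter.Eventually.of_forall fun y => ?_)
      simp only [hGz]
      rw [mul_assoc, ← e_add]
      congr 2
      ring
    have h5 : 2 / Real.pi ≤ ‖mu r (Y - z)‖ := by
      apply norm_mu_ge
      rw [abs_le]
      constructor
      · rw [hz]; linarith [hY.1]
      · rw [hz]; linarith [hY.2]
    have hpi := Real.pi_pos
    have h6 : ‖𝓕 G Y‖ ≤ Real.pi / 2 * ‖𝓕 H (Y - z)‖ := by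
      rw [h4, norm_mul]
      calc ‖𝓕 G Y‖ = Real.pi / 2 * (2 / Real.pi * ‖𝓕 G Y‖) := by field_simp
        _ ≤ Real.pi / 2 * (‖mu r (Y - z)‖ * ‖𝓕 G Y‖) := by gcongr
    calc ‖𝓕 G Y‖ ^ 2 ≤ (Real.pi / 2 * ‖𝓕 H (Y - z)‖) ^ 2 := by gcongr
      _ = _ := by ring
  have hcontG : Continuous (𝓕 G) := by
    have hGi : Integrable G := integrable_of_supp hG hM hs
    simpa using! VectorFourier.fourierIntegral_continuous (V := ℝ) (W := ℝ)
      Real.continuous_fourierChar (L := innerₗ ℝ) continuous_inner hGi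
  calc ∫ Y in Icc c (c + 2 ^ r), ‖𝓕 G Y‖ ^ 2
      ≤ ∫ Y in Icc c (c + 2 ^ r), (Real.pi / 2) ^ 2 * ‖𝓕 H (Y - z)‖ ^ 2 := by
        refine setIntegral_mono_on ?_ (hshift.integrableOn.const_mul _) measurableSet_Icc hpt
        exact (hcontG.norm.pow 2).integrableOn_Icc
    _ = (Real.pi / 2) ^ 2 * ∫ Y in Icc c (c + 2 ^ r), ‖𝓕 H (Y - z)‖ ^ 2 :=
        integral_const_mul _ _
    _ ≤ (Real.pi / 2) ^ 2 * ∫ Y, ‖𝓕 H (Y - z)‖ ^ 2 :=
        mul_le_mul_of_nonneg_left (setIntegral_le_integral hshift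
          (Filter.Eventually.of_forall fun Y => by positivity)) (by positivity)
    _ = (Real.pi / 2) ^ 2 * ∫ ξ, ‖𝓕 H ξ‖ ^ 2 := by
        rw [integral_sub_right_eq_self (fun ξ => ‖𝓕 H ξ‖ ^ 2) z]
    _ ≤ (Real.pi / 2) ^ 2 * (2 * Q * ∫ y, ‖G y‖) := by gcongr
    _ = Real.pi ^ 2 / 2 * Q * ∫ y, ‖G y‖ := by ring

/-- **local Bessel at one scale**, for the coefficients of a node (real integral) -/
theorem coef_window (r : ℕ) {k : ℕ} {j : ℤ} (hG : Measurable G) (hM : ∀ x, ‖G x‖ ≤ M)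
    (hs : ∀ x, x ∉ Ivl k j → G x = 0) (hQ : ∀ i : ℤ, avN G r i ≤ Q) (c : ℝ) :
    ∫ Y in Icc c (c + 2 ^ r), ‖coef G Y k j‖ ^ 2 ≤ 2 ^ k * (Real.pi ^ 2 / 2 * Q * avN G k j) := by
  have e1 : ∀ Y, ‖coef G Y k j‖ ^ 2 = (2 ^ k) ^ 2 * ‖𝓕 G Y‖ ^ 2 := by
    intro Y
    rw [coef_eq hs, norm_mul, norm_pow, Complex.norm_ofNat]
    ring
  simp_rw [e1]
  rw [integral_const_mul, avN_eq hs]
  have h := bessel_window r hG hM hs hQ c
  calc (2 ^ k) ^ 2 * ∫ Y in Icc c (c + 2 ^ r), ‖𝓕 G Y‖ ^ 2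
      ≤ (2 ^ k) ^ 2 * (Real.pi ^ 2 / 2 * Q * ∫ y, ‖G y‖) := by gcongr
    _ = _ := by ring

theorem continuous_coef {k : ℕ} {j : ℤ} (hG : Measurable G) (hM : ∀ x, ‖G x‖ ≤ M) :
    Continuous fun Y => coef G Y k j := by
  unfold coef
  refine continuous_const.mul ?_
  refine continuous_of_dominated (F := fun Y y => G y * e (-Y) y) (bound := fun _ => M) ?_ ?_ ?_ ?_
  · exact fun Y => (hG.mul (measurable_e _)).aestronglyMeasurable
  · refine fun Y => Filter.Eventually.of_forall fun y => ?_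
    simpa using hM y
  · have : IsFiniteMeasure (volume.restrict (Ivl k j)) :=
      ⟨by rw [Measure.restrict_apply MeasurableSet.univ, univ_inter, volume_Ivl]
          exact ENNReal.ofReal_lt_top⟩
    exact integrable_const _
  · refine Filter.Eventually.of_forall fun y => ?_
    unfold e
    fun_prop

/-- **local Bessel at one scale**, for an arbitrary `G` restricted to a node, averages bounded
inside the node only -/
theorem coef_window' (r : ℕ) {k : ℕ} {j : ℤ} (hkr : k ≤ r) (hG : Measurable G)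
    (hM : ∀ x, ‖G x‖ ≤ M) (hQ : ∀ i : ℤ, Ivl r i ⊆ Ivl k j → avN G r i ≤ Q) (c : ℝ) :
    ∫ Y in Icc c (c + 2 ^ r), ‖coef G Y k j‖ ^ 2 ≤ 2 ^ k * (Real.pi ^ 2 / 2 * Q * avN G k j) := by
  classical
  set G' : ℝ → ℂ := (Ivl k j).indicator G with hG'
  have hG'm : Measurable G' := hG.indicator (measurableSet_Ivl k j)
  have hM0 : 0 ≤ M := (norm_nonneg _).trans (hM 0)
  have hG'M : ∀ x, ‖G' x‖ ≤ M := fun x => by
    by_cases hx : x ∈ Ivl k j
    · rw [hG', indicator_of_mem hx]; exact hM x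
    · rw [hG', indicator_of_notMem hx, norm_zero]; exact hM0
  have hs : ∀ x, x ∉ Ivl k j → G' x = 0 := fun x hx => by rw [hG', indicator_of_notMem hx]
  have e1 : ∀ Y, coef G' Y k j = coef G Y k j := by
    intro Y
    unfold coef
    congr 1
    refine setIntegral_congr_fun (measurableSet_Ivl k j) fun y hy => ?_
    simp only [hG', indicator_of_mem hy]
  have e2 : avN G' k j = avN G k j := by
    unfold avN
    congr 1
    refine setIntegral_congr_fun (measurableSet_Ivl k j) fun y hy => ?_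
    simp only [hG', indicator_of_mem hy]
  have hsub : ∀ i : ℤ, Ivl r i ⊆ Ivl k j ∨ Disjoint (Ivl r i) (Ivl k j) := by
    intro i
    by_cases hne : (Ivl r i ∩ Ivl k j).Nonempty
    · left
      obtain ⟨x, hx1, hx2⟩ := hne
      intro y hy
      rw [mem_Ivl] at hx1 hx2 hy ⊢
      rw [← hx2]
      have h4 : ∀ d : ℕ, ∀ x y : ℝ, fl (k + d) x = fl (k + d) y → fl k x = fl k y := by
        intro d
        induction d with
        | zero => exact fun x y h => h
        | succ d ih =>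
          intro x y h
          apply ih
          rw [fl_half, fl_half (k + d) y]
          have h' : fl (k + d + 1) x = fl (k + d + 1) y := h
          rw [h']
      obtain ⟨d, rfl⟩ := Nat.exists_eq_add_of_le hkr
      exact h4 d y x (hy.trans hx1.symm)
    · right
      exact Set.disjoint_iff_inter_eq_empty.2 (Set.not_nonempty_iff_eq_empty.1 hne)
  by_cases hQ0 : 0 ≤ Q
  · rw [← e2]
    simp_rw [← e1]
    refine coef_window r hG'm hG'M hs (fun i => ?_) c
    rcases hsub i with h | h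
    · refine le_trans (le_of_eq ?_) (hQ i h)
      unfold avN
      congr 1
      refine setIntegral_congr_fun (measurableSet_Ivl r i) fun y hy => ?_
      simp only [hG', indicator_of_mem (h hy)]
    · refine le_trans (le_of_eq ?_) hQ0
      unfold avN
      have : ∫ y in Ivl r i, ‖G' y‖ = 0 := by
        rw [setIntegral_congr_fun (g := fun _ => (0 : ℝ)) (measurableSet_Ivl r i)]
        · simp
        · intro y hy
          simp only [hG', indicator_of_notMem (Set.disjoint_left.1 h hy), norm_zero]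
      rw [this, mul_zero]
  · exfalso
    apply hQ0
    -- a node of generation `r` inside `Ivl k j`
    set x : ℝ := (j : ℝ) / 2 ^ k with hx
    have hxm : x ∈ Ivl k j := by
      unfold Ivl
      refine ⟨le_rfl, ?_⟩
      rw [hx]
      gcongr
      linarith
    have hne : (Ivl r (fl r x) ∩ Ivl k j).Nonempty := ⟨x, mem_Ivl.2 rfl, hxm⟩
    rcases hsub (fl r x) with h | h
    · exact (avN_nonneg G r _).trans (hQ _ h)
    · exact absurd (Set.disjoint_iff_inter_eq_empty.1 h) (Set.nonempty_iff_ne_empty.1 hne)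

/-- **(MULT)**: multiplicity of a set of labels with large coefficients in a window of length
`2 ^ r`. -/
theorem mult (r : ℕ) {k : ℕ} {j : ℤ} (hkr : k ≤ r) (hG : Measurable G)
    (hM : ∀ x, ‖G x‖ ≤ M) (hQ : ∀ i : ℤ, Ivl r i ⊆ Ivl k j → avN G r i ≤ Q) {β : ℝ} (hβ : 0 < β)
    {A : Set ℝ} (hA : ∀ Y ∈ A, β ≤ ‖coef G Y k j‖) (c : ℝ) :
    volume (A ∩ Icc c (c + 2 ^ r)) ≤
      ENNReal.ofReal (2 ^ k * (Real.pi ^ 2 / 2 * Q * avN G k j / β ^ 2)) := by
  have hcont : Continuous fun Y => coef G Y k j := continuous_coef hG hM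
  set S : Set ℝ := {Y | β ≤ ‖coef G Y k j‖} with hS
  have hSm : MeasurableSet S := (isClosed_le continuous_const hcont.norm).measurableSet
  have hsub : A ∩ Icc c (c + 2 ^ r) ⊆ S ∩ Icc c (c + 2 ^ r) :=
    inter_subset_inter_left _ hA
  refine (measure_mono hsub).trans ?_
  have hfin : volume (S ∩ Icc c (c + 2 ^ r)) ≠ ⊤ :=
    ne_top_of_le_ne_top (by rw [Real.volume_Icc]; exact ENNReal.ofReal_ne_top)
      (measure_mono inter_subset_right)
  rw [← ENNReal.ofReal_toReal hfin]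
  apply ENNReal.ofReal_le_ofReal
  have h1 := coef_window' r hkr hG hM hQ c
  have hint : IntegrableOn (fun Y => ‖coef G Y k j‖ ^ 2) (Icc c (c + 2 ^ r)) :=
    (hcont.norm.pow 2).integrableOn_Icc
  have h2 : β ^ 2 * (volume (S ∩ Icc c (c + 2 ^ r))).toReal ≤
      ∫ Y in Icc c (c + 2 ^ r), ‖coef G Y k j‖ ^ 2 := by
    calc β ^ 2 * (volume (S ∩ Icc c (c + 2 ^ r))).toReal
        = ∫ Y in S ∩ Icc c (c + 2 ^ r), β ^ 2 := by
          rw [setIntegral_const, smul_eq_mul, mul_comm]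
          rfl
      _ ≤ ∫ Y in S ∩ Icc c (c + 2 ^ r), ‖coef G Y k j‖ ^ 2 := by
          refine setIntegral_mono_on ?_ (hint.mono_set inter_subset_right)
            (hSm.inter measurableSet_Icc) fun Y hY => ?_
          · exact integrableOn_const hfin
          · have : β ≤ ‖coef G Y k j‖ := hY.1
            gcongr
      _ ≤ ∫ Y in Icc c (c + 2 ^ r), ‖coef G Y k j‖ ^ 2 := by
          refine setIntegral_mono_set hint ?_ (Filter.Eventually.of_forall inter_subset_right)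
          exact Filter.Eventually.of_forall fun Y => by positivity
  have hb2 : 0 < β ^ 2 := by positivity
  have h3 := h2.trans h1
  rw [mul_comm, ← le_div_iff₀ hb2] at h3
  refine h3.trans (le_of_eq ?_)
  ring

end Crest.Agent.R100.Mult939
end
end

-- ▼ part R100/PP_833
section

/-!
# R100 / S0132, helper833: the norm `N(J,g)` and the Plancherel-Polya inequality (B3 of doc 1968)
-/

set_option autoImplicit false

open MeasureTheory Set
open scoped ENNReal FourierTransform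

noncomputable section

namespace Crest.Agent.R100.PP833

open Crest.Agent.R100.Mart933 Crest.Agent.R100.Wide933 Crest.Agent.R100.Id833

/-! ## coefficients as functions of the label -/

variable {g : ℝ → ℂ} {M : ℝ}

theorem coef_eq_fourier (g : ℝ → ℂ) (Y : ℝ) (k : ℕ) (j : ℤ) :
    coef g Y k j = 2 ^ k * 𝓕 ((Ivl k j).indicator g) Y := by
  unfold coef
  rw [Real.fourier_real_eq_integral_exp_smul, ← integral_indicator (measurableSet_Ivl _ _)]
  congr 1
  refine integral_congr_ae (Filter.Eventually.of_forall fun y => ?_)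
  by_cases hy : y ∈ Ivl k j
  · simp only [indicator_of_mem hy]
    unfold e
    rw [smul_eq_mul, mul_comm]
    congr 2
    push_cast
    ring
  · simp only [indicator_of_notMem hy, smul_zero]

theorem integrable_ind (hg : Measurable g) (hM : ∀ x, ‖g x‖ ≤ M) (k : ℕ) (j : ℤ) :
    Integrable ((Ivl k j).indicator g) :=
  (integrable_indicator_iff (measurableSet_Ivl _ _)).2 (intOn k j hg hM)

theorem memLp_ind (hg : Measurable g) (hM : ∀ x, ‖g x‖ ≤ M) (k : ℕ) (j : ℤ) :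
    MemLp ((Ivl k j).indicator g) 2 := by
  rw [memLp_indicator_iff_restrict (measurableSet_Ivl _ _)]
  have : IsFiniteMeasure (volume.restrict (Ivl k j)) :=
    ⟨by rw [Measure.restrict_apply_univ, volume_Ivl]; exact ENNReal.ofReal_lt_top⟩
  exact MemLp.of_bound hg.aestronglyMeasurable M (Filter.Eventually.of_forall hM)

theorem continuous_coef (hg : Measurable g) (hM : ∀ x, ‖g x‖ ≤ M) (k : ℕ) (j : ℤ) :
    Continuous fun Y => coef g Y k j := by
  have h1 : Continuous (𝓕 ((Ivl k j).indicator g)) := by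
    have := VectorFourier.fourierIntegral_continuous (μ := (volume : Measure ℝ))
      (e := Real.fourierChar) (L := innerₗ ℝ) Real.continuous_fourierChar continuous_inner
      (integrable_ind hg hM k j)
    exact this
  simp_rw [coef_eq_fourier]
  exact continuous_const.mul h1

theorem measurable_coef (hg : Measurable g) (hM : ∀ x, ‖g x‖ ≤ M) (k : ℕ) (j : ℤ) :
    Measurable fun Y => coef g Y k j := (continuous_coef hg hM k j).measurable

/-- the `p`-th power of the norm: `|J| ∫ |c_J(g,Y)|^p dY` -/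
def Np (p : ℝ) (g : ℝ → ℂ) (k : ℕ) (j : ℤ) : ℝ≥0∞ :=
  ENNReal.ofReal (1 / 2 ^ k) * ∫⁻ Y, ‖coef g Y k j‖ₑ ^ p

/-- **Plancherel** -/
theorem plancherel (hg : Measurable g) (hM : ∀ x, ‖g x‖ ≤ M) (k : ℕ) (j : ℤ) :
    ∫⁻ Y, ‖coef g Y k j‖ₑ ^ (2 : ℝ) =
      ENNReal.ofReal (2 ^ k) ^ 2 * ∫⁻ y in Ivl k j, ‖g y‖ₑ ^ (2 : ℝ) := by
  have h := Crest.Agent.R081.Fr.eLpNorm_fourier (integrable_ind hg hM k j) (memLp_ind hg hM k j)
  have key : ∀ u : ℝ → ℂ, ∫⁻ y, ‖u y‖ₑ ^ (2 : ℝ) = eLpNorm u 2 volume ^ (2 : ℝ) := by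
    intro u
    rw [eLpNorm_eq_lintegral_rpow_enorm_toReal (by norm_num) (by norm_num)]
    simp only [ENNReal.toReal_ofNat]
    rw [← ENNReal.rpow_mul]
    norm_num
  have h1 : ∫⁻ y, ‖𝓕 ((Ivl k j).indicator g) y‖ₑ ^ (2 : ℝ) =
      ∫⁻ y, ‖(Ivl k j).indicator g y‖ₑ ^ (2 : ℝ) := by
    rw [key, key, h]
  have h2 : ∫⁻ y, ‖(Ivl k j).indicator g y‖ₑ ^ (2 : ℝ) = ∫⁻ y in Ivl k j, ‖g y‖ₑ ^ (2 : ℝ) := by
    rw [← lintegral_indicator (measurableSet_Ivl _ _)]
    refine lintegral_congr fun y => ?_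
    by_cases hy : y ∈ Ivl k j
    · rw [indicator_of_mem hy, indicator_of_mem hy]
    · rw [indicator_of_notMem hy, indicator_of_notMem hy]; simp
  have h3 : ∀ Y, ‖coef g Y k j‖ₑ ^ (2 : ℝ) =
      ENNReal.ofReal (2 ^ k) ^ 2 * ‖𝓕 ((Ivl k j).indicator g) Y‖ₑ ^ (2 : ℝ) := by
    intro Y
    rw [coef_eq_fourier, enorm_mul, ENNReal.mul_rpow_of_nonneg _ _ (by norm_num)]
    congr 1
    rw [← ENNReal.rpow_natCast]
    congr 1
    rw [← ofReal_norm]
    congr 1
    rw [norm_pow, Complex.norm_ofNat]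
  simp_rw [h3]
  rw [lintegral_const_mul' _ _ (by finiteness), h1, h2]

/-! ## the kernel `S(t) = ∫_0^1 e^{-2πiut} du` -/

/-- `S(t)` -/
def SK (t : ℝ) : ℂ := ∫ u in (0 : ℝ)..1, e (-u) t

theorem SK_zero : SK 0 = 1 := by
  unfold SK
  have : ∀ u : ℝ, e (-u) 0 = 1 := fun u => by unfold e; simp
  simp_rw [this]
  simp

theorem SK_eq {t : ℝ} (ht : t ≠ 0) :
    SK t = (Complex.exp (Complex.I * ((-(2 * Real.pi * t) : ℝ) : ℂ)) - 1) /
      (Complex.I * ((-(2 * Real.pi * t) : ℝ) : ℂ)) := by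
  have hc : (Complex.I * ((-(2 * Real.pi * t) : ℝ) : ℂ)) ≠ 0 := by
    refine mul_ne_zero Complex.I_ne_zero ?_
    rw [Ne, Complex.ofReal_eq_zero, neg_eq_zero]
    have := Real.pi_pos
    positivity
  have h := integral_exp_mul_complex (a := 0) (b := 1) hc
  unfold SK
  have e1 : ∀ u : ℝ, e (-u) t = Complex.exp (Complex.I * ((-(2 * Real.pi * t) : ℝ) : ℂ) * u) := by
    intro u
    unfold e
    congr 1
    push_cast
    ring
  simp_rw [e1]
  rw [h]
  simp

theorem norm_SK_ge {t : ℝ} (ht : |t| ≤ 1 / 2) : 2 / Real.pi ≤ ‖SK t‖ := by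
  have hpi := Real.pi_pos
  by_cases h0 : t = 0
  · rw [h0, SK_zero, norm_one, div_le_one hpi]
    linarith [Real.pi_gt_three]
  · have e0 : ‖Complex.I * ((-(2 * Real.pi * t) : ℝ) : ℂ)‖ = |-(2 * Real.pi * t)| := by
      rw [norm_mul, Complex.norm_I, one_mul, Complex.norm_real, Real.norm_eq_abs]
    rw [SK_eq h0, norm_div, Complex.norm_exp_I_mul_ofReal_sub_one, e0]
    have e1 : -(2 * Real.pi * t) / 2 = -(Real.pi * t) := by ring
    rw [e1, Real.sin_neg, Real.norm_eq_abs]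
    have e2 : |2 * -Real.sin (Real.pi * t)| = 2 * |Real.sin (Real.pi * t)| := by
      rw [abs_mul, abs_neg]; norm_num
    have e3 : |-(2 * Real.pi * t)| = 2 * Real.pi * |t| := by
      rw [abs_neg, abs_mul, abs_of_pos (by positivity)]
    rw [e2, e3]
    have ht0 : 0 < |t| := abs_pos.2 h0
    have h1 : 2 * |t| ≤ |Real.sin (Real.pi * t)| := by
      have h2 := Real.mul_le_sin (x := Real.pi * |t|) (by positivity) (by nlinarith)
      have h3 : 2 / Real.pi * (Real.pi * |t|) = 2 * |t| := by field_simp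
      rw [h3] at h2
      refine h2.trans ?_
      rcases abs_cases t with ⟨ha, _⟩ | ⟨ha, _⟩
      · rw [ha]; exact le_abs_self _
      · rw [ha, mul_neg, Real.sin_neg]; exact neg_le_abs _
    rw [div_le_div_iff₀ hpi (by positivity)]
    nlinarith

theorem measurable_SK : Measurable SK := by
  have : StronglyMeasurable (fun p : ℝ × ℝ => e (-p.2) p.1) :=
    (measurable_e₂ measurable_snd.neg measurable_fst).stronglyMeasurable
  have h2 := (StronglyMeasurable.integral_prod_right' (ν := volume.restrict (Ioc (0 : ℝ) 1))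
    this).measurable
  have e1 : SK = fun t => ∫ u in Ioc (0 : ℝ) 1, e (-u) t := by
    ext t
    unfold SK
    rw [intervalIntegral.integral_of_le zero_le_one]
  rw [e1]
  exact h2

/-- rescaled position in the node -/
def pos (k : ℕ) (j : ℤ) (y : ℝ) : ℝ := (y - (j + 1 / 2) / 2 ^ k) * 2 ^ k

theorem abs_pos_le {k : ℕ} {j : ℤ} {y : ℝ} (hy : y ∈ Ivl k j) : |pos k j y| ≤ 1 / 2 := by
  have h0 : (0 : ℝ) < 2 ^ k := by positivity
  unfold Ivl at hy
  obtain ⟨h1, h2⟩ := hy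
  rw [div_le_iff₀ h0] at h1
  rw [lt_div_iff₀ h0] at h2
  have e1 : pos k j y = y * 2 ^ k - (j + 1 / 2) := by
    unfold pos; rw [sub_mul, div_mul_cancel₀ _ h0.ne']
  rw [e1, abs_le]
  constructor <;> linarith

open Classical in
/-- the multiplier `(2/π)/S` -/
def mu (k : ℕ) (j : ℤ) (y : ℝ) : ℂ :=
  if |pos k j y| ≤ 1 / 2 then ((2 / Real.pi : ℝ) : ℂ) / SK (pos k j y) else 0

theorem norm_mu_le (k : ℕ) (j : ℤ) (y : ℝ) : ‖mu k j y‖ ≤ 1 := by
  classical
  unfold mu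
  split_ifs with h
  · have h1 := norm_SK_ge h
    have hpi := Real.pi_pos
    have h2 : (0 : ℝ) < 2 / Real.pi := by positivity
    rw [norm_div, Complex.norm_real, Real.norm_eq_abs, abs_of_pos h2]
    exact (div_le_one (h2.trans_le h1)).2 h1
  · simp

theorem measurable_mu (k : ℕ) (j : ℤ) : Measurable (mu k j) := by
  classical
  have hp : Measurable (pos k j) := by unfold pos; fun_prop
  unfold mu
  exact Measurable.ite (measurableSet_le hp.abs measurable_const)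
    (measurable_const.div (measurable_SK.comp hp)) measurable_const

theorem mu_mul_SK {k : ℕ} {j : ℤ} {y : ℝ} (hy : y ∈ Ivl k j) :
    mu k j y * SK (pos k j y) = ((2 / Real.pi : ℝ) : ℂ) := by
  classical
  have h := abs_pos_le hy
  have h1 := norm_SK_ge h
  have hpi := Real.pi_pos
  have h2 : (0 : ℝ) < 2 / Real.pi := by positivity
  have h3 : SK (pos k j y) ≠ 0 := by
    rw [← norm_pos_iff]; exact h2.trans_le h1
  unfold mu
  rw [if_pos h, div_mul_cancel₀ _ h3]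

theorem norm_mul_mu_le (hM : ∀ x, ‖g x‖ ≤ M) (k : ℕ) (j : ℤ) (x : ℝ) : ‖mu k j x * g x‖ ≤ M := by
  rw [norm_mul]
  calc ‖mu k j x‖ * ‖g x‖ ≤ 1 * M :=
        mul_le_mul (norm_mu_le k j x) (hM x) (norm_nonneg _) zero_le_one
    _ = M := one_mul _

/-- the reproducing formula -/
theorem repro (hg : Measurable g) (hM : ∀ x, ‖g x‖ ≤ M) (k : ℕ) (j : ℤ) (Y : ℝ) :
    ((2 / Real.pi : ℝ) : ℂ) * coef g Y k j =
      ∫ u in Ioc (0 : ℝ) 1, e (u * 2 ^ k) ((j + 1 / 2) / 2 ^ k) *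
        coef (fun y => mu k j y * g y) (Y + u * 2 ^ k) k j := by
  have h0 : (0 : ℝ) < 2 ^ k := by positivity
  -- rewrite the right side as a double integral
  have e1 : ∀ u : ℝ, e (u * 2 ^ k) ((j + 1 / 2) / 2 ^ k) *
        coef (fun y => mu k j y * g y) (Y + u * 2 ^ k) k j =
      2 ^ k * ∫ y in Ivl k j, mu k j y * g y * e (-Y) y * e (-u) (pos k j y) := by
    intro u
    unfold coef
    rw [← mul_assoc, mul_comm (e _ _) ((2 : ℂ) ^ k), mul_assoc, ← integral_const_mul]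
    congr 1
    refine integral_congr_ae (Filter.Eventually.of_forall fun y => ?_)
    have e2 : e (-(Y + u * 2 ^ k)) y = e (-Y) y * e (-(u * 2 ^ k)) y := by
      rw [← e_add]; congr 1; ring
    have e3 : e (-u) (pos k j y) = e (u * 2 ^ k) ((j + 1 / 2) / 2 ^ k) * e (-(u * 2 ^ k)) y := by
      unfold e pos
      rw [← Complex.exp_add]
      congr 1
      push_cast
      field_simp
      ring
    change e (u * 2 ^ k) ((j + 1 / 2) / 2 ^ k) * (mu k j y * g y * e (-(Y + u * 2 ^ k)) y) =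
      mu k j y * g y * e (-Y) y * e (-u) (pos k j y)
    rw [e2, e3]
    ring
  simp_rw [e1]
  rw [integral_const_mul]
  have hfin : volume (Ivl k j) < ⊤ := by rw [volume_Ivl]; exact ENNReal.ofReal_lt_top
  have : IsFiniteMeasure (volume.restrict (Ivl k j)) := ⟨by simpa using hfin⟩
  have hint : Integrable (fun p : ℝ × ℝ => mu k j p.2 * g p.2 * e (-Y) p.2 *
      e (-p.1) (pos k j p.2)) ((volume.restrict (Ioc (0 : ℝ) 1)).prod
        (volume.restrict (Ivl k j))) := by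
    refine Integrable.of_bound (Measurable.aestronglyMeasurable ?_) M
      (Filter.Eventually.of_forall fun p => ?_)
    · have hp : Measurable (pos k j) := by unfold pos; fun_prop
      exact ((((measurable_mu k j).comp measurable_snd).mul (hg.comp measurable_snd)).mul
        ((measurable_e _).comp measurable_snd)).mul
          (measurable_e₂ measurable_fst.neg (hp.comp measurable_snd))
    · rw [norm_mul, norm_mul, norm_e, norm_e, mul_one, mul_one]
      exact norm_mul_mu_le hM k j p.2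
  rw [integral_integral_swap (f := fun u y => mu k j y * g y * e (-Y) y * e (-u) (pos k j y)) hint]
  have e4 : ∫ y in Ivl k j, ∫ u in Ioc (0 : ℝ) 1, mu k j y * g y * e (-Y) y * e (-u) (pos k j y) =
      ∫ y in Ivl k j, ((2 / Real.pi : ℝ) : ℂ) * (g y * e (-Y) y) := by
    refine setIntegral_congr_fun (measurableSet_Ivl _ _) fun y hy => ?_
    rw [integral_const_mul]
    have : ∫ u in Ioc (0 : ℝ) 1, e (-u) (pos k j y) = SK (pos k j y) := by
      unfold SK
      rw [intervalIntegral.integral_of_le zero_le_one]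
    rw [this, ← mu_mul_SK hy]
    ring
  rw [e4, integral_const_mul]
  unfold coef
  ring

/-! ## Plancherel-Polya -/

theorem enorm_coef_le (hg : Measurable g) (hM : ∀ x, ‖g x‖ ≤ M) (k : ℕ) (j : ℤ) (Y : ℝ) :
    ‖coef g Y k j‖ₑ ≤ ENNReal.ofReal (Real.pi / 2) *
      ∫⁻ u in Ioc (0 : ℝ) 1, ‖coef (fun y => mu k j y * g y) (Y + u * 2 ^ k) k j‖ₑ := by
  have hpi := Real.pi_pos
  have h1 := repro hg hM k j Y
  have h2 : coef g Y k j = ((Real.pi / 2 : ℝ) : ℂ) * (((2 / Real.pi : ℝ) : ℂ) * coef g Y k j) := by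
    rw [← mul_assoc, ← Complex.ofReal_mul]
    have : Real.pi / 2 * (2 / Real.pi) = 1 := by field_simp
    rw [this, Complex.ofReal_one, one_mul]
  rw [h2, h1, enorm_mul]
  have h3 : ‖((Real.pi / 2 : ℝ) : ℂ)‖ₑ = ENNReal.ofReal (Real.pi / 2) := by
    rw [← ofReal_norm, Complex.norm_real, Real.norm_eq_abs, abs_of_pos (by positivity)]
  rw [h3]
  gcongr
  refine (enorm_integral_le_lintegral_enorm _).trans (le_of_eq ?_)
  refine lintegral_congr fun u => ?_
  rw [enorm_mul]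
  have : ‖e (u * 2 ^ k) ((j + 1 / 2) / 2 ^ k)‖ₑ = 1 := by
    rw [← ofReal_norm, norm_e, ENNReal.ofReal_one]
  rw [this, one_mul]

/-- Jensen on a probability space, `lintegral` form -/
theorem rpow_lintegral_le {α : Type*} [MeasurableSpace α] (ν : Measure α) [IsProbabilityMeasure ν]
    {p : ℝ} (hp : 1 ≤ p) {F : α → ℝ≥0∞} (hF : AEMeasurable F ν) :
    (∫⁻ a, F a ∂ν) ^ p ≤ ∫⁻ a, F a ^ p ∂ν := by
  rcases eq_or_lt_of_le hp with h1 | h1
  · rw [← h1]; simp
  · have hpq : p.HolderConjugate (p / (p - 1)) := Real.HolderConjugate.conjExponent h1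
    have h := ENNReal.lintegral_mul_le_Lp_mul_Lq ν hpq hF (g := fun _ => 1) aemeasurable_const
    simp only [Pi.mul_apply, mul_one, ENNReal.one_rpow, lintegral_const, measure_univ,
      ENNReal.one_rpow] at h
    have h0 : (0 : ℝ) < p := by linarith
    calc (∫⁻ a, F a ∂ν) ^ p ≤ ((∫⁻ a, F a ^ p ∂ν) ^ (1 / p)) ^ p := by gcongr
      _ = ∫⁻ a, F a ^ p ∂ν := by
        rw [← ENNReal.rpow_mul, one_div_mul_cancel h0.ne', ENNReal.rpow_one]

/-- affine change of variables -/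
theorem lintegral_affine {G : ℝ → ℝ≥0∞} (hG : Measurable G) {a : ℝ} (ha : 0 < a) (b : ℝ) :
    ∫⁻ u, G (a * u + b) = ENNReal.ofReal (1 / a) * ∫⁻ Z, G Z := by
  have h1 : ∫⁻ u, G (a * u + b) = ∫⁻ v, G (v + b) ∂(Measure.map (a * ·) volume) := by
    have h2 : Measurable fun v => G (v + b) := hG.comp (measurable_id.add_const b)
    exact (lintegral_map (μ := volume) h2 (measurable_const_mul a)).symm
  rw [h1, Real.map_volume_mul_left ha.ne', lintegral_smul_measure,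
    lintegral_add_right_eq_self (fun Z => G Z) b, smul_eq_mul, abs_of_pos (inv_pos.2 ha), one_div]

/-- pointwise form: the value at `Y` is controlled by the window `(Y, Y + 2^k]` -/
theorem rpow_coef_le {p : ℝ} (hp : 1 ≤ p) (hg : Measurable g) (hM : ∀ x, ‖g x‖ ≤ M) (k : ℕ)
    (j : ℤ) (Y : ℝ) :
    ‖coef g Y k j‖ₑ ^ p ≤ ENNReal.ofReal (Real.pi / 2) ^ p * (ENNReal.ofReal (1 / 2 ^ k) *
      ∫⁻ Z in Ioc Y (Y + 2 ^ k), ‖coef (fun y => mu k j y * g y) Z k j‖ₑ ^ p) := by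
  have h0 : (0 : ℝ) < 2 ^ k := by positivity
  have hp0 : 0 ≤ p := by linarith
  have hmg : Measurable fun y => mu k j y * g y := (measurable_mu k j).mul hg
  have hmc := measurable_coef hmg (norm_mul_mu_le hM k j) k j
  have : IsProbabilityMeasure (volume.restrict (Ioc (0 : ℝ) 1)) :=
    ⟨by rw [Measure.restrict_apply_univ, Real.volume_Ioc]; simp⟩
  have hFm : Measurable fun u : ℝ => ‖coef (fun y => mu k j y * g y) (Y + u * 2 ^ k) k j‖ₑ :=
    (hmc.comp (by fun_prop : Measurable fun u : ℝ => Y + u * 2 ^ k)).enorm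
  calc ‖coef g Y k j‖ₑ ^ p
      ≤ (ENNReal.ofReal (Real.pi / 2) * ∫⁻ u in Ioc (0 : ℝ) 1,
          ‖coef (fun y => mu k j y * g y) (Y + u * 2 ^ k) k j‖ₑ) ^ p := by
        gcongr
        exact enorm_coef_le hg hM k j Y
    _ = ENNReal.ofReal (Real.pi / 2) ^ p * (∫⁻ u in Ioc (0 : ℝ) 1,
          ‖coef (fun y => mu k j y * g y) (Y + u * 2 ^ k) k j‖ₑ) ^ p :=
        ENNReal.mul_rpow_of_nonneg _ _ hp0
    _ ≤ ENNReal.ofReal (Real.pi / 2) ^ p * ∫⁻ u in Ioc (0 : ℝ) 1,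
          ‖coef (fun y => mu k j y * g y) (Y + u * 2 ^ k) k j‖ₑ ^ p := by
        gcongr
        exact rpow_lintegral_le _ hp hFm.aemeasurable
    _ = _ := by
        congr 1
        -- change of variables
        have hG : Measurable fun Z : ℝ => (Ioc Y (Y + 2 ^ k)).indicator
            (fun Z => ‖coef (fun y => mu k j y * g y) Z k j‖ₑ ^ p) Z :=
          (hmc.enorm.pow_const p).indicator measurableSet_Ioc
        rw [← lintegral_indicator measurableSet_Ioc, ← lintegral_indicator measurableSet_Ioc]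
        have e1 : (fun u : ℝ => (Ioc (0 : ℝ) 1).indicator
            (fun u => ‖coef (fun y => mu k j y * g y) (Y + u * 2 ^ k) k j‖ₑ ^ p) u) =
            fun u => (fun Z : ℝ => (Ioc Y (Y + 2 ^ k)).indicator
              (fun Z => ‖coef (fun y => mu k j y * g y) Z k j‖ₑ ^ p) Z) (2 ^ k * u + Y) := by
          ext u
          have e2 : (2 : ℝ) ^ k * u + Y = Y + u * 2 ^ k := by ring
          simp only [e2]
          by_cases hu : u ∈ Ioc (0 : ℝ) 1
          · rw [indicator_of_mem hu, indicator_of_mem]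
            constructor
            · nlinarith [hu.1]
            · nlinarith [hu.2]
          · rw [indicator_of_notMem hu, indicator_of_notMem]
            rintro ⟨h1, h2⟩
            refine hu ⟨?_, ?_⟩
            · by_contra hc
              push Not at hc
              nlinarith
            · by_contra hc
              push Not at hc
              nlinarith
        rw [e1]
        exact lintegral_affine hG h0 Y

/-- **Plancherel-Polya**: for values `Y i` in distinct cells `[i 2^k, (i+1) 2^k)`,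
`∑ |c_J(g, Y i)|^p ≤ 2 (π/2)^p |J| ∫ |c_J(μ g, Z)|^p dZ`. -/
theorem PP {p : ℝ} (hp : 1 ≤ p) (hg : Measurable g) (hM : ∀ x, ‖g x‖ ≤ M) (k : ℕ) (j : ℤ)
    (I : Finset ℤ) (Y : ℤ → ℝ) (hY : ∀ i ∈ I, (i : ℝ) * 2 ^ k ≤ Y i ∧ Y i < (i + 1) * 2 ^ k) :
    ∑ i ∈ I, ‖coef g (Y i) k j‖ₑ ^ p ≤
      2 * ENNReal.ofReal (Real.pi / 2) ^ p * Np p (fun y => mu k j y * g y) k j := by
  classical
  have h0 : (0 : ℝ) < 2 ^ k := by positivity
  set G : ℝ → ℝ≥0∞ := fun Z => ‖coef (fun y => mu k j y * g y) Z k j‖ₑ ^ p with hG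
  -- the two disjoint families of windows
  have hdis : ∀ s : ℝ, ∑ i ∈ I, ∫⁻ Z in Ico (((i : ℝ) + s) * 2 ^ k) ((i + s + 1) * 2 ^ k), G Z ≤
      ∫⁻ Z, G Z := by
    intro s
    rw [← lintegral_biUnion_finset ?_ (fun i _ => measurableSet_Ico)]
    · exact setLIntegral_le_lintegral _ _
    · intro i _ i' _ hne
      change Disjoint (Ico _ _) (Ico _ _)
      rw [Set.disjoint_left]
      rintro x ⟨h1, h2⟩ ⟨h3, h4⟩
      have h5 : (i : ℝ) < i' + 1 := by
        by_contra hc; push Not at hc; nlinarith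
      have h6 : (i' : ℝ) < i + 1 := by
        by_contra hc; push Not at hc; nlinarith
      have h7 : i < i' + 1 := by exact_mod_cast h5
      have h8 : i' < i + 1 := by exact_mod_cast h6
      exact hne (by omega)
  have hwin : ∀ i ∈ I, ∫⁻ Z in Ioc (Y i) (Y i + 2 ^ k), G Z ≤
      (∫⁻ Z in Ico (((i : ℝ) + 0) * 2 ^ k) ((i + 0 + 1) * 2 ^ k), G Z) +
        ∫⁻ Z in Ico (((i : ℝ) + 1) * 2 ^ k) ((i + 1 + 1) * 2 ^ k), G Z := by
    intro i hi
    obtain ⟨h1, h2⟩ := hY i hi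
    refine le_trans (lintegral_mono_set ?_) (lintegral_union_le _ _ _)
    rintro x ⟨h3, h4⟩
    rcases lt_or_ge x ((i + 1) * 2 ^ k) with h5 | h5
    · left
      exact ⟨by simp only [add_zero]; linarith, by simpa using h5⟩
    · right
      refine ⟨h5, ?_⟩
      have : ((i : ℝ) + 1 + 1) * 2 ^ k = (i + 1) * 2 ^ k + 2 ^ k := by ring
      rw [this]
      linarith
  calc ∑ i ∈ I, ‖coef g (Y i) k j‖ₑ ^ p
      ≤ ∑ i ∈ I, ENNReal.ofReal (Real.pi / 2) ^ p * (ENNReal.ofReal (1 / 2 ^ k) *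
          ∫⁻ Z in Ioc (Y i) (Y i + 2 ^ k), G Z) :=
        Finset.sum_le_sum fun i _ => rpow_coef_le hp hg hM k j (Y i)
    _ ≤ ∑ i ∈ I, ENNReal.ofReal (Real.pi / 2) ^ p * (ENNReal.ofReal (1 / 2 ^ k) *
          ((∫⁻ Z in Ico (((i : ℝ) + 0) * 2 ^ k) ((i + 0 + 1) * 2 ^ k), G Z) +
            ∫⁻ Z in Ico (((i : ℝ) + 1) * 2 ^ k) ((i + 1 + 1) * 2 ^ k), G Z)) := by
        refine Finset.sum_le_sum fun i hi => ?_
        gcongr
        exact hwin i hi
    _ = ENNReal.ofReal (Real.pi / 2) ^ p * (ENNReal.ofReal (1 / 2 ^ k) *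
          ((∑ i ∈ I, ∫⁻ Z in Ico (((i : ℝ) + 0) * 2 ^ k) ((i + 0 + 1) * 2 ^ k), G Z) +
            ∑ i ∈ I, ∫⁻ Z in Ico (((i : ℝ) + 1) * 2 ^ k) ((i + 1 + 1) * 2 ^ k), G Z)) := by
        rw [← Finset.sum_add_distrib, Finset.mul_sum, Finset.mul_sum]
    _ ≤ ENNReal.ofReal (Real.pi / 2) ^ p * (ENNReal.ofReal (1 / 2 ^ k) *
          ((∫⁻ Z, G Z) + ∫⁻ Z, G Z)) := by
        gcongr
        · exact hdis 0
        · exact hdis 1
    _ = 2 * ENNReal.ofReal (Real.pi / 2) ^ p * Np p (fun y => mu k j y * g y) k j := by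
        unfold Np
        rw [← two_mul]
        ring


/-- **Plancherel-Polya from near-maximality for all multipliers** -/
theorem PP' {p : ℝ} (hp : 1 ≤ p) (hg : Measurable g) (hM : ∀ x, ‖g x‖ ≤ M) (k : ℕ) (j : ℤ)
    {Λ : ℝ≥0∞} (hΛ : ∀ m : ℝ → ℂ, Measurable m → (∀ x, ‖m x‖ ≤ 1) →
      Np p (fun y => m y * g y) k j ≤ Λ) (I : Finset ℤ) (Y : ℤ → ℝ)
    (hY : ∀ i ∈ I, (i : ℝ) * 2 ^ k ≤ Y i ∧ Y i < (i + 1) * 2 ^ k) :
    ∑ i ∈ I, ‖coef g (Y i) k j‖ₑ ^ p ≤ 2 * ENNReal.ofReal (Real.pi / 2) ^ p * Λ := by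
  refine (PP hp hg hM k j I Y hY).trans ?_
  gcongr
  exact hΛ _ (measurable_mu k j) (norm_mu_le k j)

end Crest.Agent.R100.PP833
end
end

-- ▼ part R100/LB_905
section

/-!
# R100 / S0132, helper905: lower-bound glue (B3 + B4)

From the near-maximiser block (node `k0 j0`, `g`, `κ`, densities `≤ 2`, lower bound for the
`L^p` norm of the labels) to ONE cap `R`, ONE level `b` and ONE set of labels `Λ`.
-/

set_option autoImplicit false

open MeasureTheory Set
open scoped ENNReal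

noncomputable section

namespace Crest.Agent.R100.LB905

open Crest.Agent.R100.Mart933 Crest.Agent.R100.Wide933 Crest.Agent.R100.Id833
open Crest.Agent.R100.Caps341 Crest.Agent.R100.Pop341 Crest.Agent.R100.PP833

variable {g : ℝ → ℂ} {κ : ℝ → ℕ} {M : ℝ}

/-- the labels with small coefficients carry little of the `p`-norm -/
theorem small_labels (hg : Measurable g) (hM : ∀ x, ‖g x‖ ≤ M) (k : ℕ) (j : ℤ) {β p Q : ℝ}
    (hβ : 0 < β) (hp : 2 ≤ p) (hQ : avN g k j ≤ Q) :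
    ∫⁻ Y in {Y | ‖coef g Y k j‖ < β}, ‖coef g Y k j‖ₑ ^ p ≤
      ENNReal.ofReal (2 ^ k * (β ^ (p - 2) * (M * Q))) := by
  have hM0 : 0 ≤ M := (norm_nonneg _).trans (hM 0)
  have h1 : ∀ Y ∈ {Y | ‖coef g Y k j‖ < β}, ‖coef g Y k j‖ₑ ^ p ≤
      ENNReal.ofReal β ^ (p - 2) * ‖coef g Y k j‖ₑ ^ (2 : ℝ) := by
    intro Y hY
    rw [mem_ofPred_eq] at hY
    have e1 : ‖coef g Y k j‖ₑ ^ p = ‖coef g Y k j‖ₑ ^ (p - 2) * ‖coef g Y k j‖ₑ ^ (2 : ℝ) := by
      rw [← ENNReal.rpow_add_of_nonneg _ _ (by linarith) (by norm_num)]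
      congr 1; ring
    rw [e1]
    gcongr
    rw [← ofReal_norm]
    exact ENNReal.ofReal_le_ofReal hY.le
  have hmc : Measurable fun Y => ‖coef g Y k j‖ₑ ^ (2 : ℝ) :=
    (PP833.measurable_coef hg hM k j).enorm.pow_const _
  have h2 : ∫⁻ y in Ivl k j, ‖g y‖ₑ ^ (2 : ℝ) ≤ ENNReal.ofReal (1 / 2 ^ k * (M * Q)) := by
    have h3 : ∀ y, ‖g y‖ₑ ^ (2 : ℝ) ≤ ENNReal.ofReal (M * ‖g y‖) := by
      intro y
      rw [← ofReal_norm, ENNReal.ofReal_rpow_of_nonneg (norm_nonneg _) (by norm_num)]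
      refine ENNReal.ofReal_le_ofReal ?_
      have : ‖g y‖ ^ (2 : ℝ) = ‖g y‖ * ‖g y‖ := by
        rw [show (2 : ℝ) = ((2 : ℕ) : ℝ) by norm_num, Real.rpow_natCast, pow_two]
      rw [this]
      exact mul_le_mul_of_nonneg_right (hM y) (norm_nonneg _)
    refine (lintegral_mono h3).trans ?_
    rw [← ofReal_integral_eq_lintegral_ofReal]
    · refine ENNReal.ofReal_le_ofReal ?_
      rw [integral_const_mul]
      have h4 : ∫ y in Ivl k j, ‖g y‖ = 1 / 2 ^ k * avN g k j := by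
        unfold avN
        rw [← mul_assoc, one_div, inv_mul_cancel₀ (by positivity), one_mul]
      rw [h4]
      calc M * (1 / 2 ^ k * avN g k j) = 1 / 2 ^ k * (M * avN g k j) := by ring
        _ ≤ _ := by gcongr
    · exact (intOn k j hg.norm (M := M) fun x => by simpa using hM x).const_mul M
    · exact Filter.Eventually.of_forall fun y => mul_nonneg hM0 (norm_nonneg _)
  calc ∫⁻ Y in {Y | ‖coef g Y k j‖ < β}, ‖coef g Y k j‖ₑ ^ p
      ≤ ∫⁻ Y in {Y | ‖coef g Y k j‖ < β}, ENNReal.ofReal β ^ (p - 2) * ‖coef g Y k j‖ₑ ^ (2 : ℝ) :=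
        setLIntegral_mono (hmc.const_mul _) h1
    _ ≤ ∫⁻ Y, ENNReal.ofReal β ^ (p - 2) * ‖coef g Y k j‖ₑ ^ (2 : ℝ) :=
        setLIntegral_le_lintegral _ _
    _ = ENNReal.ofReal β ^ (p - 2) * (ENNReal.ofReal (2 ^ k) ^ 2 *
          ∫⁻ y in Ivl k j, ‖g y‖ₑ ^ (2 : ℝ)) := by
        rw [lintegral_const_mul _ hmc, plancherel hg hM]
    _ ≤ ENNReal.ofReal β ^ (p - 2) * (ENNReal.ofReal (2 ^ k) ^ 2 *
          ENNReal.ofReal (1 / 2 ^ k * (M * Q))) := by gcongr
    _ = _ := by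
        rw [ENNReal.ofReal_rpow_of_pos hβ, ← ENNReal.ofReal_pow (by positivity),
          ← ENNReal.ofReal_mul (by positivity), ← ENNReal.ofReal_mul (by positivity)]
        congr 1
        field_simp

/-- the set of labels with large coefficients has finite measure -/
theorem volume_large (hg : Measurable g) (hM : ∀ x, ‖g x‖ ≤ M) (k : ℕ) (j : ℤ) {β : ℝ}
    (hβ : 0 < β) {A : Set ℝ} (hA : ∀ Y ∈ A, β ≤ ‖coef g Y k j‖) : volume A ≠ ⊤ := by
  have hM0 : 0 ≤ M := (norm_nonneg _).trans (hM 0)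
  have hmc : Measurable fun Y => ‖coef g Y k j‖ₑ ^ (2 : ℝ) :=
    (PP833.measurable_coef hg hM k j).enorm.pow_const _
  have hfin : ∫⁻ Y, ‖coef g Y k j‖ₑ ^ (2 : ℝ) ≠ ⊤ := by
    rw [plancherel hg hM]
    refine ENNReal.mul_ne_top (by finiteness) ?_
    have h1 : ∫⁻ y in Ivl k j, ‖g y‖ₑ ^ (2 : ℝ) ≤ ∫⁻ _ in Ivl k j, ENNReal.ofReal M ^ (2 : ℝ) := by
      refine lintegral_mono fun y => ?_
      refine ENNReal.rpow_le_rpow ?_ (by norm_num)
      rw [← ofReal_norm]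
      exact ENNReal.ofReal_le_ofReal (hM y)
    refine ne_top_of_le_ne_top ?_ h1
    rw [setLIntegral_const, volume_Ivl]
    finiteness
  have h1 : A ⊆ {Y | ENNReal.ofReal β ^ (2 : ℝ) ≤ ‖coef g Y k j‖ₑ ^ (2 : ℝ)} := by
    intro Y hY
    rw [mem_ofPred_eq]
    refine ENNReal.rpow_le_rpow ?_ (by norm_num)
    rw [← ofReal_norm]
    exact ENNReal.ofReal_le_ofReal (hA Y hY)
  have h2 := mul_meas_ge_le_lintegral (μ := volume) hmc (ENNReal.ofReal β ^ (2 : ℝ))
  have h3 : ENNReal.ofReal β ^ (2 : ℝ) ≠ 0 := by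
    rw [ENNReal.ofReal_rpow_of_pos hβ]
    exact (ENNReal.ofReal_pos.2 (by positivity)).ne'
  intro hcon
  have h4 : volume {Y | ENNReal.ofReal β ^ (2 : ℝ) ≤ ‖coef g Y k j‖ₑ ^ (2 : ℝ)} = ⊤ :=
    top_unique (hcon ▸ measure_mono h1)
  rw [h4, ENNReal.mul_top h3] at h2
  exact hfin (top_unique h2)


/-- **LB glue.**  `N = Np p g k0 j0`. -/
theorem lb_glue (hg : Measurable g) (hM : ∀ x, ‖g x‖ ≤ M) (hκ : Measurable κ) {m : ℕ}
    (hm : ∀ y, κ y ≤ m) {k0 : ℕ} {j0 : ℤ} (hgt : ∀ y, k0 < κ y)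
    (hd : ∀ k j, avN (fun y => if k ≤ κ y then g y else 0) k j ≤ 2) {p Λ₀ β : ℝ} (hp : 2 ≤ p)
    (hΛ : 0 < Λ₀) (hβ : 0 < β) (hβ1 : β ≤ 1)
    (hlb : ENNReal.ofReal Λ₀ ≤ Np p g k0 j0) (hub : Np p g k0 j0 ≠ ⊤)
    (hnum : β ^ (p - 2) * (M * 2) ≤ Λ₀ / 2) :
    ∃ (R : ℕ) (b : ℝ) (Λ : Set ℝ), MeasurableSet Λ ∧ volume Λ ≠ 0 ∧ volume Λ ≠ ⊤ ∧
      k0 + 2 ≤ R ∧ 3 / 8 * β ≤ b ∧ b ≤ 2 ∧
      (∀ Y ∈ Λ, b ≤ ‖coef (lo g κ R) Y k0 j0‖) ∧
      Np p g k0 j0 ≤ ENNReal.ofReal (700 / β ^ 2 * (1 / 2 ^ k0)) * volume Λ *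
        ENNReal.ofReal (16 / 3 * b) ^ p ∧
      (∀ u : ℝ, volume (Λ ∩ Icc u (u + 2 ^ (R - 1))) ≤
        ENNReal.ofReal (2 ^ k0 * (150 / β ^ 2))) := by
  have hM0 : 0 ≤ M := (norm_nonneg _).trans (hM 0)
  have hk0 : (0 : ℝ) < 2 ^ k0 := by positivity
  have hPb : (fun y => if k0 ≤ κ y then g y else 0) = g := by
    ext y
    rw [if_pos (hgt y).le]
  have hav : avN g k0 j0 ≤ 2 := by
    have := hd k0 j0
    rwa [hPb] at this
  -- the total
  set T := ∫⁻ Y, ‖coef g Y k0 j0‖ₑ ^ p with hT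
  have hNT : Np p g k0 j0 = ENNReal.ofReal (1 / 2 ^ k0) * T := rfl
  have hTN : T = ENNReal.ofReal (2 ^ k0) * Np p g k0 j0 := by
    rw [hNT, ← mul_assoc, ← ENNReal.ofReal_mul hk0.le, mul_one_div_cancel hk0.ne',
      ENNReal.ofReal_one, one_mul]
  have hT0 : T ≠ 0 := by
    intro h
    rw [hNT, h, mul_zero] at hlb
    exact absurd (nonpos_iff_eq_zero.1 hlb) (ENNReal.ofReal_pos.2 hΛ).ne'
  have hTt : T ≠ ⊤ := by
    rw [hTN]
    exact ENNReal.mul_ne_top ENNReal.ofReal_ne_top hub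
  have hsmall : ∫⁻ Y in {Y | ‖coef g Y k0 j0‖ < β}, ‖coef g Y k0 j0‖ₑ ^ p ≤ T / 2 := by
    refine (small_labels hg hM k0 j0 hβ hp hav).trans ?_
    rw [hTN]
    calc ENNReal.ofReal (2 ^ k0 * (β ^ (p - 2) * (M * 2)))
        ≤ ENNReal.ofReal (2 ^ k0 * (Λ₀ / 2)) := by
          refine ENNReal.ofReal_le_ofReal ?_
          gcongr
      _ = ENNReal.ofReal (2 ^ k0) * ENNReal.ofReal Λ₀ / 2 := by
          rw [ENNReal.ofReal_mul hk0.le, ENNReal.ofReal_div_of_pos (by norm_num),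
            ENNReal.ofReal_ofNat, mul_div_assoc]
      _ ≤ _ := by gcongr
  -- number of levels
  set J : ℕ := ⌈16 / (3 * β)⌉₊ with hJ
  have hJ0 : 16 / (3 * β) ≤ J := Nat.le_ceil _
  have hJ1 : (J : ℝ) < 16 / (3 * β) + 1 := Nat.ceil_lt_add_one (by positivity)
  have hJlt : (J : ℝ) < 2 ^ J := by exact_mod_cast Nat.lt_two_pow_self
  have hJ2 : avN g k0 j0 < 2 ^ J * (3 / 8 * β) := by
    have h1 : 16 / (3 * β) < 2 ^ J := hJ0.trans_lt hJlt
    rw [div_lt_iff₀ (by positivity)] at h1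
    nlinarith
  obtain ⟨R, -, hR1, i, hiJ, hpop⟩ := pop hg hM hκ hm k0 j0 hβ hJ2 (by linarith : (0 : ℝ) ≤ p)
    hT0 hTt hsmall
  set b : ℝ := 2 ^ i * (3 / 8 * β) with hb
  have hb0 : 3 / 8 * β ≤ b := by
    have : (1 : ℝ) ≤ 2 ^ i := one_le_pow₀ (by norm_num)
    nlinarith
  have hbpos : 0 < b := lt_of_lt_of_le (by positivity) hb0
  set Λ := LL g κ k0 j0 β R b with hΛd
  have hvol0 : volume Λ ≠ 0 := by
    intro h
    rw [h, zero_mul, mul_zero] at hpop
    exact hT0 (nonpos_iff_eq_zero.1 hpop)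
  have hvolt : volume Λ ≠ ⊤ := volume_large hg hM k0 j0 hβ fun Y hY => hY.1
  obtain ⟨Y₀, hY₀⟩ : Λ.Nonempty := by
    by_contra h
    rw [not_nonempty_iff_eq_empty] at h
    rw [h] at hvol0
    exact hvol0 measure_empty
  have hR2 : k0 + 2 ≤ R := by
    by_contra hcon
    have hz : lo g κ R = fun _ => 0 := by
      ext y
      unfold lo
      rw [if_neg]
      have := hgt y
      omega
    have h1 := hY₀.2.2.2.1
    rw [hz] at h1
    unfold coef at h1
    simp only [zero_mul, integral_zero, mul_zero, norm_zero] at h1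
    linarith
  have hb2 : b ≤ 2 := by
    have h1 := hY₀.2.2.2.1
    have h2 := norm_coef_le (lo g κ R) Y₀ k0 j0
    have h3 := Caps341.avN_mono (measurable_lo hg hκ R)
      (fun x => (norm_lo_le g κ R x).trans (hM x)) hg hM (norm_lo_le g κ R) k0 j0
    linarith
  refine ⟨R, b, Λ, measurableSet_LL hg hκ k0 j0 β R b, hvol0, hvolt, hR2, hb0, hb2,
    fun Y hY => hY.2.2.2.1, ?_, ?_⟩
  · -- popularity
    rw [hNT]
    have hc : ((2 * (⌊avN g k0 j0 / (β / 8)⌋₊ + 1) * J : ℕ) : ℝ) ≤ 350 / β ^ 2 := by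
      have h1 : (⌊avN g k0 j0 / (β / 8)⌋₊ : ℝ) ≤ 16 / β := by
        refine (Nat.floor_le (div_nonneg (avN_nonneg _ _ _) (by positivity))).trans ?_
        rw [div_le_div_iff₀ (by positivity) hβ]
        nlinarith
      have h2 : (1 : ℝ) ≤ 1 / β := by
        rw [le_div_iff₀ hβ]; linarith
      have h3 : 16 / (3 * β) = 16 / 3 * (1 / β) := by
        field_simp
      have h4 : (16 : ℝ) / β = 16 * (1 / β) := by
        field_simp
      have h5 : (350 : ℝ) / β ^ 2 = 350 * ((1 / β) * (1 / β)) := by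
        field_simp
      push_cast
      rw [h3] at hJ1
      rw [h4] at h1
      rw [h5]
      have h6 : (J : ℝ) ≤ 19 / 3 * (1 / β) := by linarith
      have h7 : (2 : ℝ) * (⌊avN g k0 j0 / (β / 8)⌋₊ + 1) ≤ 34 * (1 / β) := by linarith
      calc 2 * ((⌊avN g k0 j0 / (β / 8)⌋₊ : ℝ) + 1) * J
          ≤ 34 * (1 / β) * (19 / 3 * (1 / β)) := by gcongr
        _ ≤ _ := by
            have : 0 ≤ (1 / β) * (1 / β) := by positivity
            nlinarith
    have hc' : ((2 * (⌊avN g k0 j0 / (β / 8)⌋₊ + 1) * J : ℕ) : ℝ≥0∞) ≤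
        ENNReal.ofReal (350 / β ^ 2) := by
      rw [← ENNReal.ofReal_natCast]
      exact ENNReal.ofReal_le_ofReal hc
    calc ENNReal.ofReal (1 / 2 ^ k0) * T
        ≤ ENNReal.ofReal (1 / 2 ^ k0) * (2 * ENNReal.ofReal (350 / β ^ 2) *
          (volume Λ * ENNReal.ofReal (16 / 3 * b) ^ p)) := by
          gcongr
          refine hpop.trans ?_
          gcongr
      _ = _ := by
          have e1 : ENNReal.ofReal (700 / β ^ 2 * (1 / 2 ^ k0)) =
              ENNReal.ofReal (1 / 2 ^ k0) * (2 * ENNReal.ofReal (350 / β ^ 2)) := by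
            have e2 : (700 : ℝ) / β ^ 2 * (1 / 2 ^ k0) = 1 / 2 ^ k0 * (2 * (350 / β ^ 2)) := by
              ring
            rw [e2, ENNReal.ofReal_mul (by positivity), ENNReal.ofReal_mul (by norm_num),
              ENNReal.ofReal_ofNat]
          rw [e1]
          ring
  · -- multiplicity
    intro u
    have h1 := Mult939.mult (G := hi g κ (R - 1)) (R - 1) (k := k0) (j := j0) (by omega)
      (measurable_hi hg hκ _) (fun x => (norm_hi_le g κ _ x).trans (hM x)) (Q := 2)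
      (fun i _ => hd (R - 1) i) (β := 3 / 8 * β) (by positivity) (A := Λ)
      (fun Y hY => by
        have h2 := hY.2.2.1
        have h3 := hY.1
        linarith) u
    refine h1.trans (ENNReal.ofReal_le_ofReal ?_)
    have h2 : avN (hi g κ (R - 1)) k0 j0 ≤ 2 :=
      (Caps341.avN_mono (measurable_hi hg hκ _)
        (fun x => (norm_hi_le g κ _ x).trans (hM x)) hg hM (norm_hi_le g κ _) k0 j0).trans hav
    have h3 := avN_nonneg (hi g κ (R - 1)) k0 j0
    have hpi : Real.pi ^ 2 ≤ 10 := by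
      have := Real.pi_lt_d2
      have := Real.pi_pos
      nlinarith
    refine mul_le_mul_of_nonneg_left ?_ hk0.le
    rw [div_le_div_iff₀ (by positivity) (by positivity)]
    have h4 : Real.pi ^ 2 / 2 * 2 * avN (hi g κ (R - 1)) k0 j0 ≤ 20 := by
      have := Real.pi_pos
      nlinarith [sq_nonneg Real.pi]
    have h5 : 0 ≤ β ^ 2 := by positivity
    nlinarith

end Crest.Agent.R100.LB905
end
end

-- ▼ part R100/Near_903
section

/-!
# R100 / S0132, helper903: functional, near-maximiser, stopping time (B1 + B2 of doc 1968,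
simplified: no density factor, no dense nodes)

States `(k, j, g, r)`: `g` complex, `|g| ≤ |f|`, supported in the node and in the kept set `E0`,
`k ≤ κ₀`, remaining payment at least `r`.  Near-maximiser of `exp (p r / v) * N_p`.
-/

set_option autoImplicit false

open MeasureTheory Set
open scoped ENNReal

noncomputable section

namespace Crest.Agent.R100.Near903

open Crest.Agent.R100.Mart933 Crest.Agent.R100.Wide933 Crest.Agent.R100.Id833
open Crest.Agent.R100.PP833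

theorem coef_congr {g g' : ℝ → ℂ} {k : ℕ} {j : ℤ} (h : ∀ y ∈ Ivl k j, g y = g' y) (Y : ℝ) :
    coef g Y k j = coef g' Y k j := by
  unfold coef
  congr 1
  refine setIntegral_congr_fun (measurableSet_Ivl _ _) fun y hy => ?_
  simp only [h y hy]

theorem Np_congr {p : ℝ} {g g' : ℝ → ℂ} {k : ℕ} {j : ℤ} (h : ∀ y ∈ Ivl k j, g y = g' y) :
    Np p g k j = Np p g' k j := by
  unfold Np
  simp only [coef_congr h]

variable {s : ℝ → ℂ} {θ : ℝ → ℝ} {al : ℕ → ℤ → Prop} {f : ℝ → ℂ} {n m : ℕ} {p v V : ℝ}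
  {E0 : Set ℝ}

/-! ## first times -/

open Classical in
/-- first time at which the accumulated payment reaches `V` (`m + 1` if it never does) -/
def kz (s : ℝ → ℂ) (θ : ℝ → ℝ) (al : ℕ → ℤ → Prop) (m : ℕ) (V : ℝ) (y : ℝ) : ℕ :=
  Nat.find (p := fun k => V ≤ ‖Pay s θ al k y‖ ∨ k = m + 1) ⟨m + 1, Or.inr rfl⟩

open Classical in
/-- first time after `k0` at which the payment since `k0` reaches `v` -/
def kp (s : ℝ → ℂ) (θ : ℝ → ℝ) (al : ℕ → ℤ → Prop) (m k0 : ℕ) (v : ℝ) (y : ℝ) : ℕ :=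
  Nat.find (p := fun k => (k0 < k ∧ v ≤ ‖Pay s θ al k y - Pay s θ al k0 y‖) ∨ k = k0 + m + 1)
    ⟨k0 + m + 1, Or.inr rfl⟩


theorem measurable_kp (hs : Measurable s) (hθ : Measurable θ) (m k0 : ℕ) (v : ℝ) :
    Measurable (kp s θ al m k0 v) := by
  classical
  unfold kp
  refine measurable_find
    (p := fun y k => (k0 < k ∧ v ≤ ‖Pay s θ al k y - Pay s θ al k0 y‖) ∨ k = k0 + m + 1)
    (fun y => ⟨k0 + m + 1, Or.inr rfl⟩) fun k => ?_
  by_cases hk : k = k0 + m + 1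
  · simp [hk]
  · by_cases hk' : k0 < k
    · simp only [hk, hk', or_false, true_and]
      exact measurableSet_le measurable_const
        ((measurable_Pay hs hθ k).sub (measurable_Pay hs hθ k0)).norm
    · simp [hk, hk']

theorem kz_spec {y : ℝ} (h : ∃ k ≤ m, V ≤ ‖Pay s θ al k y‖) :
    kz s θ al m V y ≤ m ∧ V ≤ ‖Pay s θ al (kz s θ al m V y) y‖ := by
  classical
  obtain ⟨k, hk, hV⟩ := h
  have h1 : kz s θ al m V y ≤ k := Nat.find_min' _ (Or.inl hV)
  have h2 : V ≤ ‖Pay s θ al (kz s θ al m V y) y‖ ∨ kz s θ al m V y = m + 1 :=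
    Nat.find_spec (p := fun k => V ≤ ‖Pay s θ al k y‖ ∨ k = m + 1) ⟨m + 1, Or.inr rfl⟩
  refine ⟨h1.trans hk, ?_⟩
  rcases h2 with h2 | h2
  · exact h2
  · omega

theorem lt_of_lt_kz {y : ℝ} {k : ℕ} (h : k < kz s θ al m V y) : ‖Pay s θ al k y‖ < V := by
  classical
  have := Nat.find_min (p := fun k => V ≤ ‖Pay s θ al k y‖ ∨ k = m + 1) ⟨m + 1, Or.inr rfl⟩ h
  push Not at this
  exact this.1

theorem kp_gt (m k0 : ℕ) (v : ℝ) (y : ℝ) : k0 < kp s θ al m k0 v y := by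
  classical
  have h2 : (k0 < kp s θ al m k0 v y ∧
      v ≤ ‖Pay s θ al (kp s θ al m k0 v y) y - Pay s θ al k0 y‖) ∨
      kp s θ al m k0 v y = k0 + m + 1 :=
    Nat.find_spec (p := fun k => (k0 < k ∧ v ≤ ‖Pay s θ al k y - Pay s θ al k0 y‖) ∨
      k = k0 + m + 1) ⟨k0 + m + 1, Or.inr rfl⟩
  rcases h2 with h2 | h2
  · exact h2.1
  · omega

theorem kp_spec {k0 : ℕ} {y : ℝ} {k : ℕ} (hk0 : k0 < k) (hkm : k ≤ k0 + m)
    (h : v ≤ ‖Pay s θ al k y - Pay s θ al k0 y‖) :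
    kp s θ al m k0 v y ≤ k ∧
      v ≤ ‖Pay s θ al (kp s θ al m k0 v y) y - Pay s θ al k0 y‖ := by
  classical
  have h1 : kp s θ al m k0 v y ≤ k := Nat.find_min' _ (Or.inl ⟨hk0, h⟩)
  have h2 : (k0 < kp s θ al m k0 v y ∧
      v ≤ ‖Pay s θ al (kp s θ al m k0 v y) y - Pay s θ al k0 y‖) ∨
      kp s θ al m k0 v y = k0 + m + 1 :=
    Nat.find_spec (p := fun k => (k0 < k ∧ v ≤ ‖Pay s θ al k y - Pay s θ al k0 y‖) ∨
      k = k0 + m + 1) ⟨k0 + m + 1, Or.inr rfl⟩
  refine ⟨h1, ?_⟩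
  rcases h2 with h2 | h2
  · exact h2.2
  · omega

theorem lt_of_lt_kp {k0 : ℕ} {y : ℝ} {k : ℕ} (hv : 0 < v) (hk0 : k0 ≤ k)
    (h : k < kp s θ al m k0 v y) : ‖Pay s θ al k y - Pay s θ al k0 y‖ < v := by
  classical
  have := Nat.find_min (p := fun k => (k0 < k ∧ v ≤ ‖Pay s θ al k y - Pay s θ al k0 y‖) ∨
      k = k0 + m + 1) ⟨k0 + m + 1, Or.inr rfl⟩ h
  push Not at this
  rcases hk0.eq_or_lt with h0 | h0
  · rw [← h0, sub_self, norm_zero]; exact hv
  · exact this.1 h0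

/-- one step changes the payment by at most one -/
theorem norm_Pay_succ_le (hs1 : ∀ x, ‖s x‖ ≤ 1) (k0 k : ℕ) (y : ℝ) :
    ‖Pay s θ al (k + 1) y - Pay s θ al k0 y‖ ≤ ‖Pay s θ al k y - Pay s θ al k0 y‖ + 1 := by
  have h : Pay s θ al (k + 1) y - Pay s θ al k0 y =
      (Pay s θ al k y - Pay s θ al k0 y) + pay s θ al k y := by
    unfold Pay
    rw [Finset.sum_range_succ]
    ring
  rw [h]
  exact (norm_add_le _ _).trans (by gcongr; exact norm_pay hs1 k y)

theorem norm_le_of_le_kp (hs1 : ∀ x, ‖s x‖ ≤ 1) {k0 : ℕ} {y : ℝ} {k : ℕ} (hv : 0 < v)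
    (hk0 : k0 ≤ k) (h : k ≤ kp s θ al m k0 v y) :
    ‖Pay s θ al k y - Pay s θ al k0 y‖ ≤ v + 1 := by
  rcases h.lt_or_eq with h | h
  · exact (lt_of_lt_kp hv hk0 h).le.trans (by linarith)
  · have hgt := kp_gt (s := s) (θ := θ) (al := al) m k0 v y
    obtain ⟨k', rfl⟩ : ∃ k', k = k' + 1 := ⟨k - 1, by omega⟩
    refine (norm_Pay_succ_le hs1 k0 k' y).trans ?_
    have := lt_of_lt_kp (s := s) (θ := θ) (al := al) (m := m) (k0 := k0) (y := y) (k := k') hv
      (by omega) (by omega)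
    linarith

theorem norm_Pay_le_of_le_kz (hs1 : ∀ x, ‖s x‖ ≤ 1) {y : ℝ} {k : ℕ} (hV : 0 < V)
    (h : k ≤ kz s θ al m V y) : ‖Pay s θ al k y‖ ≤ V + 1 := by
  rcases h.lt_or_eq with h | h
  · exact (lt_of_lt_kz h).le.trans (by linarith)
  · rcases Nat.eq_zero_or_pos k with h0 | h0
    · subst h0; simp [Pay]; linarith
    · obtain ⟨k', rfl⟩ : ∃ k', k = k' + 1 := ⟨k - 1, by omega⟩
      have h1 := norm_Pay_succ_le (s := s) (θ := θ) (al := al) hs1 0 k' y
      have h2 := lt_of_lt_kz (s := s) (θ := θ) (al := al) (m := m) (V := V) (y := y) (k := k')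
        (by omega)
      simp only [Pay, Finset.range_zero, Finset.sum_empty, sub_zero] at h1 h2 ⊢
      linarith

/-! ## liveness -/

/-- the payment just before a first time is not zero, so the node is alive -/
theorem al_of_pay_ne {k : ℕ} {y : ℝ} (h : pay s θ al k y ≠ 0) : al k (fl k y) := by
  classical
  by_contra h'
  exact h (by unfold pay; rw [if_neg h'])

theorem al_anc (hcl : ∀ k j, al (k + 1) j → al k (j / 2)) {k : ℕ} {y : ℝ} (h : al k (fl k y))
    {k' : ℕ} (hk : k' ≤ k) : al k' (fl k' y) := by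
  obtain ⟨d, rfl⟩ := Nat.exists_eq_add_of_le hk
  induction d with
  | zero => exact h
  | succ d ih =>
    refine ih ?_ (by omega)
    have := hcl (k' + d) (fl (k' + d + 1) y) h
    rwa [← fl_half] at this

theorem al_of_lt_kp (hcl : ∀ k j, al (k + 1) j → al k (j / 2)) {k0 : ℕ} {y : ℝ} (hv : 0 < v)
    (h1 : v ≤ ‖Pay s θ al (kp s θ al m k0 v y) y - Pay s θ al k0 y‖) {k : ℕ}
    (h : k < kp s θ al m k0 v y) : al k (fl k y) := by
  have hgt := kp_gt (s := s) (θ := θ) (al := al) m k0 v y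
  obtain ⟨k', hk'⟩ : ∃ k', kp s θ al m k0 v y = k' + 1 := ⟨kp s θ al m k0 v y - 1, by omega⟩
  refine al_anc hcl (k := k') ?_ (by omega)
  refine al_of_pay_ne (s := s) (θ := θ) fun h0 => ?_
  have h2 := lt_of_lt_kp (s := s) (θ := θ) (al := al) (m := m) (k0 := k0) (y := y) (k := k') hv
    (by omega) (by omega)
  rw [hk'] at h1
  have h3 : Pay s θ al (k' + 1) y - Pay s θ al k0 y = Pay s θ al k' y - Pay s θ al k0 y := by
    unfold Pay
    rw [Finset.sum_range_succ, h0]; ring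
  rw [h3] at h1
  linarith

theorem al_of_lt_kz (hcl : ∀ k j, al (k + 1) j → al k (j / 2)) {y : ℝ}
    (h1 : V ≤ ‖Pay s θ al (kz s θ al m V y) y‖) {k : ℕ}
    (h : k < kz s θ al m V y) : al k (fl k y) := by
  obtain ⟨k', hk'⟩ : ∃ k', kz s θ al m V y = k' + 1 := ⟨kz s θ al m V y - 1, by omega⟩
  refine al_anc hcl (k := k') ?_ (by omega)
  refine al_of_pay_ne (s := s) (θ := θ) fun h0 => ?_
  have h2 := lt_of_lt_kz (s := s) (θ := θ) (al := al) (m := m) (V := V) (y := y) (k := k')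
    (by omega)
  rw [hk'] at h1
  have h3 : Pay s θ al (k' + 1) y = Pay s θ al k' y := by
    unfold Pay
    rw [Finset.sum_range_succ, h0, add_zero]
  rw [h3] at h1
  linarith

/-! ## states -/

/-- phase of the total payment -/
def ub (s : ℝ → ℂ) (θ : ℝ → ℝ) (al : ℕ → ℤ → Prop) (m : ℕ) (V : ℝ) (y : ℝ) : ℂ :=
  (starRingEnd ℂ) (Pay s θ al (kz s θ al m V y) y) / (‖Pay s θ al (kz s θ al m V y) y‖ : ℂ)

/-- remaining payment -/
def Rem (s : ℝ → ℂ) (θ : ℝ → ℝ) (al : ℕ → ℤ → Prop) (m : ℕ) (V : ℝ) (k : ℕ) (y : ℝ) : ℝ :=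
  (ub s θ al m V y * (Pay s θ al (kz s θ al m V y) y - Pay s θ al k y)).re

theorem norm_ub_le (y : ℝ) : ‖ub s θ al m V y‖ ≤ 1 := by
  unfold ub
  rw [norm_div, RCLike.norm_conj, Complex.norm_real, norm_norm]
  exact div_self_le_one _

theorem Rem_zero (hV : 0 < V) {y : ℝ} (h : V ≤ ‖Pay s θ al (kz s θ al m V y) y‖) :
    V ≤ Rem s θ al m V 0 y := by
  unfold Rem ub
  set P := Pay s θ al (kz s θ al m V y) y
  have h0 : Pay s θ al 0 y = 0 := by simp [Pay]
  have hP : 0 < ‖P‖ := hV.trans_le h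
  have hn : (‖P‖ : ℂ) ≠ 0 := by
    rw [Ne, Complex.ofReal_eq_zero]; exact hP.ne'
  have : (starRingEnd ℂ) P / (‖P‖ : ℂ) * (P - Pay s θ al 0 y) = (‖P‖ : ℂ) := by
    rw [h0, sub_zero, div_mul_eq_mul_div, mul_comm ((starRingEnd ℂ) P) P, Complex.mul_conj,
      Complex.normSq_eq_norm_sq]
    push_cast
    rw [pow_two, mul_div_assoc, div_self hn, mul_one]
  rw [this, Complex.ofReal_re]
  exact h

theorem Rem_le (hs1 : ∀ x, ‖s x‖ ≤ 1) (hV : 0 < V) {k : ℕ} {y : ℝ} (h : k ≤ kz s θ al m V y) :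
    Rem s θ al m V k y ≤ 2 * V + 2 := by
  unfold Rem
  refine (Complex.re_le_norm _).trans ?_
  rw [norm_mul]
  have h1 := norm_Pay_le_of_le_kz (s := s) (θ := θ) (al := al) (m := m) (V := V) (y := y)
    hs1 hV (le_refl _)
  have h2 := norm_Pay_le_of_le_kz (s := s) (θ := θ) (al := al) (m := m) (V := V) (y := y)
    hs1 hV h
  calc _ ≤ 1 * (‖Pay s θ al (kz s θ al m V y) y‖ + ‖Pay s θ al k y‖) := by
        gcongr
        · exact norm_ub_le y
        · exact norm_sub_le _ _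
    _ ≤ 2 * V + 2 := by linarith

theorem Rem_diff {k k0 : ℕ} {y : ℝ} :
    Rem s θ al m V k0 y - ‖Pay s θ al k y - Pay s θ al k0 y‖ ≤ Rem s θ al m V k y := by
  unfold Rem
  have h : ub s θ al m V y * (Pay s θ al (kz s θ al m V y) y - Pay s θ al k0 y) =
      ub s θ al m V y * (Pay s θ al (kz s θ al m V y) y - Pay s θ al k y) +
        ub s θ al m V y * (Pay s θ al k y - Pay s θ al k0 y) := by ring
  rw [h, Complex.add_re]
  have h1 : (ub s θ al m V y * (Pay s θ al k y - Pay s θ al k0 y)).re ≤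
      ‖Pay s θ al k y - Pay s θ al k0 y‖ := by
    refine (Complex.re_le_norm _).trans ?_
    rw [norm_mul]
    calc _ ≤ 1 * ‖Pay s θ al k y - Pay s θ al k0 y‖ := by
          gcongr
          exact norm_ub_le y
      _ = _ := one_mul _
  linarith

/-- states of the functional -/
structure St (s : ℝ → ℂ) (θ : ℝ → ℝ) (al : ℕ → ℤ → Prop) (f : ℝ → ℂ) (m : ℕ) (V : ℝ)
    (E0 : Set ℝ) (k : ℕ) (j : ℤ) (g : ℝ → ℂ) (r : ℝ) : Prop where
  meas : Measurable g
  le : ∀ y, ‖g y‖ ≤ ‖f y‖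
  sup : ∀ y, g y ≠ 0 → y ∈ Ivl k j ∧ y ∈ E0 ∧ k ≤ kz s θ al m V y ∧ r ≤ Rem s θ al m V k y

/-! ## bounds of the functional -/

theorem Np_le (hp : 2 ≤ p) {g : ℝ → ℂ} (hg : Measurable g) (hM : ∀ y, ‖g y‖ ≤ 2 ^ n) {k : ℕ}
    {j : ℤ} (hav : avN g k j ≤ 2) : Np p g k j ≤ ENNReal.ofReal (2 ^ (p + n)) := by
  have hc : ∀ Y, ‖coef g Y k j‖ₑ ≤ ENNReal.ofReal 2 := by
    intro Y
    rw [← ofReal_norm]
    exact ENNReal.ofReal_le_ofReal ((norm_coef_le g Y k j).trans hav)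
  have h1 : ∀ Y, ‖coef g Y k j‖ₑ ^ p ≤ ENNReal.ofReal 2 ^ (p - 2) * ‖coef g Y k j‖ₑ ^ (2 : ℝ) := by
    intro Y
    have : ‖coef g Y k j‖ₑ ^ p = ‖coef g Y k j‖ₑ ^ (p - 2) * ‖coef g Y k j‖ₑ ^ (2 : ℝ) := by
      rw [← ENNReal.rpow_add_of_nonneg _ _ (by linarith) (by norm_num)]
      congr 1; ring
    rw [this]
    exact mul_le_mul_left (ENNReal.rpow_le_rpow (hc Y) (by linarith)) _
  have h2 : ∫⁻ y in Ivl k j, ‖g y‖ₑ ^ (2 : ℝ) ≤ ENNReal.ofReal (2 ^ n) * ENNReal.ofReal (2 / 2 ^ k) := by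
    have ha : ∀ y, ‖g y‖ₑ ^ (2 : ℝ) ≤ ENNReal.ofReal (2 ^ n) * ‖g y‖ₑ := by
      intro y
      rw [ENNReal.rpow_two, pow_two]
      gcongr
      rw [← ofReal_norm]
      exact ENNReal.ofReal_le_ofReal (hM y)
    refine (lintegral_mono fun y => ha y).trans ?_
    rw [lintegral_const_mul _ hg.enorm]
    gcongr
    have hi : IntegrableOn (fun y => ‖g y‖) (Ivl k j) :=
      intOn k j hg.norm (M := 2 ^ n) (fun x => by simpa using hM x)
    have hi2 : ∫⁻ y in Ivl k j, ‖g y‖ₑ = ENNReal.ofReal (∫ y in Ivl k j, ‖g y‖) := by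
      rw [ofReal_integral_eq_lintegral_ofReal hi (Filter.Eventually.of_forall fun y => norm_nonneg _)]
      simp only [ofReal_norm]
    rw [hi2]
    refine ENNReal.ofReal_le_ofReal ?_
    unfold avN at hav
    rw [le_div_iff₀ (by positivity)]
    linarith
  unfold Np
  calc _ ≤ ENNReal.ofReal (1 / 2 ^ k) *
        ∫⁻ Y, ENNReal.ofReal 2 ^ (p - 2) * ‖coef g Y k j‖ₑ ^ (2 : ℝ) := by
        gcongr with Y
        exact h1 Y
    _ = ENNReal.ofReal (1 / 2 ^ k) * (ENNReal.ofReal 2 ^ (p - 2) *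
        (ENNReal.ofReal (2 ^ k) ^ 2 * ∫⁻ y in Ivl k j, ‖g y‖ₑ ^ (2 : ℝ))) := by
        rw [lintegral_const_mul' _ _ (by finiteness), plancherel hg hM k j]
    _ ≤ ENNReal.ofReal (1 / 2 ^ k) * (ENNReal.ofReal 2 ^ (p - 2) *
        (ENNReal.ofReal (2 ^ k) ^ 2 *
          (ENNReal.ofReal (2 ^ n) * ENNReal.ofReal (2 / 2 ^ k)))) := by gcongr
    _ = ENNReal.ofReal ((1 / 2 ^ k) * (2 ^ (p - 2) * ((2 ^ k) ^ 2 * (2 ^ n * (2 / 2 ^ k))))) := by
        rw [ENNReal.ofReal_mul (by positivity), ENNReal.ofReal_mul (by positivity),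
          ENNReal.ofReal_mul (by positivity), ENNReal.ofReal_mul (by positivity),
          ← ENNReal.ofReal_pow (p := (2 : ℝ) ^ k) (by positivity),
          ENNReal.ofReal_rpow_of_pos (by norm_num)]
    _ ≤ _ := by
        refine ENNReal.ofReal_le_ofReal ?_
        have hk : (0 : ℝ) < 2 ^ k := by positivity
        have e1 : (1 / 2 ^ k : ℝ) * (2 ^ (p - 2) * ((2 ^ k) ^ 2 * (2 ^ n * (2 / 2 ^ k)))) =
            2 ^ (p - 2) * 2 ^ n * 2 := by
          field_simp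
        rw [e1, Real.rpow_add (by norm_num), Real.rpow_sub (by norm_num), Real.rpow_natCast]
        have h3 : (0 : ℝ) < 2 ^ p := by positivity
        have h4 : (0 : ℝ) < 2 ^ n := by positivity
        norm_num
        nlinarith [mul_pos h3 h4]

theorem Np_eq_zero (hp : 0 < p) {g : ℝ → ℂ} {k : ℕ} {j : ℤ} (h : ∀ y ∈ Ivl k j, g y = 0) :
    Np p g k j = 0 := by
  rw [Np_congr (g' := fun _ => 0) h]
  unfold Np coef
  simp [hp]

/-- lower bound at the root -/
theorem Np_root (hp : 2 ≤ p) {g : ℝ → ℝ} (hg : Measurable g) (hg0 : ∀ y, 0 ≤ g y)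
    {M : ℝ} (hM : ∀ y, ‖(g y : ℂ)‖ ≤ M) {mu : ℝ} (hmu : 0 < mu)
    (hmu' : mu ≤ ∫ y in Ivl 0 0, g y) :
    ENNReal.ofReal ((mu / 4) ^ p) ≤ Np p (fun y => (g y : ℂ)) 0 0 := by
  have hgi : IntegrableOn g (Ivl 0 0) :=
    intOn 0 0 hg (M := M) (fun x => by simpa using hM x)
  have hgm : Measurable (fun y => (g y : ℂ)) := Complex.measurable_ofReal.comp hg
  have key : ∀ Y ∈ Icc (-(1 / 8) : ℝ) (1 / 8), 7 / 10 * mu ≤ ‖coef (fun y => (g y : ℂ)) Y 0 0‖ := by
    intro Y hY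
    refine le_trans ?_ (Complex.re_le_norm _)
    unfold coef
    rw [pow_zero, one_mul]
    have hint := integrable_fe (f := fun y => (g y : ℂ)) hgm hM (-Y) 0 0
    have h1 : (∫ y in Ivl 0 0, (g y : ℂ) * e (-Y) y).re =
        ∫ y in Ivl 0 0, ((g y : ℂ) * e (-Y) y).re := (integral_re hint).symm
    rw [h1]
    calc 7 / 10 * mu ≤ 7 / 10 * ∫ y in Ivl 0 0, g y := by gcongr
      _ = ∫ y in Ivl 0 0, 7 / 10 * g y := (integral_const_mul _ _).symm
      _ ≤ _ := by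
        refine setIntegral_mono_on (hgi.const_mul _) hint.re (measurableSet_Ivl _ _) fun y hy => ?_
        have hy' : (0 : ℝ) ≤ y ∧ y < 1 := by simpa [Ivl] using hy
        have he : ((g y : ℂ) * e (-Y) y).re = g y * Real.cos (2 * Real.pi * (-Y * y)) := by
          unfold e
          rw [Complex.re_ofReal_mul, Complex.exp_ofReal_mul_I_re]
        rw [he, mul_comm (7 / 10 : ℝ)]
        refine mul_le_mul_of_nonneg_left ?_ (hg0 y)
        rw [← Real.cos_abs]
        have hpi := Real.pi_pos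
        have hY' : |Y| ≤ 1 / 8 := abs_le.2 ⟨by linarith [hY.1], hY.2⟩
        have hab : |2 * Real.pi * (-Y * y)| ≤ Real.pi / 4 := by
          rw [abs_mul, abs_mul (-Y) y, abs_neg, abs_of_pos (by positivity : (0 : ℝ) < 2 * Real.pi),
            abs_of_nonneg hy'.1]
          have : |Y| * y ≤ 1 / 8 * 1 := by
            apply mul_le_mul hY' hy'.2.le hy'.1 (by norm_num)
          nlinarith
        have hcos : Real.cos (Real.pi / 4) ≤ Real.cos |2 * Real.pi * (-Y * y)| :=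
          Real.cos_le_cos_of_nonneg_of_le_pi (abs_nonneg _) (by linarith) hab
        rw [Real.cos_pi_div_four] at hcos
        have h2 : (7 / 5 : ℝ) ≤ Real.sqrt 2 := Real.le_sqrt_of_sq_le (by norm_num)
        linarith
  unfold Np
  have h2 : ENNReal.ofReal (7 / 10 * mu) ^ p * ENNReal.ofReal (1 / 4) ≤
      ∫⁻ Y, ‖coef (fun y => (g y : ℂ)) Y 0 0‖ₑ ^ p := by
    have hv : volume (Icc (-(1 / 8) : ℝ) (1 / 8)) = ENNReal.ofReal (1 / 4) := by
      rw [Real.volume_Icc]; congr 1; norm_num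
    rw [← hv, ← setLIntegral_const]
    refine (setLIntegral_mono' measurableSet_Icc fun Y hY => ?_).trans (setLIntegral_le_lintegral _ _)
    refine ENNReal.rpow_le_rpow ?_ (by linarith)
    rw [← ofReal_norm]
    exact ENNReal.ofReal_le_ofReal (key Y hY)
  calc ENNReal.ofReal ((mu / 4) ^ p) ≤ ENNReal.ofReal ((7 / 10 * mu) ^ p * (1 / 4)) := by
        refine ENNReal.ofReal_le_ofReal ?_
        have e1 : (7 / 10 * mu) ^ p = (mu / 4) ^ p * (14 / 5 : ℝ) ^ p := by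
          rw [← Real.mul_rpow (by positivity) (by norm_num)]
          congr 1; ring
        have e2 : (4 : ℝ) ≤ (14 / 5 : ℝ) ^ p := by
          calc (4 : ℝ) ≤ (14 / 5 : ℝ) ^ (2 : ℝ) := by norm_num
            _ ≤ _ := Real.rpow_le_rpow_of_exponent_le (by norm_num) hp
        rw [e1]
        have h3 : 0 < (mu / 4) ^ p := by positivity
        nlinarith
    _ = ENNReal.ofReal (7 / 10 * mu) ^ p * ENNReal.ofReal (1 / 4) := by
        rw [ENNReal.ofReal_mul (by positivity), ENNReal.ofReal_rpow_of_pos (by positivity)]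
    _ ≤ ENNReal.ofReal (1 / 2 ^ 0) * ∫⁻ Y, ‖coef (fun y => (g y : ℂ)) Y 0 0‖ₑ ^ p := by
        simpa using h2

/-! ## the near-maximiser -/

/-- output of the maximisation -/
structure Blk (s : ℝ → ℂ) (θ : ℝ → ℝ) (al : ℕ → ℤ → Prop) (f : ℝ → ℂ) (n m : ℕ) (p v V mu : ℝ)
    (k0 : ℕ) (j0 : ℤ) (g : ℝ → ℂ) (κ : ℝ → ℕ) : Prop where
  meas_g : Measurable g
  meas_κ : Measurable κ
  le_f : ∀ y, ‖g y‖ ≤ ‖f y‖
  supp : ∀ y, g y ≠ 0 → y ∈ Ivl k0 j0 ∧ y ∈ Ivl 0 0
  gt : ∀ y, k0 < κ y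
  le_m : ∀ y, κ y ≤ m
  pay : ∀ y, g y ≠ 0 → v ≤ ‖Pay s θ al (κ y) y - Pay s θ al k0 y‖
  pay' : ∀ y, g y ≠ 0 → ∀ k, k0 ≤ k → k ≤ κ y → ‖Pay s θ al k y - Pay s θ al k0 y‖ ≤ v + 1
  live : ∀ y, g y ≠ 0 → ∀ k < κ y, al k (fl k y)
  dens1 : ∀ k j, avN (fun y => if k < κ y then g y else 0) k j ≤ 1
  dens2 : ∀ k j, avN (fun y => if k ≤ κ y then g y else 0) k j ≤ 2
  nm : ∀ k, k0 ≤ k → ∀ (j : ℤ) (g' : ℝ → ℂ), Measurable g' →
    (∀ y ∈ Ivl k j, ‖g' y‖ ≤ if k ≤ κ y then ‖g y‖ else 0) →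
    Np p g' k j ≤ ENNReal.ofReal (9 ^ p) * Np p g k0 j0
  lb : ENNReal.ofReal (1 / 2 * (mu / 4 * Real.exp (-(V + 3) / v)) ^ p) ≤ Np p g k0 j0
  ub : Np p g k0 j0 ≤ ENNReal.ofReal (2 ^ (p + n))

theorem avN_le_avN {g g' : ℝ → ℂ} {k : ℕ} {j : ℤ} (hg : Measurable g) {M : ℝ}
    (hM : ∀ y, ‖g y‖ ≤ M) (h : ∀ y ∈ Ivl k j, ‖g' y‖ ≤ ‖g y‖) : avN g' k j ≤ avN g k j := by
  unfold avN
  refine mul_le_mul_of_nonneg_left ?_ (by positivity)
  refine integral_mono_of_nonneg (Filter.Eventually.of_forall fun y => norm_nonneg _)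
    (intOn k j hg.norm (M := M) (fun x => by simpa using hM x)) ?_
  refine (ae_restrict_iff' (measurableSet_Ivl _ _)).2 (Filter.Eventually.of_forall h)

theorem avN_child {g : ℝ → ℂ} (hg : Measurable g) {M : ℝ} (hM : ∀ y, ‖g y‖ ≤ M) (k : ℕ) (j : ℤ) :
    avN g (k + 1) j ≤ 2 * avN g k (j / 2) := by
  have h := avN_split hg hM k (j / 2)
  have h1 := avN_nonneg g (k + 1) (2 * (j / 2))
  have h2 := avN_nonneg g (k + 1) (2 * (j / 2) + 1)
  rcases Int.emod_two_eq_zero_or_one j with h0 | h0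
  · have : j = 2 * (j / 2) := by omega
    rw [this, show 2 * (j / 2) / 2 = j / 2 by omega]
    linarith
  · have : j = 2 * (j / 2) + 1 := by omega
    rw [this, show (2 * (j / 2) + 1) / 2 = j / 2 by omega]
    linarith

/-- density bound from liveness -/
theorem dens_of_live (hf : Measurable f) {M : ℝ} (hM : ∀ x, ‖f x‖ ≤ M)
    (hd : ∀ k j, al k j → avN f k j ≤ 1) {g : ℝ → ℂ} {k : ℕ} {j : ℤ}
    (hg : ∀ y ∈ Ivl k j, ‖g y‖ ≤ ‖f y‖)
    (h : ∀ y ∈ Ivl k j, g y ≠ 0 → al k (fl k y)) : avN g k j ≤ 1 := by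
  by_cases h0 : ∃ y ∈ Ivl k j, g y ≠ 0
  · obtain ⟨y, hy, hy0⟩ := h0
    have h1 := h y hy hy0
    rw [mem_Ivl.1 hy] at h1
    exact (avN_le_avN hf hM hg).trans (hd k j h1)
  · push Not at h0
    have : avN g k j = 0 := by
      unfold avN
      rw [setIntegral_congr_fun (measurableSet_Ivl _ _) (g := fun _ => (0 : ℝ))
        (fun y hy => by simp [h0 y hy])]
      simp
    rw [this]; norm_num

theorem dens_of_live' (hf : Measurable f) {M : ℝ} (hM : ∀ x, ‖f x‖ ≤ M)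
    (hd : ∀ k j, al k j → avN f k j ≤ 1) {g : ℝ → ℂ} {k : ℕ} {j : ℤ}
    (hg : ∀ y ∈ Ivl k j, ‖g y‖ ≤ ‖f y‖)
    (h : ∀ y ∈ Ivl k j, g y ≠ 0 → al (k - 1) (fl (k - 1) y)) : avN g k j ≤ 2 := by
  by_cases h0 : ∃ y ∈ Ivl k j, g y ≠ 0
  · obtain ⟨y, hy, hy0⟩ := h0
    have h1 := h y hy hy0
    refine (avN_le_avN hf hM hg).trans ?_
    rcases Nat.eq_zero_or_pos k with hk | hk
    · subst hk
      have := hd 0 j (by simpa [mem_Ivl.1 hy] using h1)
      linarith
    · obtain ⟨k', rfl⟩ : ∃ k', k = k' + 1 := ⟨k - 1, by omega⟩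
      rw [Nat.add_sub_cancel, fl_half, mem_Ivl.1 hy] at h1
      have h2 := hd _ _ h1
      have h3 := avN_child hf hM k' j
      linarith
  · push Not at h0
    have : avN g k j = 0 := by
      unfold avN
      rw [setIntegral_congr_fun (measurableSet_Ivl _ _) (g := fun _ => (0 : ℝ))
        (fun y hy => by simp [h0 y hy])]
      simp
    rw [this]; norm_num

/-- a state with a nonzero functional has a bounded level -/
theorem St.r_le (hs1 : ∀ x, ‖s x‖ ≤ 1) (hV : 0 < V) (hp : 0 < p) {k : ℕ} {j : ℤ} {g : ℝ → ℂ}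
    {r : ℝ} (h : St s θ al f m V E0 k j g r) (h0 : Np p g k j ≠ 0) :
    r ≤ 2 * V + 2 ∧ ∃ y, g y ≠ 0 := by
  have : ∃ y ∈ Ivl k j, g y ≠ 0 := by
    by_contra hc
    push Not at hc
    exact h0 (Np_eq_zero hp hc)
  obtain ⟨y, -, hy⟩ := this
  obtain ⟨-, -, h1, h2⟩ := h.sup y hy
  exact ⟨h2.trans (Rem_le hs1 hV h1), y, hy⟩

theorem St.Np_le (hf : Measurable f) (hn : ∀ x, ‖f x‖ ≤ 2 ^ n)
    (hcl : ∀ k j, al (k + 1) j → al k (j / 2)) (hd : ∀ k j, al k j → avN f k j ≤ 1)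
    (hV : 0 < V) (hE : ∀ y ∈ E0, ∃ k ≤ m, V ≤ ‖Pay s θ al k y‖) (hp : 2 ≤ p) {k : ℕ} {j : ℤ}
    {g : ℝ → ℂ} {r : ℝ} (h : St s θ al f m V E0 k j g r) :
    Np p g k j ≤ ENNReal.ofReal (2 ^ (p + n)) := by
  refine Near903.Np_le hp h.meas (fun y => (h.le y).trans (hn y)) ?_
  refine dens_of_live' (al := al) hf hn hd (fun y _ => h.le y) fun y _ hy => ?_
  obtain ⟨-, h1, h2, -⟩ := h.sup y hy
  obtain ⟨h3, h4⟩ := kz_spec (hE y h1)
  have h5 : 0 < kz s θ al m V y := by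
    rcases Nat.eq_zero_or_pos (kz s θ al m V y) with h0 | h0
    · rw [h0] at h4
      simp [Pay] at h4
      linarith
    · exact h0
  exact al_of_lt_kz hcl h4 (by omega)

/-- **B1 + B2**: near-maximiser of the functional and its stopping time -/
theorem exists_blk (hf : Measurable f) (hn : ∀ x, ‖f x‖ ≤ 2 ^ n) (hs : Measurable s)
    (hs1 : ∀ x, ‖s x‖ ≤ 1) (hθ : Measurable θ)
    (hcl : ∀ k j, al (k + 1) j → al k (j / 2)) (hd : ∀ k j, al k j → avN f k j ≤ 1)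
    (hE : MeasurableSet E0) (hE0 : E0 ⊆ Ivl 0 0) (hEV : ∀ y ∈ E0, ∃ k ≤ m, V ≤ ‖Pay s θ al k y‖)
    (hV0 : 0 < V) {mu : ℝ} (hmu : 0 < mu) (hmu' : mu ≤ ∫ y in E0, ‖f y‖) (hp : 2 ≤ p)
    (hpv : p ≤ v) (hnum : v * (4 + Real.log (4 / mu)) + v / p * (n + 3) + 2 < V) :
    ∃ (k0 : ℕ) (j0 : ℤ) (g : ℝ → ℂ) (κ : ℝ → ℕ), Blk s θ al f n m p v V mu k0 j0 g κ := by
  classical
  have hp0 : 0 < p := by linarith
  have hv0 : 0 < v := by linarith
  -- the mass is at most one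
  have hmu1 : mu ≤ 1 := by
    have hne : E0.Nonempty := by
      by_contra hc
      rw [not_nonempty_iff_eq_empty] at hc
      rw [hc] at hmu'
      simp at hmu'
      linarith
    obtain ⟨y, hy⟩ := hne
    obtain ⟨h3, h4⟩ := kz_spec (hEV y hy)
    have h5 : 0 < kz s θ al m V y := by
      rcases Nat.eq_zero_or_pos (kz s θ al m V y) with h0 | h0
      · rw [h0] at h4
        simp [Pay] at h4
        linarith
      · exact h0
    have h6 := hd _ _ (al_of_lt_kz hcl h4 h5)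
    rw [mem_Ivl.1 (hE0 hy)] at h6
    refine hmu'.trans (le_trans ?_ h6)
    unfold avN
    rw [pow_zero, one_mul]
    exact setIntegral_mono_set (intOn 0 0 hf.norm (M := 2 ^ n) (fun x => by simpa using hn x))
      (Filter.Eventually.of_forall fun y => norm_nonneg _) hE0.eventuallyLE
  have hlog : 0 ≤ Real.log (4 / mu) := Real.log_nonneg (by rw [le_div_iff₀ hmu]; linarith)
  set w : ℝ → ℝ≥0∞ := fun r => ENNReal.ofReal (Real.exp (p * r / v)) with hw
  set 𝒮 : Set ℝ≥0∞ := {x | ∃ (k : ℕ) (j : ℤ) (g : ℝ → ℂ) (r : ℝ),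
    St s θ al f m V E0 k j g r ∧ x = w r * Np p g k j} with h𝒮
  -- finiteness
  have hfin : sSup 𝒮 ≤ ENNReal.ofReal (Real.exp (p * (2 * V + 2) / v) * 2 ^ (p + n)) := by
    refine sSup_le ?_
    rintro x ⟨k, j, g, r, hst, rfl⟩
    by_cases h0 : Np p g k j = 0
    · simp [h0]
    · have h1 := (hst.r_le hs1 hV0 hp0 h0).1
      rw [ENNReal.ofReal_mul (by positivity)]
      refine mul_le_mul' (ENNReal.ofReal_le_ofReal ?_) (hst.Np_le hf hn hcl hd hV0 hEV hp)
      rw [Real.exp_le_exp]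
      gcongr
  have hS_top : sSup 𝒮 ≠ ⊤ := ne_top_of_le_ne_top ENNReal.ofReal_ne_top hfin
  -- the root
  have hroot : ENNReal.ofReal (Real.exp (p * V / v) * (mu / 4) ^ p) ≤ sSup 𝒮 := by
    set g0 : ℝ → ℝ := E0.indicator (fun y => ‖f y‖) with hg0
    have hg0m : Measurable g0 := hf.norm.indicator hE
    have hst : St s θ al f m V E0 0 0 (fun y => (g0 y : ℂ)) V := by
      refine ⟨Complex.measurable_ofReal.comp hg0m, fun y => ?_, fun y hy => ?_⟩
      · rw [Complex.norm_real, hg0]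
        by_cases h : y ∈ E0
        · rw [indicator_of_mem h]; simp
        · rw [indicator_of_notMem h]; simp
      · have hy' : y ∈ E0 := by
          by_contra h
          apply hy
          rw [hg0, indicator_of_notMem h]; simp
        exact ⟨hE0 hy', hy', Nat.zero_le _, Rem_zero hV0 (kz_spec (hEV y hy')).2⟩
    have h1 : w V * Np p (fun y => (g0 y : ℂ)) 0 0 ≤ sSup 𝒮 := le_sSup ⟨0, 0, _, V, hst, rfl⟩
    refine le_trans ?_ h1
    rw [ENNReal.ofReal_mul (by positivity)]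
    refine mul_le_mul' le_rfl ?_
    refine Np_root (M := 2 ^ n) hp hg0m (fun y => ?_) (fun y => ?_) hmu ?_
    · exact indicator_nonneg (fun _ _ => norm_nonneg _) y
    · exact (hst.le y).trans (hn y)
    · rw [hg0, setIntegral_indicator hE, inter_eq_self_of_subset_right hE0]
      exact hmu'
  have hS_pos : 0 < sSup 𝒮 := lt_of_lt_of_le (by rw [ENNReal.ofReal_pos]; positivity) hroot
  -- the near-maximiser
  obtain ⟨x, ⟨k0, j0, g, r, hst, rfl⟩, hx⟩ : ∃ x ∈ 𝒮, sSup 𝒮 / 2 < x :=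
    lt_sSup_iff.1 (ENNReal.half_lt_self hS_pos.ne' hS_top)
  have hmax : ∀ {k : ℕ} {j : ℤ} {g' : ℝ → ℂ} {r' : ℝ}, St s θ al f m V E0 k j g' r' →
      w r' * Np p g' k j ≤ 2 * (w r * Np p g k0 j0) := by
    intro k j g' r' h'
    have h1 : w r' * Np p g' k j ≤ sSup 𝒮 := le_sSup ⟨k, j, g', r', h', rfl⟩
    refine h1.trans ?_
    have h2 := hx.le
    rw [ENNReal.div_le_iff (by norm_num) (by norm_num)] at h2
    rwa [mul_comm] at h2
  have hN0 : Np p g k0 j0 ≠ 0 := by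
    intro h0
    rw [h0, mul_zero] at hx
    exact absurd hx (by simp)
  obtain ⟨hr2, y0, hy0⟩ := hst.r_le hs1 hV0 hp0 hN0
  have hNub := hst.Np_le hf hn hcl hd hV0 hEV hp
  have hNtop : Np p g k0 j0 ≠ ⊤ := ne_top_of_le_ne_top ENNReal.ofReal_ne_top hNub
  set N : ℝ := (Np p g k0 j0).toReal with hN
  have hN_eq : Np p g k0 j0 = ENNReal.ofReal N := (ENNReal.ofReal_toReal hNtop).symm
  have hNpos : 0 < N := ENNReal.toReal_pos hN0 hNtop
  -- the basic real inequality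
  have hbase : Real.exp (p * V / v) * (mu / 4) ^ p ≤ 2 * (Real.exp (p * r / v) * N) := by
    have h1 : ENNReal.ofReal (Real.exp (p * V / v) * (mu / 4) ^ p) ≤
        ENNReal.ofReal (2 * (Real.exp (p * r / v) * N)) := by
      rw [ENNReal.ofReal_mul (p := (2 : ℝ)) (by norm_num),
        ENNReal.ofReal_mul (p := Real.exp (p * r / v)) (by positivity), ← hN_eq,
        ENNReal.ofReal_ofNat]
      refine hroot.trans ?_
      have h2 := hx.le
      rw [ENNReal.div_le_iff (by norm_num) (by norm_num)] at h2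
      rwa [mul_comm] at h2
    exact (ENNReal.ofReal_le_ofReal_iff (by positivity)).1 h1
  have hNub' : N ≤ 2 ^ (p + n) := by
    rw [hN_eq] at hNub
    exact (ENNReal.ofReal_le_ofReal_iff (by positivity)).1 hNub
  -- lower bound of `r`
  have hr : v + 1 < r := by
    have h1 : Real.exp (p * V / v) * (mu / 4) ^ p ≤ 2 * (Real.exp (p * r / v) * 2 ^ (p + n)) :=
      hbase.trans (by gcongr)
    have h2 := Real.log_le_log (by positivity) h1
    rw [Real.log_mul (by positivity) (by positivity), Real.log_exp,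
      Real.log_mul (by norm_num) (by positivity), Real.log_mul (by positivity) (by positivity),
      Real.log_exp, Real.log_rpow (by positivity), Real.log_rpow (by norm_num)] at h2
    have h3 : Real.log (mu / 4) = -Real.log (4 / mu) := by
      rw [← Real.log_inv]; congr 1; field_simp
    rw [h3] at h2
    have hlog2 : Real.log 2 ≤ 1 := by
      have := Real.log_two_lt_d9; linarith
    have hlog2' : 0 ≤ Real.log 2 := Real.log_nonneg (by norm_num)
    have h4 : p * V / v - p * Real.log (4 / mu) ≤ 1 + (p * r / v + (p + n)) := by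
      have : (p + n) * Real.log 2 ≤ (p + n) * 1 := by gcongr
      linarith
    have h5 : V - v * Real.log (4 / mu) ≤ v / p + (r + (v + v / p * n)) := by
      have h6 := mul_le_mul_of_nonneg_left h4 (by positivity : 0 ≤ v / p)
      have e1 : v / p * (p * V / v - p * Real.log (4 / mu)) = V - v * Real.log (4 / mu) := by
        field_simp
      have e2 : v / p * (1 + (p * r / v + (p + n))) = v / p + (r + (v + v / p * n)) := by
        field_simp
      rwa [e1, e2] at h6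
    have h7 : v * (4 + Real.log (4 / mu)) + v / p * (n + 3) + 2 =
        4 * v + v * Real.log (4 / mu) + v / p * n + 3 * (v / p) + 2 := by ring
    rw [h7] at hnum
    have h8 : 0 ≤ v / p := by positivity
    linarith
  -- facts on the support
  have hfact : ∀ y, g y ≠ 0 → kp s θ al m k0 v y ≤ kz s θ al m V y ∧ kz s θ al m V y ≤ m ∧
      v ≤ ‖Pay s θ al (kp s θ al m k0 v y) y - Pay s θ al k0 y‖ := by
    intro y hy
    obtain ⟨-, h1, h2, h3⟩ := hst.sup y hy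
    obtain ⟨h4, h5⟩ := kz_spec (hEV y h1)
    have h6 : Rem s θ al m V k0 y ≤ ‖Pay s θ al (kz s θ al m V y) y - Pay s θ al k0 y‖ := by
      unfold Rem
      refine (Complex.re_le_norm _).trans ?_
      rw [norm_mul]
      calc _ ≤ 1 * ‖Pay s θ al (kz s θ al m V y) y - Pay s θ al k0 y‖ := by
            gcongr
            exact norm_ub_le y
        _ = _ := one_mul _
    have h7 : v ≤ ‖Pay s θ al (kz s θ al m V y) y - Pay s θ al k0 y‖ := by linarith
    have h8 : k0 < kz s θ al m V y := by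
      rcases h2.lt_or_eq with h | h
      · exact h
      · rw [← h, sub_self, norm_zero] at h7
        linarith
    obtain ⟨h9, h10⟩ := kp_spec (m := m) h8 (by omega) h7
    exact ⟨h9, h4, h10⟩
  set κ : ℝ → ℕ := fun y => if g y ≠ 0 then kp s θ al m k0 v y else k0 + 1 with hκ
  have hκ1 : ∀ y, g y ≠ 0 → κ y = kp s θ al m k0 v y := fun y hy => by simp [hκ, hy]
  have hκm : Measurable κ := by
    refine Measurable.ite ?_ (measurable_kp hs hθ m k0 v) measurable_const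
    exact (measurableSet_eq_fun hst.meas measurable_const).compl
  have hk0m : k0 + 1 ≤ m := by
    obtain ⟨h1, h2, -⟩ := hfact y0 hy0
    have := kp_gt (s := s) (θ := θ) (al := al) m k0 v y0
    omega
  have hgf : ∀ y, ‖g y‖ ≤ 2 ^ n := fun y => (hst.le y).trans (hn y)
  have hlive : ∀ y, g y ≠ 0 → ∀ k < κ y, al k (fl k y) := by
    intro y hy k hk
    rw [hκ1 y hy] at hk
    exact al_of_lt_kp hcl hv0 (hfact y hy).2.2 hk
  refine ⟨k0, j0, g, κ, ?_⟩
  refine
    { meas_g := hst.meas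
      meas_κ := hκm
      le_f := hst.le
      supp := fun y hy => ⟨(hst.sup y hy).1, hE0 (hst.sup y hy).2.1⟩
      gt := ?_
      le_m := ?_
      pay := ?_
      pay' := ?_
      live := hlive
      dens1 := ?_
      dens2 := ?_
      nm := ?_
      lb := ?_
      ub := hNub }
  · intro y
    by_cases hy : g y ≠ 0
    · rw [hκ1 y hy]; exact kp_gt m k0 v y
    · simp only [hκ, hy, if_false]; omega
  · intro y
    by_cases hy : g y ≠ 0
    · rw [hκ1 y hy]
      obtain ⟨h1, h2, -⟩ := hfact y hy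
      omega
    · simp only [hκ, hy, if_false]; omega
  · intro y hy
    rw [hκ1 y hy]; exact (hfact y hy).2.2
  · intro y hy k hk hk'
    rw [hκ1 y hy] at hk'
    exact norm_le_of_le_kp hs1 hv0 hk hk'
  · intro k j
    refine dens_of_live (al := al) hf hn hd (fun y _ => ?_) fun y _ hy => ?_
    · split_ifs
      · exact hst.le y
      · simp
    · have h1 : k < κ y ∧ g y ≠ 0 := by
        by_contra h
        apply hy
        split_ifs with h2
        · by_contra h3; exact h ⟨h2, h3⟩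
        · rfl
      exact hlive y h1.2 k h1.1
  · intro k j
    refine dens_of_live' (al := al) hf hn hd (fun y _ => ?_) fun y _ hy => ?_
    · split_ifs
      · exact hst.le y
      · simp
    · have h1 : k ≤ κ y ∧ g y ≠ 0 := by
        by_contra h
        apply hy
        split_ifs with h2
        · by_contra h3; exact h ⟨h2, h3⟩
        · rfl
      have h2 : k0 < κ y := by rw [hκ1 y h1.2]; exact kp_gt m k0 v y
      exact hlive y h1.2 (k - 1) (by omega)
  · -- near-maximality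
    intro k hk j g' hg'm hg'
    set g'' : ℝ → ℂ := (Ivl k j).indicator g' with hg''
    have e1 : Np p g' k j = Np p g'' k j :=
      Np_congr fun y hy => by rw [hg'', indicator_of_mem hy]
    have hst' : St s θ al f m V E0 k j g'' (r - v - 1) := by
      refine ⟨hg'm.indicator (measurableSet_Ivl _ _), fun y => ?_, fun y hy => ?_⟩
      · by_cases hy : y ∈ Ivl k j
        · rw [hg'', indicator_of_mem hy]
          refine (hg' y hy).trans ?_
          split_ifs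
          · exact hst.le y
          · exact norm_nonneg _
        · rw [hg'', indicator_of_notMem hy]; simp
      · have hy1 : y ∈ Ivl k j := by
          by_contra h
          exact hy (by rw [hg'', indicator_of_notMem h])
        rw [hg'', indicator_of_mem hy1] at hy
        have h1 := hg' y hy1
        have h2 : 0 < ‖g' y‖ := norm_pos_iff.2 hy
        have h3 : k ≤ κ y := by
          by_contra h
          rw [if_neg h] at h1
          linarith
        rw [if_pos h3] at h1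
        have h4 : g y ≠ 0 := norm_pos_iff.1 (h2.trans_le h1)
        rw [hκ1 y h4] at h3
        obtain ⟨h5, h6, h7⟩ := hfact y h4
        obtain ⟨-, h8, h9, h10⟩ := hst.sup y h4
        refine ⟨hy1, h8, h3.trans h5, ?_⟩
        have h11 := Rem_diff (s := s) (θ := θ) (al := al) (m := m) (V := V) (k := k) (k0 := k0)
          (y := y)
        have h12 := norm_le_of_le_kp (s := s) (θ := θ) (al := al) (m := m) (y := y) hs1 hv0 hk h3
        linarith
    have h1 := hmax hst'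
    rw [← e1] at h1
    have hw0 : w (r - v - 1) ≠ 0 := by
      rw [hw]; simp only [ne_eq, ENNReal.ofReal_eq_zero, not_le]; positivity
    have hwt : w (r - v - 1) ≠ ⊤ := ENNReal.ofReal_ne_top
    have h2 : w (r - v - 1) * Np p g' k j ≤
        w (r - v - 1) * (ENNReal.ofReal (9 ^ p) * Np p g k0 j0) := by
      refine h1.trans ?_
      rw [← mul_assoc, ← mul_assoc]
      refine mul_le_mul' ?_ le_rfl
      simp only [hw]
      rw [show (2 : ℝ≥0∞) = ENNReal.ofReal 2 by simp, ← ENNReal.ofReal_mul (by norm_num),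
        ← ENNReal.ofReal_mul (by positivity)]
      refine ENNReal.ofReal_le_ofReal ?_
      have e2 : p * r / v = p * (r - v - 1) / v + (p + p / v) := by field_simp; ring
      rw [e2, Real.exp_add]
      have h3 : 2 * Real.exp (p + p / v) ≤ 9 ^ p := by
        have h4 : p / v ≤ 1 := (div_le_one hv0).2 hpv
        have h5 : Real.exp (p + p / v) ≤ Real.exp 1 * Real.exp 1 ^ p := by
          rw [← Real.exp_mul, one_mul, ← Real.exp_add]
          exact Real.exp_le_exp.2 (by linarith)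
        have he : Real.exp 1 < 2.7182818286 := Real.exp_one_lt_d9
        have he0 := Real.exp_pos 1
        have h6 : Real.exp 1 ^ p ≤ 3 ^ p := Real.rpow_le_rpow he0.le (by linarith) (by linarith)
        have h7 : (9 : ℝ) ^ p = 3 ^ p * 3 ^ p := by
          rw [← Real.mul_rpow (by norm_num) (by norm_num)]; norm_num
        have h8 : (9 : ℝ) ≤ 3 ^ p := by
          calc (9 : ℝ) = 3 ^ (2 : ℝ) := by norm_num
            _ ≤ 3 ^ p := Real.rpow_le_rpow_of_exponent_le (by norm_num) hp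
        have h9 : 0 < (3 : ℝ) ^ p := by positivity
        rw [h7]
        calc 2 * Real.exp (p + p / v) ≤ 2 * (Real.exp 1 * Real.exp 1 ^ p) := by gcongr
          _ ≤ 2 * (3 * 3 ^ p) := by gcongr; linarith
          _ ≤ 3 ^ p * 3 ^ p := by nlinarith
      have h10 := Real.exp_pos (p * (r - v - 1) / v)
      nlinarith
    exact (ENNReal.mul_le_mul_iff_right hw0 hwt).1 h2
  · -- lower bound
    rw [hN_eq]
    refine ENNReal.ofReal_le_ofReal ?_
    have e1 : (mu / 4 * Real.exp (-(V + 3) / v)) ^ p =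
        (mu / 4) ^ p * Real.exp (p * (-(V + 3)) / v) := by
      rw [Real.mul_rpow (by positivity) (Real.exp_pos _).le, ← Real.exp_mul]
      congr 2; ring
    rw [e1]
    have h1 : Real.exp (p * V / v) * (mu / 4) ^ p ≤
        2 * (Real.exp (p * (2 * V + 2) / v) * N) := by
      refine hbase.trans ?_
      gcongr
    have h2 : Real.exp (p * (2 * V + 2) / v) = Real.exp (p * V / v) * Real.exp (p * (V + 2) / v) := by
      rw [← Real.exp_add]; congr 1; ring
    rw [h2] at h1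
    have h3 : (mu / 4) ^ p ≤ 2 * (Real.exp (p * (V + 2) / v) * N) := by
      have h4 := Real.exp_pos (p * V / v)
      have h5 : Real.exp (p * V / v) * (mu / 4) ^ p ≤
          Real.exp (p * V / v) * (2 * (Real.exp (p * (V + 2) / v) * N)) := by
        calc _ ≤ _ := h1
          _ = _ := by ring
      exact le_of_mul_le_mul_left h5 h4
    calc 1 / 2 * ((mu / 4) ^ p * Real.exp (p * (-(V + 3)) / v))
        ≤ 1 / 2 * ((2 * (Real.exp (p * (V + 2) / v) * N)) * Real.exp (p * (-(V + 3)) / v)) := by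
          gcongr
      _ = (Real.exp (p * (V + 2) / v) * Real.exp (p * (-(V + 3)) / v)) * N := by ring
      _ ≤ 1 * N := by
          gcongr
          rw [← Real.exp_add, Real.exp_le_one_iff]
          have : p * (V + 2) / v + p * (-(V + 3)) / v = -(p / v) := by ring
          rw [this]
          have : 0 < p / v := by positivity
          linarith
      _ = N := one_mul N

end Crest.Agent.R100.Near903
end
end

-- ▼ part R100/Star_833
section

/-!
# R100 / S0132, helper833: block B5 of doc 1968, from the exact identity to `(*)`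

`g` is supported in the node `I = (k₀, j₀)`, every point of its support exits at the generation
`κ y ∈ [k₀, m]`, before which its nodes are alive, and `|Pay κ - Pay k₀| ≥ v` there.
`g4 = g 1[κ < R] v / (Pay κ - Pay k₀)`.  Then `|g4| ≤ |g|` and for every label `Y`
`v |c_I(g 1[κ < R], Y)| ≤ avg_{x ∈ I} |T*_{Y + θ(x)}(x)|`, `T*_Z = TS g4 κ Z k₀ m`.
-/

set_option autoImplicit false

open MeasureTheory Set
open scoped ENNReal

noncomputable section

namespace Crest.Agent.R100.Star833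

open Crest.Agent.R100.Mart933 Crest.Agent.R100.Wide933 Crest.Agent.R100.Id833
open Crest.Agent.R100.Run288 Crest.Agent.R100.Tree711 Crest.Agent.R100.Caps341

/-! ## joint measurability -/

theorem measurable_dl_coef₂ {α : Type*} [MeasurableSpace α] {g : ℝ → ℂ} {M : ℝ}
    (hg : Measurable g) (hM : ∀ x, ‖g x‖ ≤ M) {t X : α → ℝ} (ht : Measurable t)
    (hX : Measurable X) (k : ℕ) : Measurable fun a => dl (coef g (t a)) k (X a) := by
  classical
  have e0 : (fun a => dl (coef g (t a)) k (X a)) = fun a => (rad k (X a) : ℂ) * ((2 : ℂ) ^ k *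
      ∫ y, (if fl k y = fl k (X a) then (rad k y : ℂ) * (g y * e (-(t a)) y) else 0)) := by
    ext a
    rw [dl_coef hg hM, ← integral_indicator (measurableSet_Ivl _ _)]
    congr 2
    refine integral_congr_ae (Filter.Eventually.of_forall fun y => ?_)
    simp only [indicator, mem_Ivl]
  rw [e0]
  refine ((measurable_radC k).comp hX).mul (measurable_const.mul ?_)
  have hm : StronglyMeasurable (fun p : α × ℝ => if fl k p.2 = fl k (X p.1) then
      (rad k p.2 : ℂ) * (g p.2 * e (-(t p.1)) p.2) else 0) := by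
    refine Measurable.stronglyMeasurable (Measurable.ite ?_ ?_ measurable_const)
    · have hm : Measurable fun p : α × ℝ => (fl k (X p.1), fl k p.2) :=
        ((measurable_fl k).comp (hX.comp measurable_fst)).prodMk
          ((measurable_fl k).comp measurable_snd)
      exact hm (MeasurableSet.of_discrete (s := {q : ℤ × ℤ | q.2 = q.1}))
    · exact ((measurable_radC k).comp measurable_snd).mul ((hg.comp measurable_snd).mul
        (measurable_e₂ ((ht.comp measurable_fst).neg) measurable_snd))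
  exact (StronglyMeasurable.integral_prod_right' (ν := volume) hm).measurable

variable {g : ℝ → ℂ} {κ : ℝ → ℕ} {M : ℝ}

theorem measurable_TS {α : Type*} [MeasurableSpace α] (hg : Measurable g) (hM : ∀ x, ‖g x‖ ≤ M)
    (hκ : Measurable κ) {t X : α → ℝ} (ht : Measurable t) (hX : Measurable X) (k K : ℕ) :
    Measurable fun a => TS g κ (t a) k K (X a) := by
  unfold TS
  refine Finset.measurable_sum _ fun l _ => ?_
  refine ((measurable_radC (l + 1)).comp hX).mul ?_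
  exact measurable_dl_coef₂ (measurable_Pa hg hκ l) (fun x => (norm_Pa_le g κ l x).trans (hM x))
    ht hX l

/-! ## the switched sum equals the unswitched sum -/

/-- a population vanishing on a node has difference `0` there -/
theorem dl_coef_eq_zero (hg : Measurable g) (hM : ∀ x, ‖g x‖ ≤ M) {t : ℝ} {k : ℕ} {x : ℝ}
    (h : ∀ y ∈ Ivl k (fl k x), g y = 0) : dl (coef g t) k x = 0 := by
  rw [dl_coef hg hM]
  have : ∫ y in Ivl k (fl k x), (rad k y : ℂ) * (g y * e (-t) y) =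
      ∫ y in Ivl k (fl k x), (0 : ℂ) := by
    refine setIntegral_congr_fun (measurableSet_Ivl _ _) fun y hy => ?_
    simp only [h y hy, zero_mul, mul_zero]
  rw [this]
  simp

theorem SSh_eq_TS (hg : Measurable g) (hM : ∀ x, ‖g x‖ ≤ M) (hκ : Measurable κ)
    {al : ℕ → ℤ → Prop} {k₀ : ℕ}
    (hlive : ∀ y, g y ≠ 0 → ∀ k, k₀ ≤ k → k < κ y → al k (fl k y)) (m : ℕ) (Z x : ℝ) :
    SSh (Pa g κ) al k₀ m Z x = TS g κ Z k₀ m x := by
  classical
  unfold SSh TS
  refine Finset.sum_congr rfl fun k hk => ?_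
  by_cases hal : al k (fl k x)
  · rw [if_pos hal, dx_eq]
  · rw [if_neg hal, dx_eq,
      dl_coef_eq_zero (measurable_Pa hg hκ k) (fun x => (norm_Pa_le g κ k x).trans (hM x)), mul_zero]
    intro y hy
    unfold Pa
    split_ifs with h1
    · by_contra h2
      have := hlive y h2 k (Finset.mem_Ico.1 hk).1 h1
      rw [mem_Ivl.1 hy] at this
      exact hal this
    · rfl

theorem Pa_eq_pop (g : ℝ → ℂ) (κ : ℝ → ℕ) {k₀ k : ℕ} (hk : k₀ ≤ k) (y : ℝ) :
    Pa g κ k y = pop g (fun _ => k₀) κ k y := by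
  classical
  unfold Pa pop
  by_cases h : k < κ y
  · rw [if_pos h, if_pos ⟨hk, h⟩]
  · rw [if_neg h, if_neg (fun hc => h hc.2)]

theorem SSh_congr {h h' : ℕ → ℝ → ℂ} {al : ℕ → ℤ → Prop} {K₀ K : ℕ}
    (hh : ∀ k, K₀ ≤ k → h k = h' k) (t x : ℝ) : SSh h al K₀ K t x = SSh h' al K₀ K t x := by
  classical
  unfold SSh
  refine Finset.sum_congr rfl fun k hk => ?_
  rw [hh k (Finset.mem_Ico.1 hk).1]

/-! ## the multiplier -/

/-- `g4 = g 1[κ < R] v / (Pay κ - Pay k₀)` -/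
def g4 (s : ℝ → ℂ) (θ : ℝ → ℝ) (al : ℕ → ℤ → Prop) (g : ℝ → ℂ) (κ : ℝ → ℕ) (k₀ R : ℕ) (v : ℝ)
    (y : ℝ) : ℂ :=
  lo g κ R y * ((v : ℂ) / (Pay s θ al (κ y) y - Pay s θ al k₀ y))

variable {s : ℝ → ℂ} {θ : ℝ → ℝ} {al : ℕ → ℤ → Prop} {k₀ R m : ℕ} {v : ℝ}

theorem measurable_Pay_kap (hs : Measurable s) (hθ : Measurable θ) (hκ : Measurable κ) :
    Measurable fun y => Pay s θ al (κ y) y := by
  have h1 : Measurable (fun p : ℝ × ℕ => Pay s θ al p.2 p.1) :=
    measurable_from_prod_countable_left fun K => measurable_Pay hs hθ K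
  exact h1.comp (measurable_id.prodMk hκ)

theorem measurable_g4 (hs : Measurable s) (hθ : Measurable θ) (hg : Measurable g)
    (hκ : Measurable κ) (k₀ R : ℕ) (v : ℝ) : Measurable (g4 s θ al g κ k₀ R v) := by
  unfold g4
  exact (measurable_lo hg hκ R).mul (measurable_const.div
    ((measurable_Pay_kap hs hθ hκ).sub (measurable_Pay hs hθ k₀)))

theorem norm_g4_le (hv : 0 < v) (hpay : ∀ y, g y ≠ 0 → v ≤ ‖Pay s θ al (κ y) y - Pay s θ al k₀ y‖)
    (y : ℝ) : ‖g4 s θ al g κ k₀ R v y‖ ≤ ‖lo g κ R y‖ := by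
  unfold g4
  by_cases h0 : lo g κ R y = 0
  · rw [h0]; simp
  · have h1 : g y ≠ 0 := by
      intro hc
      apply h0
      have := norm_lo_le g κ R y
      rw [hc, norm_zero] at this
      exact norm_le_zero_iff.1 this
    have h2 := hpay y h1
    rw [norm_mul, norm_div, Complex.norm_real, Real.norm_eq_abs, abs_of_pos hv]
    have h3 : v / ‖Pay s θ al (κ y) y - Pay s θ al k₀ y‖ ≤ 1 :=
      (div_le_one (hv.trans_le h2)).2 h2
    calc ‖lo g κ R y‖ * (v / ‖Pay s θ al (κ y) y - Pay s θ al k₀ y‖) ≤ ‖lo g κ R y‖ * 1 := by gcongr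
      _ = ‖lo g κ R y‖ := mul_one _

theorem norm_g4_le' (hv : 0 < v) (hpay : ∀ y, g y ≠ 0 → v ≤ ‖Pay s θ al (κ y) y - Pay s θ al k₀ y‖)
    (y : ℝ) : ‖g4 s θ al g κ k₀ R v y‖ ≤ ‖g y‖ :=
  (norm_g4_le hv hpay y).trans (norm_lo_le g κ R y)

theorem g4_ne_zero (y : ℝ) (h : g4 s θ al g κ k₀ R v y ≠ 0) : κ y < R ∧ g y ≠ 0 := by
  unfold g4 at h
  have h1 : lo g κ R y ≠ 0 := left_ne_zero_of_mul h
  unfold lo at h1
  by_cases h2 : κ y < R
  · rw [if_pos h2] at h1; exact ⟨h2, h1⟩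
  · rw [if_neg h2] at h1; exact absurd rfl h1

theorem g4_mul (hv : 0 < v) (hpay : ∀ y, g y ≠ 0 → v ≤ ‖Pay s θ al (κ y) y - Pay s θ al k₀ y‖)
    (y : ℝ) : g4 s θ al g κ k₀ R v y * (Pay s θ al (κ y) y - Pay s θ al k₀ y) =
      (v : ℂ) * lo g κ R y := by
  unfold g4
  by_cases h1 : g y = 0
  · have : lo g κ R y = 0 := by unfold lo; split_ifs <;> simp [h1]
    rw [this]; simp
  · have h2 := hpay y h1
    have h3 : Pay s θ al (κ y) y - Pay s θ al k₀ y ≠ 0 := by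
      rw [← norm_pos_iff]; exact hv.trans_le h2
    field_simp

/-! ## the identity -/

/-- the exact identity for the multiplied population -/
theorem star_id (hs : Measurable s) (hθ : Measurable θ) (hs1 : ∀ x, ‖s x‖ ≤ 1) (hg : Measurable g)
    (hM : ∀ x, ‖g x‖ ≤ M) (hκ : Measurable κ) (hv : 0 < v) (j₀ : ℤ)
    (hκ1 : ∀ y ∈ Ivl k₀ j₀, g y ≠ 0 → k₀ ≤ κ y ∧ κ y ≤ m)
    (hpay : ∀ y, g y ≠ 0 → v ≤ ‖Pay s θ al (κ y) y - Pay s θ al k₀ y‖)
    (hlive : ∀ y, g y ≠ 0 → ∀ k, k₀ ≤ k → k < κ y → al k (fl k y)) (R : ℕ) (Y : ℝ) :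
    (2 : ℂ) ^ k₀ * ∫ x in Ivl k₀ j₀, s x * TS (g4 s θ al g κ k₀ R v) κ (Y + θ x) k₀ m x =
      (v : ℂ) * coef (lo g κ R) Y k₀ j₀ := by
  have hg4 := measurable_g4 (al := al) hs hθ hg hκ k₀ R v
  have hM4 : ∀ x, ‖g4 s θ al g κ k₀ R v x‖ ≤ M := fun x => (norm_g4_le' hv hpay x).trans (hM x)
  have h1 := exact_pop (al := al) (K₀ := k₀) (K := m) hs hθ hs1 hg4 hM4
    (κ₁ := fun _ => k₀) (κ₂ := κ) measurable_const hκ j₀ (le_refl k₀)
    (fun y hy h0 => by
      obtain ⟨h2, h3⟩ := hκ1 y hy (g4_ne_zero y h0).2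
      exact ⟨le_rfl, h2, h3⟩) Y
  have h2 : ∀ x, SSh (pop (g4 s θ al g κ k₀ R v) (fun _ => k₀) κ) al k₀ m (Y + θ x) x =
      TS (g4 s θ al g κ k₀ R v) κ (Y + θ x) k₀ m x := by
    intro x
    rw [← SSh_eq_TS hg4 hM4 hκ (fun y h0 => hlive y (g4_ne_zero y h0).2) m (Y + θ x) x]
    refine SSh_congr (fun k hk => ?_) _ _
    ext y
    exact (Pa_eq_pop _ κ hk y).symm
  simp_rw [h2] at h1
  rw [h1]
  have h3 : ∫ y in Ivl k₀ j₀, g4 s θ al g κ k₀ R v y * e (-Y) y *
        (Pay s θ al (κ y) y - Pay s θ al k₀ y) =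
      ∫ y in Ivl k₀ j₀, (v : ℂ) * (lo g κ R y * e (-Y) y) := by
    refine setIntegral_congr_fun (measurableSet_Ivl _ _) fun y _ => ?_
    have := g4_mul (κ := κ) (R := R) hv hpay y
    calc g4 s θ al g κ k₀ R v y * e (-Y) y * (Pay s θ al (κ y) y - Pay s θ al k₀ y)
        = g4 s θ al g κ k₀ R v y * (Pay s θ al (κ y) y - Pay s θ al k₀ y) * e (-Y) y := by ring
      _ = (v : ℂ) * (lo g κ R y * e (-Y) y) := by rw [this]; ring
  rw [h3, integral_const_mul]
  unfold coef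
  ring

/-- **(*) for one label** -/
theorem star (hs : Measurable s) (hθ : Measurable θ) (hs1 : ∀ x, ‖s x‖ ≤ 1) (hg : Measurable g)
    (hM : ∀ x, ‖g x‖ ≤ M) (hκ : Measurable κ) (hv : 0 < v) (j₀ : ℤ)
    (hκ1 : ∀ y ∈ Ivl k₀ j₀, g y ≠ 0 → k₀ ≤ κ y ∧ κ y ≤ m)
    (hpay : ∀ y, g y ≠ 0 → v ≤ ‖Pay s θ al (κ y) y - Pay s θ al k₀ y‖)
    (hlive : ∀ y, g y ≠ 0 → ∀ k, k₀ ≤ k → k < κ y → al k (fl k y)) (R : ℕ) (Y : ℝ) :
    ENNReal.ofReal v * ‖coef (lo g κ R) Y k₀ j₀‖ₑ ≤ ENNReal.ofReal (2 ^ k₀) *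
      ∫⁻ x in Ivl k₀ j₀, ‖TS (g4 s θ al g κ k₀ R v) κ (Y + θ x) k₀ m x‖ₑ := by
  have h := star_id hs hθ hs1 hg hM hκ hv j₀ hκ1 hpay hlive R Y
  have h1 : ENNReal.ofReal v * ‖coef (lo g κ R) Y k₀ j₀‖ₑ =
      ‖(v : ℂ) * coef (lo g κ R) Y k₀ j₀‖ₑ := by
    rw [enorm_mul]
    congr 1
    rw [← ofReal_norm, Complex.norm_real, Real.norm_eq_abs, abs_of_pos hv]
  rw [h1, ← h, enorm_mul]
  have h2 : ‖(2 : ℂ) ^ k₀‖ₑ = ENNReal.ofReal (2 ^ k₀) := by
    rw [← ofReal_norm, norm_pow, Complex.norm_ofNat]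
  rw [h2]
  gcongr
  refine (enorm_integral_le_lintegral_enorm _).trans ?_
  refine lintegral_mono fun x => ?_
  rw [enorm_mul]
  calc ‖s x‖ₑ * _ ≤ 1 * ‖TS (g4 s θ al g κ k₀ R v) κ (Y + θ x) k₀ m x‖ₑ := by
        gcongr
        rw [← ofReal_norm]
        exact ENNReal.ofReal_le_one.2 (hs1 x)
    _ = _ := one_mul _

/-- **(*) integrated over a set of labels**, in the order `x` first -/
theorem star_int (hs : Measurable s) (hθ : Measurable θ) (hs1 : ∀ x, ‖s x‖ ≤ 1)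
    (hg : Measurable g) (hM : ∀ x, ‖g x‖ ≤ M) (hκ : Measurable κ) (hv : 0 < v) (j₀ : ℤ)
    (hκ1 : ∀ y ∈ Ivl k₀ j₀, g y ≠ 0 → k₀ ≤ κ y ∧ κ y ≤ m)
    (hpay : ∀ y, g y ≠ 0 → v ≤ ‖Pay s θ al (κ y) y - Pay s θ al k₀ y‖)
    (hlive : ∀ y, g y ≠ 0 → ∀ k, k₀ ≤ k → k < κ y → al k (fl k y)) (R : ℕ) (Lam : Set ℝ) :
    ENNReal.ofReal v * ∫⁻ Y in Lam, ‖coef (lo g κ R) Y k₀ j₀‖ₑ ≤ ENNReal.ofReal (2 ^ k₀) *
      ∫⁻ x in Ivl k₀ j₀, ∫⁻ Y in Lam, ‖TS (g4 s θ al g κ k₀ R v) κ (Y + θ x) k₀ m x‖ₑ := by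
  have hg4 := measurable_g4 (al := al) hs hθ hg hκ k₀ R v
  have hM4 : ∀ x, ‖g4 s θ al g κ k₀ R v x‖ ≤ M := fun x => (norm_g4_le' hv hpay x).trans (hM x)
  have hm2 : Measurable fun p : ℝ × ℝ =>
      ‖TS (g4 s θ al g κ k₀ R v) κ (p.2 + θ p.1) k₀ m p.1‖ₑ :=
    (measurable_TS (α := ℝ × ℝ) hg4 hM4 hκ (t := fun p => p.2 + θ p.1) (X := fun p => p.1)
      (measurable_snd.add (hθ.comp measurable_fst)) measurable_fst k₀ m).enorm
  rw [lintegral_lintegral_swap hm2.aemeasurable]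
  rw [← lintegral_const_mul' _ _ ENNReal.ofReal_ne_top,
    ← lintegral_const_mul' _ _ ENNReal.ofReal_ne_top]
  exact lintegral_mono fun Y => star hs hθ hs1 hg hM hκ hv j₀ hκ1 hpay hlive R Y

/-- **(*)**: lower bound `v b |Λ|` -/
theorem star_pop (hs : Measurable s) (hθ : Measurable θ) (hs1 : ∀ x, ‖s x‖ ≤ 1)
    (hg : Measurable g) (hM : ∀ x, ‖g x‖ ≤ M) (hκ : Measurable κ) (hv : 0 < v) (j₀ : ℤ)
    (hκ1 : ∀ y ∈ Ivl k₀ j₀, g y ≠ 0 → k₀ ≤ κ y ∧ κ y ≤ m)
    (hpay : ∀ y, g y ≠ 0 → v ≤ ‖Pay s θ al (κ y) y - Pay s θ al k₀ y‖)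
    (hlive : ∀ y, g y ≠ 0 → ∀ k, k₀ ≤ k → k < κ y → al k (fl k y)) (R : ℕ) {Lam : Set ℝ}
    (hLam : MeasurableSet Lam) {b : ℝ} (hb : ∀ Y ∈ Lam, b ≤ ‖coef (lo g κ R) Y k₀ j₀‖) :
    ENNReal.ofReal (v * b) * volume Lam ≤ ENNReal.ofReal (2 ^ k₀) *
      ∫⁻ x in Ivl k₀ j₀, ∫⁻ Y in Lam, ‖TS (g4 s θ al g κ k₀ R v) κ (Y + θ x) k₀ m x‖ₑ := by
  refine le_trans ?_ (star_int hs hθ hs1 hg hM hκ hv j₀ hκ1 hpay hlive R Lam)
  rw [ENNReal.ofReal_mul hv.le, mul_assoc]
  gcongr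
  rw [← setLIntegral_const]
  refine setLIntegral_mono' hLam fun Y hY => ?_
  rw [← ofReal_norm]
  exact ENNReal.ofReal_le_ofReal (hb Y hY)


end Crest.Agent.R100.Star833
end
end

-- ▼ part R100/Core_905

/-!
# R100 / S0132, helper905: the core from the upper bound and the choice of the parameters
-/

set_option autoImplicit false

open MeasureTheory Set
open scoped ENNReal

noncomputable section

namespace Crest.Agent.R100.Core905

open Crest.Agent.R100.Mart933 Crest.Agent.R100.Wide933 Crest.Agent.R100.Id833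
open Crest.Agent.R100.Caps341 Crest.Agent.R100.PP833 Crest.Agent.R100.Tree711
open Crest.Agent.R100.Star833 Crest.Agent.R100.Near903

/-- (PP) for all sub-nodes -/
def PPH (g : ℝ → ℂ) (κ : ℝ → ℕ) (k0 : ℕ) (p : ℝ) (W : ℝ≥0∞) : Prop :=
  ∀ k, k0 ≤ k → ∀ (j : ℤ) (I : Finset ℤ) (Y : ℤ → ℝ),
    (∀ i ∈ I, (i : ℝ) * 2 ^ k ≤ Y i ∧ Y i < (i + 1) * 2 ^ k) →
    ∑ i ∈ I, ‖coef (Pb g κ k) (Y i) k j‖ₑ ^ p ≤ W

/-- **upper bound** (UB), literal -/
def UBStmt : Prop :=
  ∃ (CU CV CE : ℝ) (K : ℕ), 0 < CU ∧ 0 ≤ CV ∧ 0 < CE ∧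
    ∀ (g : ℝ → ℂ) (κ : ℝ → ℕ) (θ : ℝ → ℝ) (M : ℝ) (m k0 : ℕ) (j0 : ℤ) (R h : ℕ) (Λ : Set ℝ)
      (W : ℝ≥0∞) (b D0 E M1 : ℝ),
      Measurable g → (∀ x, ‖g x‖ ≤ M) → Measurable κ → Measurable θ → (∀ y, κ y ≤ m) →
      (∀ y, k0 < κ y) → (∀ y, g y ≠ 0 → y ∈ Ivl k0 j0) → (∀ y, g y ≠ 0 → κ y < R) → k0 + 2 ≤ R →
      (∀ k j, avN (Pb g κ k) k j ≤ 2) → PPH g κ k0 (2 * (h : ℝ)) W →
      MeasurableSet Λ → volume Λ ≠ 0 → volume Λ ≠ ⊤ → 0 < b → b ≤ 2 → 1 ≤ D0 → 1 ≤ E → 1 ≤ M1 →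
      W ≤ ENNReal.ofReal (E / 2 ^ k0) * volume Λ * ENNReal.ofReal (D0 * b) ^ (2 * (h : ℝ)) →
      (∀ u : ℝ, volume (Λ ∩ Icc u (u + 2 ^ (R - 1))) ≤ ENNReal.ofReal (2 ^ k0 * M1)) →
      1 ≤ h → K ≤ h → CE * E * M1 * (1 / b) ^ K ≤ 4 ^ (2 * h) → Real.log (4 / b) ≤ 2 * h →
      ∫⁻ x in Ivl k0 j0, ∫⁻ Y in Λ, ‖TS g κ (Y + θ x) k0 m x‖ₑ ≤
        ENNReal.ofReal ((CU * D0 ^ 2 * (2 * h) * b + CV) / 2 ^ k0) * volume Λ

/-- **the choice of the parameters** (helper801's literal) -/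
def NumStmt : Prop :=
  ∀ (C2 CE CV : ℝ) (K : ℕ), 1 ≤ C2 → ∃ A c : ℝ, 0 < A ∧ 0 < c ∧ ∃ n₀ : ℕ, ∀ n : ℕ, n₀ ≤ n → 1 ≤ n ∧
    ∃ (h : ℕ) (β : ℝ), 1 ≤ h ∧ K ≤ h ∧ 0 < β ∧ β ≤ 1 ∧
      (C2 * (2 * (h : ℝ))) * (4 + Real.log (4 / (n : ℝ) ^ (-c))) + C2 * (n + 3) + 2 < A * n ∧
      β ^ (2 * (h : ℝ) - 2) * (2 ^ n * 2) ≤
        (1 / 2 * ((n : ℝ) ^ (-c) / 4 * Real.exp (-(A * n + 3) / (C2 * (2 * (h : ℝ))))) ^
          (2 * (h : ℝ))) / 2 ∧
      CE * (1 / β) ^ K ≤ 4 ^ (2 * h) ∧ Real.log (CE / β) ≤ 2 * h ∧ CV < 2 * (h : ℝ) * β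

/-- (PP) for `g4` from the near-maximality (`nm`) -/
theorem pph {s : ℝ → ℂ} {θ : ℝ → ℝ} {al : ℕ → ℤ → Prop} {f g g' : ℝ → ℂ} {κ : ℝ → ℕ}
    {n m k0 : ℕ} {j0 : ℤ} {p v V mu M : ℝ} (H : Blk s θ al f n m p v V mu k0 j0 g κ)
    (hp : 1 ≤ p) (hg' : Measurable g') (hM : ∀ x, ‖g' x‖ ≤ M) (hle : ∀ y, ‖g' y‖ ≤ ‖g y‖) :
    PPH g' κ k0 p (2 * ENNReal.ofReal (Real.pi / 2) ^ p *
      (ENNReal.ofReal (9 ^ p) * Np p g k0 j0)) := by
  intro k hk j I Y hY
  refine PP' hp (measurable_Pb hg' H.meas_κ k) (fun x => (norm_Pb_le g' κ k x).trans (hM x)) k j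
    (fun q hq hq1 => ?_) I Y hY
  refine H.nm k hk j _ (hq.mul (measurable_Pb hg' H.meas_κ k)) fun y _ => ?_
  rw [norm_mul]
  unfold Pb
  split_ifs with h
  · calc ‖q y‖ * ‖g' y‖ ≤ 1 * ‖g y‖ :=
          mul_le_mul (hq1 y) (hle y) (norm_nonneg _) zero_le_one
      _ = _ := one_mul _
  · simp

theorem coreX_of (hU : UBStmt) (hN : NumStmt) : CoreX916.CoreX := by
  obtain ⟨CU, CV, CE, K, hCU, hCV, hCE, hU⟩ := hU
  set C2 : ℝ := CU * 76 ^ 2 + 1 with hC2
  have hC21 : 1 ≤ C2 := by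
    rw [hC2]; nlinarith
  obtain ⟨A, c, hA, hc, n₀, hn₀⟩ := hN C2 (CE * 210000 * (8 / 3) ^ K + 11) (8 / 3 * CV) (K + 4) hC21
  refine ⟨A, c, hA, hc, n₀, ?_⟩
  intro n hn s θ al F m hs hs1 hθ hF hF2 hcl hd hpay
  obtain ⟨hn1, h, β, hh, hKh, hβ, hβ1, hN1, hN2, hN3, hN4, hN5⟩ := hn₀ n hn
  by_contra hcon
  rw [not_le] at hcon
  have hnpos : (0 : ℝ) < n := by exact_mod_cast hn1
  set mu : ℝ := (n : ℝ) ^ (-c) with hmu
  have hmu0 : 0 < mu := Real.rpow_pos_of_pos hnpos _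
  set p : ℝ := 2 * (h : ℝ) with hp
  have hh' : (1 : ℝ) ≤ h := by exact_mod_cast hh
  have hp2 : 2 ≤ p := by rw [hp]; linarith
  have hppos : 0 < p := by linarith
  set v : ℝ := C2 * p with hv
  have hpv : p ≤ v := by rw [hv]; nlinarith
  have hv0 : 0 < v := by linarith
  set f : ℝ → ℂ := fun y => (F y : ℂ) with hf
  have hfm : Measurable f := Complex.measurable_ofReal.comp hF
  have hfn : ∀ y, ‖f y‖ = F y := fun y => by
    rw [hf]; simp only [Complex.norm_real, Real.norm_eq_abs]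
    exact abs_of_nonneg (hF2 y).1
  have hfM : ∀ y, ‖f y‖ ≤ 2 ^ n := fun y => by rw [hfn y]; exact (hF2 y).2
  set E0 : Set ℝ := Ivl 0 0 ∩ {y | F y ≠ 0} with hE0
  have hE0m : MeasurableSet E0 :=
    (measurableSet_Ivl 0 0).inter (measurableSet_eq_fun hF measurable_const).compl
  have hmass : mu ≤ ∫ y in E0, ‖f y‖ := by
    have h1 : ∫ y in E0, ‖f y‖ = ∫ y in Ivl 0 0, F y := by
      rw [← integral_indicator hE0m, ← integral_indicator (measurableSet_Ivl 0 0)]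
      congr 1
      ext y
      by_cases hy : y ∈ Ivl 0 0
      · rw [indicator_of_mem hy]
        by_cases hFy : F y = 0
        · have hyE : y ∉ E0 := fun hc => hc.2 hFy
          rw [indicator_of_notMem hyE, hFy]
        · have hyE : y ∈ E0 := ⟨hy, hFy⟩
          rw [indicator_of_mem hyE, hfn y]
      · rw [indicator_of_notMem hy, indicator_of_notMem (fun hc => hy hc.1)]
    rw [h1]
    exact hcon.le
  obtain ⟨k0, j0, g, κ, H⟩ := exists_blk (E0 := E0) hfm hfM hs hs1 hθ hcl hd hE0m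
    inter_subset_left (fun y hy => hpay y hy.1 hy.2) (by positivity : 0 < A * n) hmu0 hmass hp2 hpv
    (by
      have e1 : v / p = C2 := by rw [hv]; field_simp
      rw [e1, hv, hp]
      exact hN1)
  have hgM : ∀ y, ‖g y‖ ≤ 2 ^ n := fun y => (H.le_f y).trans (hfM y)
  -- lower bound glue
  obtain ⟨R, b, Λ, hΛm, hΛ0, hΛt, hR, hb1, hb2, hbΛ, hpop, hmult⟩ :=
    LB905.lb_glue (M := 2 ^ n) (Λ₀ := 1 / 2 * (mu / 4 * Real.exp (-(A * n + 3) / v)) ^ p)
      (β := β) H.meas_g hgM H.meas_κ H.le_m H.gt H.dens2 hp2 (by positivity) hβ hβ1 H.lb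
      (ne_top_of_le_ne_top ENNReal.ofReal_ne_top H.ub) (by
        rw [hv, hp]
        exact hN2)
  have hbpos : 0 < b := lt_of_lt_of_le (by positivity) hb1
  -- the multiplied function
  set G := g4 s θ al g κ k0 R v with hG
  have hGm : Measurable G := measurable_g4 hs hθ H.meas_g H.meas_κ k0 R v
  have hGle : ∀ y, ‖G y‖ ≤ ‖g y‖ := norm_g4_le' hv0 H.pay
  have hGM : ∀ y, ‖G y‖ ≤ 2 ^ n := fun y => (hGle y).trans (hgM y)
  have hGd : ∀ k j, avN (Pb G κ k) k j ≤ 2 := by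
    intro k j
    refine (Caps341.avN_mono (measurable_Pb hGm H.meas_κ k)
      (fun x => (norm_Pb_le G κ k x).trans (hGM x)) (measurable_Pb H.meas_g H.meas_κ k)
      (fun x => (norm_Pb_le g κ k x).trans (hgM x)) (fun y => ?_) k j).trans (H.dens2 k j)
    unfold Pb
    split_ifs
    · exact hGle y
    · simp
  have hGs : ∀ y, G y ≠ 0 → κ y < R ∧ g y ≠ 0 := fun y hy => g4_ne_zero y hy
  have hW := pph H (by linarith : (1 : ℝ) ≤ p) hGm hGM hGle
  set W : ℝ≥0∞ := 2 * ENNReal.ofReal (Real.pi / 2) ^ p * (ENNReal.ofReal (9 ^ p) * Np p g k0 j0)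
    with hWd
  have hk0 : (0 : ℝ) < 2 ^ k0 := by positivity
  have hpi := Real.pi_pos
  have hpi2 := Real.pi_lt_d2
  have hWle : W ≤ ENNReal.ofReal (1400 / β ^ 2 / 2 ^ k0) * volume Λ *
      ENNReal.ofReal (76 * b) ^ p := by
    have e1 : ENNReal.ofReal (Real.pi / 2) ^ p * (ENNReal.ofReal (9 ^ p) *
        ENNReal.ofReal (16 / 3 * b) ^ p) ≤ ENNReal.ofReal (76 * b) ^ p := by
      have e2 : ENNReal.ofReal (9 ^ p) = ENNReal.ofReal 9 ^ p := by
        rw [ENNReal.ofReal_rpow_of_pos (by norm_num)]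
      rw [e2, ← ENNReal.mul_rpow_of_nonneg _ _ hppos.le, ← ENNReal.mul_rpow_of_nonneg _ _ hppos.le,
        ← ENNReal.ofReal_mul (by norm_num), ← ENNReal.ofReal_mul (by positivity)]
      refine ENNReal.rpow_le_rpow (ENNReal.ofReal_le_ofReal ?_) hppos.le
      nlinarith
    calc W ≤ 2 * ENNReal.ofReal (Real.pi / 2) ^ p * (ENNReal.ofReal (9 ^ p) *
          (ENNReal.ofReal (700 / β ^ 2 * (1 / 2 ^ k0)) * volume Λ *
            ENNReal.ofReal (16 / 3 * b) ^ p)) := by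
          rw [hWd]; gcongr
      _ = 2 * ENNReal.ofReal (700 / β ^ 2 * (1 / 2 ^ k0)) * volume Λ *
          (ENNReal.ofReal (Real.pi / 2) ^ p * (ENNReal.ofReal (9 ^ p) *
            ENNReal.ofReal (16 / 3 * b) ^ p)) := by ring
      _ ≤ 2 * ENNReal.ofReal (700 / β ^ 2 * (1 / 2 ^ k0)) * volume Λ *
          ENNReal.ofReal (76 * b) ^ p := by gcongr
      _ = _ := by
          congr 2
          rw [← ENNReal.ofReal_ofNat, ← ENNReal.ofReal_mul (by norm_num)]
          congr 1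
          ring
  have hβ2 : β ^ 2 ≤ 1 := pow_le_one₀ hβ.le hβ1
  have hβ2' : 0 < β ^ 2 := by positivity
  have hub := hU G κ θ (2 ^ n) m k0 j0 R h Λ W b 76 (1400 / β ^ 2) (150 / β ^ 2) hGm hGM H.meas_κ
    hθ H.le_m H.gt (fun y hy => (H.supp y (hGs y hy).2).1) (fun y hy => (hGs y hy).1) hR hGd hW hΛm
    hΛ0 hΛt hbpos hb2 (by norm_num) (by rw [le_div_iff₀ hβ2']; linarith)
    (by rw [le_div_iff₀ hβ2']; linarith) hWle hmult hh (by omega) (by
      -- numbers
      have h1 : 1 / b ≤ 8 / 3 * (1 / β) := by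
        have : 8 / 3 * (1 / β) = 1 / (3 / 8 * β) := by field_simp
        rw [this]
        exact one_div_le_one_div_of_le (by positivity) hb1
      have h2 : (1 / b) ^ K ≤ (8 / 3) ^ K * (1 / β) ^ K := by
        rw [← mul_pow]
        exact pow_le_pow_left₀ (by positivity) h1 K
      calc CE * (1400 / β ^ 2) * (150 / β ^ 2) * (1 / b) ^ K
          ≤ CE * (1400 / β ^ 2) * (150 / β ^ 2) * ((8 / 3) ^ K * (1 / β) ^ K) := by gcongr
        _ = (CE * 210000 * (8 / 3) ^ K) * (1 / β) ^ (K + 4) := by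
            rw [pow_add]; field_simp; ring
        _ ≤ (CE * 210000 * (8 / 3) ^ K + 11) * (1 / β) ^ (K + 4) := by
            gcongr; linarith
        _ ≤ _ := hN3) (by
      refine le_trans (Real.log_le_log (by positivity) ?_) hN4
      have : 4 / b ≤ 11 / β := by
        rw [div_le_div_iff₀ hbpos hβ]
        nlinarith
      refine this.trans ?_
      gcongr
      have : 0 < CE * 210000 * (8 / 3) ^ K := by positivity
      linarith)
  have hstar := star_pop (Lam := Λ) (b := b) (m := m) hs hθ hs1 H.meas_g hgM H.meas_κ hv0 j0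
    (fun y _ _ => ⟨(H.gt y).le, H.le_m y⟩) H.pay (fun y hy k _ hk => H.live y hy k hk) R hΛm hbΛ
  have hfinal : ENNReal.ofReal (v * b) * volume Λ ≤
      ENNReal.ofReal (CU * 76 ^ 2 * (2 * h) * b + CV) * volume Λ := by
    refine hstar.trans ?_
    calc ENNReal.ofReal (2 ^ k0) *
          ∫⁻ x in Ivl k0 j0, ∫⁻ Y in Λ, ‖TS (g4 s θ al g κ k0 R v) κ (Y + θ x) k0 m x‖ₑ
        ≤ ENNReal.ofReal (2 ^ k0) * (ENNReal.ofReal ((CU * 76 ^ 2 * (2 * h) * b + CV) / 2 ^ k0) *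
            volume Λ) := by gcongr
      _ = _ := by
          rw [← mul_assoc, ← ENNReal.ofReal_mul hk0.le]
          congr 2
          field_simp
  rw [ENNReal.mul_le_mul_iff_left hΛ0 hΛt, ENNReal.ofReal_le_ofReal_iff (by positivity)] at hfinal
  have h1 : v * b = CU * 76 ^ 2 * (2 * h) * b + 2 * h * b := by
    rw [hv, hC2, hp]; ring
  rw [h1] at hfinal
  have h2 : 2 * (h : ℝ) * b ≤ CV := by linarith
  have h3 : 2 * (h : ℝ) * (3 / 8 * β) ≤ 2 * h * b := by gcongr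
  linarith

end Crest.Agent.R100.Core905
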