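import Mathlib.Analysis.Fourier.AddCircle
import Mathlib.MeasureTheory.Function.ContinuousMapDense
import Mathlib.Analysis.SpecificLimits.Normed
import Crest.Agent.R100.WeakSum_403

-- ▼ part R100/OneLevel_403
section

/-!
From a one-level weak-type bound for the Carleson maximal operator to a.e. convergence for
`L log L` functions.
-/
set_option autoImplicit false
open MeasureTheory Set Filter Topology AddCircle
open scoped ENNReal NNReal

namespace Crest.Agent.R100.OneLevel403

variable {T : ℝ} [hT : Fact (0 < T)]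

/-- symmetric partial sums -/
noncomputable def S (f : AddCircle T → ℂ) (N : ℕ) (x : AddCircle T) : ℂ :=
  ∑ k ∈ Finset.Icc (-(N : ℤ)) N, fourierCoeff f k • fourier k x

/-- maximal function, `ℝ≥0∞`-valued -/
noncomputable def C (f : AddCircle T → ℂ) (x : AddCircle T) : ℝ≥0∞ := ⨆ N : ℕ, ‖S f N x‖ₑ

/-- the saving `1 + log (1 + log (1 + n))`. -/
noncomputable def ell (n : ℕ) : ℝ := 1 + Real.log (1 + Real.log (1 + n))

/-- One level bound for the Carleson maximal operator. -/
def OL (T : ℝ) [Fact (0 < T)] : Prop :=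
  ∃ A : ℝ, 0 ≤ A ∧ ∀ n : ℕ, 1 ≤ n → ∀ f : AddCircle T → ℂ, Measurable f → (∀ x, ‖f x‖ ≤ 2 ^ n) →
    ∫ x, ‖f x‖ ∂haarAddCircle ≤ 1 → ∀ lam : ℝ, 0 < lam →
    haarAddCircle {x | ∃ N : ℕ, lam < ‖S f N x‖} ≤ ENNReal.ofReal (A * (n / ell n) / lam)

lemma continuous_S (f : AddCircle T → ℂ) (N : ℕ) : Continuous (S f N) := by
  unfold S
  refine continuous_finsetSum _ fun k _ => ?_
  exact (show Continuous fun x : AddCircle T => fourierCoeff f k • (fourier k x : ℂ) from
    (continuous_const.mul (map_continuous (@fourier T k))))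

lemma measurable_C (f : AddCircle T → ℂ) : Measurable (C f) := by
  unfold C
  exact Measurable.iSup fun N => (continuous_S f N).measurable.enorm

lemma lt_C_iff (f : AddCircle T → ℂ) (x : AddCircle T) (t : ℝ≥0∞) :
    t < C f x ↔ ∃ N, t < ‖S f N x‖ₑ := by
  unfold C; exact lt_iSup_iff

lemma S_const_smul (f : AddCircle T → ℂ) (c : ℂ) (N : ℕ) (x : AddCircle T) :
    S (fun y => c * f y) N x = c * S f N x := by
  unfold S
  rw [Finset.mul_sum]
  refine Finset.sum_congr rfl fun k _ => ?_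
  rw [fourierCoeff.const_mul]
  simp only [smul_eq_mul]; ring

lemma fourierCoeff_add' {f g : AddCircle T → ℂ} (hf : Integrable f haarAddCircle)
    (hg : Integrable g haarAddCircle) (k : ℤ) :
    fourierCoeff (fun x => f x + g x) k = fourierCoeff f k + fourierCoeff g k := by
  exact congrFun (fourierCoeff.add hf hg) k

lemma S_add {f g : AddCircle T → ℂ} (hf : Integrable f haarAddCircle)
    (hg : Integrable g haarAddCircle) (N : ℕ) (x : AddCircle T) :
    S (fun y => f y + g y) N x = S f N x + S g N x := by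
  unfold S
  rw [← Finset.sum_add_distrib]
  refine Finset.sum_congr rfl fun k _ => ?_
  rw [fourierCoeff_add' hf hg, add_smul]

lemma C_add_le {f g : AddCircle T → ℂ} (hf : Integrable f haarAddCircle)
    (hg : Integrable g haarAddCircle) (x : AddCircle T) :
    C (fun y => f y + g y) x ≤ C f x + C g x := by
  unfold C
  refine iSup_le fun N => ?_
  rw [S_add hf hg]
  exact (enorm_add_le _ _).trans (add_le_add (le_iSup (fun N => ‖S f N x‖ₑ) N)
    (le_iSup (fun N => ‖S g N x‖ₑ) N))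

lemma integrable_of_bdd {f : AddCircle T → ℂ} (hf : Measurable f) {M : ℝ} (hb : ∀ x, ‖f x‖ ≤ M) :
    Integrable f haarAddCircle :=
  Integrable.of_bound hf.aestronglyMeasurable M (ae_of_all _ hb)

/-- scaled form of the one-level bound. -/
lemma ol_scaled {A : ℝ} (hOL : ∀ n : ℕ, 1 ≤ n → ∀ f : AddCircle T → ℂ, Measurable f →
    (∀ x, ‖f x‖ ≤ 2 ^ n) → ∫ x, ‖f x‖ ∂haarAddCircle ≤ 1 → ∀ lam : ℝ, 0 < lam →
    haarAddCircle {x | ∃ N : ℕ, lam < ‖S f N x‖} ≤ ENNReal.ofReal (A * (n / ell n) / lam))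
    {n : ℕ} (hn : 1 ≤ n) {f : AddCircle T → ℂ} (hf : Measurable f) {a : ℝ} (ha : 0 < a)
    (hb : ∀ x, ‖f x‖ ≤ 2 ^ n * a) (hi : ∫ x, ‖f x‖ ∂haarAddCircle ≤ a)
    (t : ℝ≥0∞) (ht0 : t ≠ 0) (htt : t ≠ ∞) :
    haarAddCircle {x | t < C f x} ≤ ENNReal.ofReal (A * (n / ell n) * a) / t := by
  have hτ : 0 < t.toReal := ENNReal.toReal_pos ht0 htt
  have h1 := hOL n hn (fun x => (a⁻¹ : ℝ) * f x) (hf.const_mul _) (fun x => by
    rw [norm_mul, Complex.norm_real, Real.norm_of_nonneg (inv_pos.mpr ha).le]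
    calc a⁻¹ * ‖f x‖ ≤ a⁻¹ * (2 ^ n * a) := by gcongr; exact hb x
      _ = 2 ^ n := by field_simp) (by
    have : (fun x => ‖((a⁻¹ : ℝ) : ℂ) * f x‖) = fun x => a⁻¹ * ‖f x‖ := by
      ext x
      rw [norm_mul, Complex.norm_real, Real.norm_of_nonneg (inv_pos.mpr ha).le]
    rw [this, integral_const_mul]
    calc a⁻¹ * ∫ x, ‖f x‖ ∂haarAddCircle ≤ a⁻¹ * a := by gcongr
      _ = 1 := by field_simp) (t.toReal / a) (by positivity)
  have hset : {x | t < C f x} = {x | ∃ N : ℕ, t.toReal / a <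
      ‖S (fun x => ((a⁻¹ : ℝ) : ℂ) * f x) N x‖} := by
    ext x
    simp only [mem_ofPred_eq, lt_C_iff]
    refine exists_congr fun N => ?_
    rw [S_const_smul, norm_mul, Complex.norm_real, Real.norm_of_nonneg (inv_pos.mpr ha).le,
      ← ENNReal.toReal_lt_toReal htt enorm_ne_top, toReal_enorm, div_lt_iff₀ ha,
      mul_comm a⁻¹, mul_assoc, inv_mul_cancel₀ ha.ne', mul_one]
  rw [hset]
  refine h1.trans (le_of_eq ?_)
  have : t = ENNReal.ofReal t.toReal := (ENNReal.ofReal_toReal htt).symm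
  conv_rhs => rw [this, ← ENNReal.ofReal_div_of_pos hτ]
  congr 1
  field_simp

/-- countable subadditivity of the maximal function. -/
lemma C_tsum_le {F : ℕ → AddCircle T → ℂ} (hF : ∀ i, Integrable (F i) haarAddCircle)
    (hsum : Summable fun i => ∫ x, ‖F i x‖ ∂haarAddCircle) (x : AddCircle T) :
    C (fun y => ∑' i, F i y) x ≤ ∑' i, C (F i) x := by
  have hco : ∀ k : ℤ, HasSum (fun i => fourierCoeff (F i) k)
      (fourierCoeff (fun y => ∑' i, F i y) k) := by
    intro k
    have h1 := hasSum_integral_of_summable_integral_norm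
      (F := fun i t => fourier (-k) t • F i t) (μ := haarAddCircle)
      (fun i => (hF i).fourier_smul (-k)) (by
        refine hsum.congr fun i => ?_
        refine integral_congr_ae (ae_of_all _ fun t => ?_)
        simp only [norm_smul, fourier_apply, Circle.norm_coe, one_mul])
    have h2 : (fun t => ∑' i, fourier (-k) t • F i t) =
        fun t => fourier (-k) t • ∑' i, F i t := by
      ext t
      simp only [smul_eq_mul]
      rw [tsum_mul_left]
    simp only [h2] at h1
    exact h1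
  unfold C
  refine iSup_le fun N => ?_
  have hS : HasSum (fun i => S (F i) N x) (S (fun y => ∑' i, F i y) N x) := by
    unfold S
    exact hasSum_sum fun k _ => (hco k).smul_const _
  rw [← hS.tsum_eq]
  refine enorm_tsum_le_tsum_enorm.trans (ENNReal.tsum_le_tsum fun i => ?_)
  exact le_iSup (fun N => ‖S (F i) N x‖ₑ) N

/-- trigonometric polynomials are eventually reproduced. -/
lemma S_span {P : C(AddCircle T, ℂ)} (hP : P ∈ Submodule.span ℂ (range (@fourier T))) :
    ∀ᶠ N : ℕ in atTop, ∀ x, S P N x = P x := by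
  induction hP using Submodule.span_induction with
  | mem P hP =>
    obtain ⟨k, rfl⟩ := hP
    filter_upwards [eventually_ge_atTop k.natAbs] with N hN x
    unfold S
    rw [Finset.sum_eq_single k]
    · rw [fourierCoeff_fourier]; simp
    · intro m _ hm
      rw [fourierCoeff_fourier, Pi.single_eq_of_ne hm, zero_smul]
    · intro hk
      exfalso
      apply hk
      rw [Finset.mem_Icc]
      omega
  | zero =>
    refine Eventually.of_forall fun N x => ?_
    unfold S
    simp [fourierCoeff]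
  | add P Q _ _ hP hQ =>
    filter_upwards [hP, hQ] with N h1 h2 x
    have := S_add (f := P) (g := Q) (P.continuous.integrable_of_hasCompactSupport
      (HasCompactSupport.of_compactSpace _)) (Q.continuous.integrable_of_hasCompactSupport
      (HasCompactSupport.of_compactSpace _)) N x
    simp only [ContinuousMap.coe_add]
    rw [show ((P : AddCircle T → ℂ) + (Q : AddCircle T → ℂ)) = fun y => P y + Q y from rfl, this,
      h1 x, h2 x]
  | smul c P _ hP =>
    filter_upwards [hP] with N h1 x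
    simp only [ContinuousMap.coe_smul]
    rw [show (c • (P : AddCircle T → ℂ)) = fun y => c * P y from rfl, S_const_smul, h1 x]

/-- radial clamp. -/
noncomputable def clamp (R : ℝ) (z : ℂ) : ℂ := ((R / max R ‖z‖ : ℝ) : ℂ) * z

lemma continuous_clamp {R : ℝ} (hR : 0 < R) : Continuous (clamp R) := by
  unfold clamp
  refine Continuous.mul ?_ continuous_id
  refine Complex.continuous_ofReal.comp ?_
  refine Continuous.div continuous_const (continuous_const.max continuous_norm) fun z => ?_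
  exact (lt_max_of_lt_left hR).ne'

lemma norm_clamp_le {R : ℝ} (hR : 0 < R) (z : ℂ) : ‖clamp R z‖ ≤ R := by
  unfold clamp
  have hpos : 0 < max R ‖z‖ := lt_max_of_lt_left hR
  rw [norm_mul, Complex.norm_real, Real.norm_of_nonneg (by positivity), div_mul_eq_mul_div,
    div_le_iff₀ hpos]
  gcongr
  exact le_max_right _ _

lemma norm_sub_clamp_le {R : ℝ} (hR : 0 < R) (w z : ℂ) (hw : ‖w‖ ≤ R) :
    ‖w - clamp R z‖ ≤ 2 * ‖w - z‖ := by
  rcases le_or_gt ‖z‖ R with hz | hz
  · have : clamp R z = z := by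
      unfold clamp
      rw [max_eq_left hz, div_self hR.ne']; simp
    rw [this]
    linarith [norm_nonneg (w - z)]
  · have h1 : ‖z - clamp R z‖ = ‖z‖ - R := by
      unfold clamp
      rw [max_eq_right hz.le]
      have hz0 : 0 < ‖z‖ := hR.trans hz
      rw [show z - ((R / ‖z‖ : ℝ) : ℂ) * z = ((1 - R / ‖z‖ : ℝ) : ℂ) * z by push_cast; ring,
        norm_mul, Complex.norm_real, Real.norm_of_nonneg]
      · field_simp
      · rw [sub_nonneg, div_le_one hz0]; exact hz.le
    calc ‖w - clamp R z‖ = ‖(w - z) + (z - clamp R z)‖ := by ring_nf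
      _ ≤ ‖w - z‖ + ‖z - clamp R z‖ := norm_add_le _ _
      _ ≤ ‖w - z‖ + ‖w - z‖ := by
          rw [h1]
          have : ‖z‖ ≤ ‖w‖ + ‖w - z‖ := by
            calc ‖z‖ = ‖w - (w - z)‖ := by ring_nf
              _ ≤ ‖w‖ + ‖w - z‖ := norm_sub_le _ _
          linarith
      _ = 2 * ‖w - z‖ := by ring

/-- Approximation of bounded functions by trigonometric polynomials with control of the sup norm. -/
lemma exists_trig_approx {g : AddCircle T → ℂ} (hg : Measurable g) {R : ℝ} (hR : 0 < R)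
    (hb : ∀ x, ‖g x‖ ≤ R) {η : ℝ} (hη : 0 < η) :
    ∃ P : C(AddCircle T, ℂ), P ∈ Submodule.span ℂ (range (@fourier T)) ∧
      (∀ x, ‖g x - P x‖ ≤ 2 * R + 1) ∧ ∫ x, ‖g x - P x‖ ∂haarAddCircle ≤ η := by
  have hgi := integrable_of_bdd hg hb
  obtain ⟨u0, hu0, hu0i⟩ := hgi.exists_boundedContinuous_integral_sub_le
    (show (0 : ℝ) < η / 4 by positivity)
  let u : C(AddCircle T, ℂ) := ⟨fun x => clamp R (u0 x), (continuous_clamp hR).comp u0.continuous⟩
  have hclos := @span_fourier_closure_eq_top T hT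
  have hu : u ∈ (Submodule.span ℂ (range (@fourier T))).topologicalClosure := by
    rw [hclos]; trivial
  obtain ⟨P, hP, hPu⟩ := Metric.mem_closure_iff.mp (show u ∈ closure
    ((Submodule.span ℂ (range (@fourier T)) : Submodule ℂ C(AddCircle T, ℂ)) :
      Set C(AddCircle T, ℂ)) from hu) (min (η / 2) 1) (by positivity)
  have hPx : ∀ x, ‖u x - P x‖ ≤ min (η / 2) 1 := by
    intro x
    have h1 := (ContinuousMap.dist_apply_le_dist (f := u) (g := P) x).trans hPu.le
    rwa [dist_eq_norm] at h1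
  have hgu : ∀ x, ‖g x - u x‖ ≤ 2 * ‖g x - u0 x‖ := fun x => norm_sub_clamp_le hR _ _ (hb x)
  refine ⟨P, hP, fun x => ?_, ?_⟩
  · calc ‖g x - P x‖ = ‖g x - u x + (u x - P x)‖ := by ring_nf
      _ ≤ ‖g x - u x‖ + ‖u x - P x‖ := norm_add_le _ _
      _ ≤ (‖g x‖ + ‖u x‖) + 1 := by
          gcongr
          · exact norm_sub_le _ _
          · exact (hPx x).trans (min_le_right _ _)
      _ ≤ (R + R) + 1 := by
          gcongr
          · exact hb x
          · exact norm_clamp_le hR _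
      _ = 2 * R + 1 := by ring
  · have hi : Integrable (fun x => g x - u0 x) haarAddCircle := hgi.sub hu0i
    calc ∫ x, ‖g x - P x‖ ∂haarAddCircle
        ≤ ∫ x, (2 * ‖g x - u0 x‖ + η / 2) ∂haarAddCircle := by
          refine integral_mono_of_nonneg (ae_of_all _ fun x => norm_nonneg _)
            ((hi.norm.const_mul 2).add (integrable_const _)) (ae_of_all _ fun x => ?_)
          calc ‖g x - P x‖ = ‖g x - u x + (u x - P x)‖ := by ring_nf
            _ ≤ ‖g x - u x‖ + ‖u x - P x‖ := norm_add_le _ _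
            _ ≤ 2 * ‖g x - u0 x‖ + η / 2 := by
              gcongr
              · exact hgu x
              · exact (hPx x).trans (min_le_left _ _)
      _ = 2 * ∫ x, ‖g x - u0 x‖ ∂haarAddCircle + η / 2 := by
          rw [integral_add (hi.norm.const_mul 2) (integrable_const _), integral_const_mul]
          simp
      _ ≤ 2 * (η / 4) + η / 2 := by gcongr
      _ = η := by ring

end Crest.Agent.R100.OneLevel403
end

-- ▼ part R100/OneLevelFinal_403

/-!
From the one-level bound `OL` to a.e. convergence for `L log L`: the final assembly.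
-/
set_option autoImplicit false
set_option linter.unusedSectionVars false
open MeasureTheory Set Filter Topology AddCircle
open scoped ENNReal NNReal

namespace Crest.Agent.R100.OneLevel403
open Crest.Agent.R100.WeakSum403

variable {T : ℝ} [hT : Fact (0 < T)]

/-- doubly exponential levels -/
def lev (f : AddCircle T → ℂ) (j : ℕ) : Set (AddCircle T) :=
  {x | (2 : ℝ) ^ (2 ^ j) < ‖f x‖ ∧ ‖f x‖ ≤ 2 ^ (2 ^ (j + 1))}

/-- restriction to a level -/
noncomputable def part (f : AddCircle T → ℂ) (j : ℕ) : AddCircle T → ℂ := (lev f j).indicator f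

/-- `L¹` norm of a level -/
noncomputable def anorm (f : AddCircle T → ℂ) (j : ℕ) : ℝ := ∫ x, ‖part f j x‖ ∂haarAddCircle

lemma measurableSet_lev {f : AddCircle T → ℂ} (hf : Measurable f) (j : ℕ) :
    MeasurableSet (lev f j) :=
  (measurableSet_lt measurable_const hf.norm).inter (measurableSet_le hf.norm measurable_const)

lemma measurable_part {f : AddCircle T → ℂ} (hf : Measurable f) (j : ℕ) :
    Measurable (part f j) := hf.indicator (measurableSet_lev hf j)

lemma norm_part_le (f : AddCircle T → ℂ) (j : ℕ) (x : AddCircle T) :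
    ‖part f j x‖ ≤ 2 ^ (2 ^ (j + 1)) := by
  unfold part
  by_cases hx : x ∈ lev f j
  · rw [indicator_of_mem hx]; exact hx.2
  · rw [indicator_of_notMem hx, norm_zero]; positivity

lemma pow_pow_mono {i j : ℕ} (h : i ≤ j) : (2 : ℝ) ^ (2 ^ i) ≤ 2 ^ (2 ^ j) :=
  pow_le_pow_right₀ (by norm_num) (Nat.pow_le_pow_right (by norm_num) h)

lemma lev_disjoint (f : AddCircle T → ℂ) : Pairwise (Function.onFun Disjoint (lev f)) := by
  have key : ∀ i j : ℕ, i < j → Disjoint (lev f i) (lev f j) := by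
    intro i j hij
    rw [Set.disjoint_left]
    intro x hx hx'
    exact absurd (hx'.1.trans_le (hx.2.trans (pow_pow_mono hij))) (lt_irrefl _)
  intro i j hij
  rcases lt_or_gt_of_ne hij with h | h
  · exact key i j h
  · exact (key j i h).symm

lemma exists_lev (f : AddCircle T → ℂ) (j0 : ℕ) (x : AddCircle T)
    (hx : (2 : ℝ) ^ (2 ^ j0) < ‖f x‖) : ∃ i, x ∈ lev f (j0 + i) := by
  classical
  have hex : ∃ i, ‖f x‖ ≤ (2 : ℝ) ^ (2 ^ (j0 + i + 1)) := by
    obtain ⟨n, hn⟩ := pow_unbounded_of_one_lt ‖f x‖ (one_lt_two : (1 : ℝ) < 2)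
    refine ⟨n, hn.le.trans (pow_le_pow_right₀ (by norm_num) ?_)⟩
    calc n ≤ 2 ^ n := Nat.lt_two_pow_self.le
      _ ≤ 2 ^ (j0 + n + 1) := Nat.pow_le_pow_right (by norm_num) (by omega)
  refine ⟨Nat.find hex, ?_, Nat.find_spec hex⟩
  rcases Nat.eq_zero_or_pos (Nat.find hex) with h | h
  · rw [h]; simpa using hx
  · have := Nat.find_min hex (Nat.sub_one_lt_of_lt h)
    push Not at this
    have e : j0 + (Nat.find hex - 1) + 1 = j0 + Nat.find hex := by omega
    rwa [e] at this

/-- the part of `f` above the level `j0` -/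
noncomputable def top (f : AddCircle T → ℂ) (j0 : ℕ) : AddCircle T → ℂ :=
  {x | (2 : ℝ) ^ (2 ^ j0) < ‖f x‖}.indicator f

lemma tsum_part (f : AddCircle T → ℂ) (j0 : ℕ) (x : AddCircle T) :
    ∑' i, part f (j0 + i) x = top f j0 x := by
  unfold top
  by_cases hx : (2 : ℝ) ^ (2 ^ j0) < ‖f x‖
  · obtain ⟨i, hi⟩ := exists_lev f j0 x hx
    rw [tsum_eq_single i, indicator_of_mem (show x ∈ {x | (2 : ℝ) ^ (2 ^ j0) < ‖f x‖} from hx),
      part, indicator_of_mem hi]
    intro i' hi'
    rw [part, indicator_of_notMem]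
    intro h
    have hd := lev_disjoint f (show j0 + i' ≠ j0 + i by omega)
    exact Set.disjoint_left.mp hd h hi
  · rw [indicator_of_notMem (show x ∉ {x | (2 : ℝ) ^ (2 ^ j0) < ‖f x‖} from hx)]
    convert tsum_zero with i
    rw [part, indicator_of_notMem]
    intro h
    exact hx ((pow_pow_mono (Nat.le_add_right j0 i)).trans_lt h.1)

lemma anorm_nonneg (f : AddCircle T → ℂ) (j : ℕ) : 0 ≤ anorm f j :=
  integral_nonneg fun _ => norm_nonneg _

lemma ofReal_anorm {f : AddCircle T → ℂ} (hf : Measurable f) (j : ℕ) :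
    ENNReal.ofReal (anorm f j) = ∫⁻ x in lev f j, ‖f x‖ₑ ∂haarAddCircle := by
  unfold anorm
  rw [ofReal_integral_norm_eq_lintegral_enorm (integrable_of_bdd (measurable_part hf j)
    (norm_part_le f j)), ← lintegral_indicator (measurableSet_lev hf j)]
  refine lintegral_congr fun x => ?_
  unfold part
  by_cases hx : x ∈ lev f j
  · simp [indicator_of_mem hx]
  · simp [indicator_of_notMem hx]

/-- weights of the levels -/
noncomputable def cc (f : AddCircle T → ℂ) (j : ℕ) : ℝ := 2 ^ j * (anorm f j + (2 ^ (2 ^ j))⁻¹)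


lemma tsum_anorm {f : AddCircle T → ℂ} (hf : Measurable f)
    (hlog : ∫⁻ x, ‖f x‖ₑ * ENNReal.ofReal (Real.log (2 + ‖f x‖)) ∂haarAddCircle < ⊤) :
    ∑' j, ENNReal.ofReal (2 ^ j * anorm f j) ≠ ∞ := by
  have h1 : ∀ j, ENNReal.ofReal (2 ^ j * anorm f j) ≤
      ENNReal.ofReal 2 * ∫⁻ x in lev f j, ‖f x‖ₑ * ENNReal.ofReal (Real.log (2 + ‖f x‖))
        ∂haarAddCircle := by
    intro j
    rw [ENNReal.ofReal_mul (by positivity), ofReal_anorm hf]
    rw [← lintegral_const_mul _ hf.enorm]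
    rw [← lintegral_const_mul]
    · refine setLIntegral_mono' (measurableSet_lev hf j) fun x hx => ?_
      have h2 : (2 : ℝ) ^ j ≤ 2 * Real.log (2 + ‖f x‖) := by
        have h3 : Real.log ((2 : ℝ) ^ (2 ^ j)) ≤ Real.log (2 + ‖f x‖) := by
          refine Real.log_le_log (by positivity) ?_
          linarith [hx.1]
        rw [Real.log_pow] at h3
        have h4 := Real.log_two_gt_d9
        push_cast at h3
        have h5 : (0 : ℝ) < 2 ^ j := by positivity
        nlinarith
      calc ENNReal.ofReal (2 ^ j) * ‖f x‖ₑ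
          ≤ ENNReal.ofReal (2 * Real.log (2 + ‖f x‖)) * ‖f x‖ₑ := by
            gcongr
        _ = ENNReal.ofReal 2 * (‖f x‖ₑ * ENNReal.ofReal (Real.log (2 + ‖f x‖))) := by
            rw [ENNReal.ofReal_mul (by norm_num)]; ring
    · exact hf.enorm.mul (Real.measurable_log.comp (measurable_const.add hf.norm)).ennreal_ofReal
  refine ne_top_of_le_ne_top ?_ (ENNReal.tsum_le_tsum h1)
  rw [ENNReal.tsum_mul_left, ← lintegral_iUnion (fun j => measurableSet_lev hf j) (lev_disjoint f)]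
  refine ENNReal.mul_ne_top ENNReal.ofReal_ne_top (ne_top_of_le_ne_top hlog.ne ?_)
  exact setLIntegral_le_lintegral _ _

lemma two_mul_le_pow (j : ℕ) : 2 * j ≤ 2 ^ j := by
  induction j with
  | zero => norm_num
  | succ j ih =>
    rcases Nat.eq_zero_or_pos j with h | h
    · subst h; norm_num
    · rw [pow_succ]; omega

lemma tsum_tiny : ∑' j : ℕ, ENNReal.ofReal (2 ^ j * (2 ^ (2 ^ j))⁻¹) ≠ ∞ := by
  have h1 : ∀ j : ℕ, (2 : ℝ) ^ j * (2 ^ (2 ^ j))⁻¹ ≤ (1 / 2) ^ j := by
    intro j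
    have h2 : (2 : ℝ) ^ (2 * j) ≤ 2 ^ (2 ^ j) :=
      pow_le_pow_right₀ (by norm_num) (two_mul_le_pow j)
    rw [one_div_pow, ← div_eq_mul_inv, div_le_div_iff₀ (by positivity) (by positivity), one_mul,
      ← pow_add, ← two_mul]
    exact h2
  have hs : Summable fun j : ℕ => (1 / 2 : ℝ) ^ j := summable_geometric_two
  refine ne_top_of_le_ne_top ?_ (ENNReal.tsum_le_tsum fun j => ENNReal.ofReal_le_ofReal (h1 j))
  rw [← ENNReal.ofReal_tsum_of_nonneg (fun j => by positivity) hs]
  exact ENNReal.ofReal_ne_top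

lemma tsum_cc {f : AddCircle T → ℂ} (hf : Measurable f)
    (hlog : ∫⁻ x, ‖f x‖ₑ * ENNReal.ofReal (Real.log (2 + ‖f x‖)) ∂haarAddCircle < ⊤) :
    ∑' j, ENNReal.ofReal (cc f j) ≠ ∞ := by
  have : ∀ j, ENNReal.ofReal (cc f j) = ENNReal.ofReal (2 ^ j * anorm f j) +
      ENNReal.ofReal (2 ^ j * (2 ^ (2 ^ j))⁻¹) := by
    intro j
    rw [← ENNReal.ofReal_add (mul_nonneg (by positivity) (anorm_nonneg f j)) (by positivity)]
    unfold cc; congr 1; ring
  simp_rw [this]
  rw [ENNReal.tsum_add]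
  exact ENNReal.add_ne_top.mpr ⟨tsum_anorm hf hlog, tsum_tiny⟩

lemma ell_pos (n : ℕ) : 1 ≤ ell n := by
  unfold ell
  have h1 : 0 ≤ Real.log (1 + (n : ℝ)) := Real.log_nonneg (by
    have : (0 : ℝ) ≤ n := Nat.cast_nonneg n
    linarith)
  have h2 : 0 ≤ Real.log (1 + Real.log (1 + (n : ℝ))) := Real.log_nonneg (by linarith)
  linarith

lemma ell_lower (j : ℕ) : 0.3 * (1 + Real.log (1 + j)) ≤ ell (3 * 2 ^ j) := by
  unfold ell
  push_cast
  have hj : (0 : ℝ) ≤ j := Nat.cast_nonneg j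
  have h1 : (j : ℝ) * Real.log 2 ≤ Real.log (1 + 3 * 2 ^ j) := by
    rw [← Real.log_pow]
    refine Real.log_le_log (by positivity) ?_
    have : (0 : ℝ) < 2 ^ j := by positivity
    linarith
  have h2 := Real.log_two_gt_d9
  have h2' := Real.log_two_lt_d9
  have h3 : (1 + (j : ℝ)) / 2 ≤ 1 + Real.log (1 + 3 * 2 ^ j) := by nlinarith
  have h4 := Real.log_le_log (by positivity) h3
  rw [Real.log_div (by positivity) (by norm_num)] at h4
  have h5 : 0 ≤ Real.log (1 + (j : ℝ)) := Real.log_nonneg (by linarith)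
  nlinarith

lemma key_bound {i j : ℕ} (hij : i ≤ j) :
    ((3 * 2 ^ j : ℕ) : ℝ) / ell (3 * 2 ^ j) * (1 + 4 * (wt i : ℝ)) ≤ 400 * 2 ^ j := by
  have h1 := wt_le i
  have h2 := ell_lower j
  have h3 : Real.log (1 + (i : ℝ)) ≤ Real.log (1 + (j : ℝ)) := by
    refine Real.log_le_log (by positivity) ?_
    have : (i : ℝ) ≤ j := by exact_mod_cast hij
    linarith
  have hpos : 0 < ell (3 * 2 ^ j) := zero_lt_one.trans_le (ell_pos _)
  rw [div_mul_eq_mul_div, div_le_iff₀ hpos]
  push_cast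
  have h4 : (1 + 4 * (wt i : ℝ)) ≤ 40 * (1 + Real.log (1 + j)) := by linarith
  have h5 : (0 : ℝ) < 2 ^ j := by positivity
  calc 3 * (2 : ℝ) ^ j * (1 + 4 * (wt i : ℝ)) ≤ 3 * 2 ^ j * (40 * (1 + Real.log (1 + j))) := by gcongr
    _ = 400 * 2 ^ j * (0.3 * (1 + Real.log (1 + j))) := by ring
    _ ≤ 400 * 2 ^ j * ell (3 * 2 ^ j) := by gcongr

/-- the maximal function of the part above level `j0` is small. -/
lemma measure_C_top_le {A : ℝ} (hA : 0 ≤ A)
    (hOL : ∀ n : ℕ, 1 ≤ n → ∀ f : AddCircle T → ℂ, Measurable f →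
    (∀ x, ‖f x‖ ≤ 2 ^ n) → ∫ x, ‖f x‖ ∂haarAddCircle ≤ 1 → ∀ lam : ℝ, 0 < lam →
    haarAddCircle {x | ∃ N : ℕ, lam < ‖S f N x‖} ≤ ENNReal.ofReal (A * (n / ell n) / lam))
    {f : AddCircle T → ℂ} (hf : Measurable f)
    (hlog : ∫⁻ x, ‖f x‖ₑ * ENNReal.ofReal (Real.log (2 + ‖f x‖)) ∂haarAddCircle < ⊤)
    (j0 : ℕ) (t : ℝ≥0∞) (ht0 : t ≠ 0) (htt : t ≠ ∞) :
    haarAddCircle {x | t < C (top f j0) x} ≤
      ENNReal.ofReal (400 * A) * (∑' i, ENNReal.ofReal (cc f (i + j0))) / t := by
  have hint : ∀ i, Integrable (part f (j0 + i)) haarAddCircle := fun i =>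
    integrable_of_bdd (measurable_part hf _) (norm_part_le f _)
  have hsum : Summable fun i => ∫ x, ‖part f (j0 + i) x‖ ∂haarAddCircle := by
    have h1 : Summable fun j => 2 ^ j * anorm f j := by
      have h2 := tsum_anorm hf hlog
      have h3 := ENNReal.summable_toReal h2
      refine h3.congr fun j => ?_
      exact ENNReal.toReal_ofReal (mul_nonneg (by positivity) (anorm_nonneg f j))
    have h4 : Summable fun i => 2 ^ (j0 + i) * anorm f (j0 + i) :=
      h1.comp_injective (add_right_injective j0)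
    refine Summable.of_nonneg_of_le (fun i => anorm_nonneg f (j0 + i)) (fun i => ?_) h4
    have h5 : (1 : ℝ) ≤ 2 ^ (j0 + i) := one_le_pow₀ (by norm_num)
    exact le_mul_of_one_le_left (anorm_nonneg f (j0 + i)) h5
  have hsub : {x | t < C (top f j0) x} ⊆ {x | t < ∑' i, C (part f (j0 + i)) x} := by
    intro x hx
    rw [mem_ofPred_eq] at hx ⊢
    refine lt_of_lt_of_le hx ?_
    have := C_tsum_le hint hsum x
    have he : (fun y => ∑' i, part f (j0 + i) y) = top f j0 := by
      ext y; exact tsum_part f j0 y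
    rwa [he] at this
  refine (measure_mono hsub).trans ?_
  set b : ℕ → ℝ≥0∞ := fun i => ENNReal.ofReal (A * (((3 * 2 ^ (j0 + i) : ℕ) : ℝ) /
    ell (3 * 2 ^ (j0 + i))) * (anorm f (j0 + i) + (2 ^ (2 ^ (j0 + i)))⁻¹)) with hbdef
  have hb : ∀ i, ∀ s : ℝ≥0∞, s ≠ 0 → s ≠ ∞ →
      haarAddCircle {x | s < C (part f (j0 + i)) x} ≤ b i / s := by
    intro i s hs0 hst
    have ha := anorm_nonneg f (j0 + i)
    refine ol_scaled hOL (n := 3 * 2 ^ (j0 + i)) (by
      have : 0 < 2 ^ (j0 + i) := by positivity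
      omega) (measurable_part hf _) (by positivity) (fun x => ?_) ?_ s hs0 hst
    · refine (norm_part_le f _ x).trans ?_
      have h1 : (2 : ℝ) ^ (2 ^ (j0 + i + 1)) =
          2 ^ (3 * 2 ^ (j0 + i)) * (2 ^ (2 ^ (j0 + i)))⁻¹ := by
        rw [eq_mul_inv_iff_mul_eq₀ (by positivity), ← pow_add]
        congr 1
        rw [pow_succ]; ring
      rw [h1]
      gcongr
      linarith
    · have : 0 ≤ ((2 : ℝ) ^ (2 ^ (j0 + i)))⁻¹ := by positivity
      change anorm f (j0 + i) ≤ _
      linarith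
  have hmain := measure_tsum_lt (μ := haarAddCircle) (fun i => C (part f (j0 + i)))
    (fun i => measurable_C _) b hb wt tsum_wt_le t ht0 htt
  refine hmain.trans ?_
  gcongr
  rw [← ENNReal.tsum_mul_left]
  refine ENNReal.tsum_le_tsum fun i => ?_
  have h1 : (1 + 4 * (wt i : ℝ≥0∞)) = ENNReal.ofReal (1 + 4 * (wt i : ℝ)) := by
    rw [ENNReal.ofReal_add (by norm_num) (by positivity), ENNReal.ofReal_mul (by norm_num),
      ENNReal.ofReal_natCast]
    simp
  rw [hbdef]
  simp only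
  have ha := anorm_nonneg f (j0 + i)
  have hell : 0 < ell (3 * 2 ^ (j0 + i)) := zero_lt_one.trans_le (ell_pos _)
  rw [h1, ← ENNReal.ofReal_mul (by positivity), ← ENNReal.ofReal_mul (by positivity)]
  refine ENNReal.ofReal_le_ofReal ?_
  have h2 := key_bound (Nat.le_add_left i j0)
  calc A * (((3 * 2 ^ (j0 + i) : ℕ) : ℝ) / ell (3 * 2 ^ (j0 + i))) *
        (anorm f (j0 + i) + (2 ^ 2 ^ (j0 + i))⁻¹) * (1 + 4 * (wt i : ℝ))
      = A * ((((3 * 2 ^ (j0 + i) : ℕ) : ℝ) / ell (3 * 2 ^ (j0 + i))) * (1 + 4 * (wt i : ℝ))) *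
        (anorm f (j0 + i) + (2 ^ 2 ^ (j0 + i))⁻¹) := by ring
    _ ≤ A * (400 * 2 ^ (j0 + i)) * (anorm f (j0 + i) + (2 ^ 2 ^ (j0 + i))⁻¹) := by
        gcongr
    _ = 400 * A * cc f (i + j0) := by
        unfold cc; rw [add_comm i j0]; ring

/-- bounded functions are approximated by trigonometric polynomials with small maximal function -/
lemma exists_good_poly_bdd {A : ℝ} (hA : 0 ≤ A)
    (hOL : ∀ n : ℕ, 1 ≤ n → ∀ f : AddCircle T → ℂ, Measurable f →
    (∀ x, ‖f x‖ ≤ 2 ^ n) → ∫ x, ‖f x‖ ∂haarAddCircle ≤ 1 → ∀ lam : ℝ, 0 < lam →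
    haarAddCircle {x | ∃ N : ℕ, lam < ‖S f N x‖} ≤ ENNReal.ofReal (A * (n / ell n) / lam))
    {g : AddCircle T → ℂ} (hg : Measurable g) {R : ℝ} (hR : 0 < R) (hb : ∀ x, ‖g x‖ ≤ R)
    (ε δ : ℝ≥0∞) (hε0 : ε ≠ 0) (hε : ε ≠ ∞) (hδ0 : δ ≠ 0) :
    ∃ P : C(AddCircle T, ℂ), P ∈ Submodule.span ℂ (range (@fourier T)) ∧
      haarAddCircle {x | ε < C (fun y => g y - P y) x} ≤ δ ∧
      ∫⁻ x, ‖g x - P x‖ₑ ∂haarAddCircle ≤ δ := by
  set M : ℝ := 2 * R + 1 with hM
  have hMpos : 0 < M := by positivity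
  have hlim : Tendsto (fun k : ℕ => (A * (k * (1 / 2) ^ k) * M : ℝ)) atTop (𝓝 0) := by
    have h1 : Tendsto (fun k : ℕ => (k : ℝ) * (1 / 2) ^ k) atTop (𝓝 0) :=
      tendsto_self_mul_const_pow_of_lt_one (by norm_num) (by norm_num)
    simpa using (h1.const_mul A).mul_const M
  have hlim2 : Tendsto (fun k : ℕ => ((1 / 2) ^ k * M : ℝ)) atTop (𝓝 0) := by
    simpa using (tendsto_pow_atTop_nhds_zero_of_lt_one (show (0 : ℝ) ≤ 1 / 2 by norm_num)
      (by norm_num)).mul_const M
  have hδε : δ * ε ≠ 0 := mul_ne_zero hδ0 hε0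
  have e1 : ∀ᶠ k : ℕ in atTop, ENNReal.ofReal (A * (k * (1 / 2) ^ k) * M) ≤ δ * ε := by
    have h := (ENNReal.tendsto_ofReal hlim)
    rw [ENNReal.ofReal_zero] at h
    exact (h.eventually (gt_mem_nhds (pos_iff_ne_zero.mpr hδε))).mono fun k hk => le_of_lt hk
  have e2 : ∀ᶠ k : ℕ in atTop, ENNReal.ofReal ((1 / 2) ^ k * M) ≤ δ := by
    have h := (ENNReal.tendsto_ofReal hlim2)
    rw [ENNReal.ofReal_zero] at h
    exact (h.eventually (gt_mem_nhds (pos_iff_ne_zero.mpr hδ0))).mono fun k hk => le_of_lt hk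
  obtain ⟨k, hk1, hk2, hk3⟩ := (e1.and (e2.and (eventually_ge_atTop 1))).exists
  set η : ℝ := (1 / 2) ^ k * M with hη
  have hηpos : 0 < η := by positivity
  obtain ⟨P, hP, hPb, hPi⟩ := exists_trig_approx hg hR hb hηpos
  have hmeas : Measurable fun y => g y - P y := hg.sub P.continuous.measurable
  refine ⟨P, hP, ?_, ?_⟩
  · have h1 := ol_scaled hOL hk3 hmeas hηpos (fun x => by
      refine (hPb x).trans (le_of_eq ?_)
      rw [hη, ← mul_assoc, ← mul_pow]; norm_num [hM]) hPi ε hε0 hε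
    refine h1.trans ?_
    rw [ENNReal.div_le_iff hε0 hε]
    refine (ENNReal.ofReal_le_ofReal ?_).trans hk1
    have h2 : (k : ℝ) / ell k ≤ k := div_le_self (Nat.cast_nonneg k) (ell_pos k)
    calc A * (k / ell k) * η ≤ A * k * η := by gcongr
      _ = A * (k * (1 / 2) ^ k) * M := by rw [hη]; ring
  · refine le_trans (le_of_eq ?_) ((ENNReal.ofReal_le_ofReal hPi).trans hk2)
    rw [ofReal_integral_norm_eq_lintegral_enorm (integrable_of_bdd hmeas hPb)]

lemma lintegral_top_le {f : AddCircle T → ℂ} (hf : Measurable f) (j0 : ℕ) :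
    ∫⁻ x, ‖top f j0 x‖ₑ ∂haarAddCircle ≤ ∑' i, ENNReal.ofReal (cc f (i + j0)) := by
  calc ∫⁻ x, ‖top f j0 x‖ₑ ∂haarAddCircle
      ≤ ∫⁻ x, ∑' i, ‖part f (j0 + i) x‖ₑ ∂haarAddCircle := by
        refine lintegral_mono fun x => ?_
        rw [← tsum_part]
        exact enorm_tsum_le_tsum_enorm
    _ = ∑' i, ∫⁻ x, ‖part f (j0 + i) x‖ₑ ∂haarAddCircle :=
        lintegral_tsum fun i => (measurable_part hf _).enorm.aemeasurable
    _ ≤ ∑' i, ENNReal.ofReal (cc f (i + j0)) := by
        refine ENNReal.tsum_le_tsum fun i => ?_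
        rw [← ofReal_integral_norm_eq_lintegral_enorm (integrable_of_bdd (measurable_part hf _)
          (norm_part_le f _))]
        refine ENNReal.ofReal_le_ofReal ?_
        change anorm f (j0 + i) ≤ _
        unfold cc
        rw [add_comm i j0]
        have ha := anorm_nonneg f (j0 + i)
        have h5 : (1 : ℝ) ≤ 2 ^ (j0 + i) := one_le_pow₀ (by norm_num)
        have h6 : (0 : ℝ) ≤ (2 ^ 2 ^ (j0 + i))⁻¹ := by positivity
        nlinarith

/-- `L log L` functions are approximated by trigonometric polynomials with small maximal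
function -/
lemma exists_good_poly (hOL : OL T) {f : AddCircle T → ℂ} (hf : Measurable f)
    (hlog : ∫⁻ x, ‖f x‖ₑ * ENNReal.ofReal (Real.log (2 + ‖f x‖)) ∂haarAddCircle < ⊤)
    (hfi : Integrable f haarAddCircle)
    (ε δ : ℝ≥0∞) (hε0 : ε ≠ 0) (hε : ε ≠ ∞) (hδ0 : δ ≠ 0) (hδ : δ ≠ ∞) :
    ∃ P : C(AddCircle T, ℂ), P ∈ Submodule.span ℂ (range (@fourier T)) ∧
      haarAddCircle {x | ε < C (fun y => f y - P y) x} ≤ δ ∧
      haarAddCircle {x | ε ≤ ‖f x - P x‖ₑ} ≤ δ := by
  obtain ⟨A, hA, hOL⟩ := hOL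
  have hcc := tsum_cc hf hlog
  have hε2 : ε / 2 ≠ 0 := ENNReal.div_ne_zero.mpr ⟨hε0, by norm_num⟩
  have hε2t : ε / 2 ≠ ∞ := ENNReal.div_ne_top hε (by norm_num)
  have hδ2 : δ / 2 ≠ 0 := ENNReal.div_ne_zero.mpr ⟨hδ0, by norm_num⟩
  have hδ2t : δ / 2 ≠ ∞ := ENNReal.div_ne_top hδ (by norm_num)
  -- choose the level
  have htail := ENNReal.tendsto_sum_nat_add (fun j => ENNReal.ofReal (cc f j)) hcc
  have htail' : Tendsto (fun j0 => ENNReal.ofReal (400 * A) *
      ∑' i, ENNReal.ofReal (cc f (i + j0))) atTop (𝓝 0) := by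
    have := ENNReal.Tendsto.const_mul (a := ENNReal.ofReal (400 * A)) htail
      (Or.inr ENNReal.ofReal_ne_top)
    simpa only [mul_zero] using this
  have hpos1 : 0 < (δ / 2) * (ε / 2) := pos_iff_ne_zero.mpr (mul_ne_zero hδ2 hε2)
  obtain ⟨j0, hj1, hj2⟩ := ((htail'.eventually (gt_mem_nhds hpos1)).and
    (htail.eventually (gt_mem_nhds hpos1))).exists
  set R : ℝ := 2 ^ (2 ^ j0) with hR
  have hRpos : 0 < R := by positivity
  set s : Set (AddCircle T) := {x | R < ‖f x‖} with hs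
  have hsm : MeasurableSet s := measurableSet_lt measurable_const hf.norm
  set g : AddCircle T → ℂ := sᶜ.indicator f with hg
  have hgm : Measurable g := hf.indicator hsm.compl
  have hgb : ∀ x, ‖g x‖ ≤ R := by
    intro x
    rw [hg]
    by_cases hx : x ∈ s
    · rw [indicator_of_notMem (by simpa using hx), norm_zero]; exact hRpos.le
    · rw [indicator_of_mem (by simpa using hx)]
      exact not_lt.mp hx
  have hfg : ∀ x, f x = top f j0 x + g x := by
    intro x
    have := congrFun (indicator_self_add_compl s f) x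
    simpa [top, hg, hs, hR] using this.symm
  set δ' : ℝ≥0∞ := min (δ / 2) ((δ / 2) * (ε / 2)) with hδ'
  have hδ'0 : δ' ≠ 0 := by
    rw [hδ']
    exact (lt_min (pos_iff_ne_zero.mpr hδ2) hpos1).ne'
  obtain ⟨P, hP, hP1, hP2⟩ := exists_good_poly_bdd hA hOL hgm hRpos hgb (ε / 2) δ' hε2 hε2t hδ'0
  have htopi : Integrable (top f j0) haarAddCircle := hfi.indicator hsm
  have hgi : Integrable g haarAddCircle := integrable_of_bdd hgm hgb
  have hPi : Integrable (fun x => P x) haarAddCircle :=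
    P.continuous.integrable_of_hasCompactSupport (HasCompactSupport.of_compactSpace _)
  refine ⟨P, hP, ?_, ?_⟩
  · have hsub : {x | ε < C (fun y => f y - P y) x} ⊆
        {x | ε / 2 < C (top f j0) x} ∪ {x | ε / 2 < C (fun y => g y - P y) x} := by
      intro x hx
      rw [mem_ofPred_eq] at hx
      by_contra hcon
      rw [mem_union, not_or, mem_ofPred_eq, mem_ofPred_eq, not_lt, not_lt] at hcon
      have h1 := C_add_le htopi (hgi.sub hPi) x
      have h2 : (fun y => top f j0 y + (g - fun x => P x) y) = fun y => f y - P y := by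
        ext y
        rw [hfg y]; simp only [Pi.sub_apply]; ring
      rw [h2] at h1
      have h3 : C (fun y => f y - P y) x ≤ ε / 2 + ε / 2 := h1.trans (add_le_add hcon.1 hcon.2)
      rw [ENNReal.add_halves] at h3
      exact absurd hx (not_lt.mpr h3)
    refine (measure_mono hsub).trans ((measure_union_le _ _).trans ?_)
    calc _ ≤ δ / 2 + δ / 2 := by
          refine add_le_add ?_ (hP1.trans (min_le_left _ _))
          refine (measure_C_top_le hA hOL hf hlog j0 (ε / 2) hε2 hε2t).trans ?_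
          rw [ENNReal.div_le_iff hε2 hε2t]
          exact hj1.le
      _ = δ := ENNReal.add_halves δ
  · have hsub : {x | ε ≤ ‖f x - P x‖ₑ} ⊆
        {x | ε / 2 ≤ ‖top f j0 x‖ₑ} ∪ {x | ε / 2 ≤ ‖g x - P x‖ₑ} := by
      intro x hx
      rw [mem_ofPred_eq] at hx
      by_contra hcon
      rw [mem_union, not_or, mem_ofPred_eq, mem_ofPred_eq, not_le, not_le] at hcon
      have h1 : ‖f x - P x‖ₑ ≤ ‖top f j0 x‖ₑ + ‖g x - P x‖ₑ := by
        have : f x - P x = top f j0 x + (g x - P x) := by rw [hfg x]; ring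
        rw [this]; exact enorm_add_le _ _
      have h3 : ‖f x - P x‖ₑ < ε / 2 + ε / 2 := h1.trans_lt (ENNReal.add_lt_add hcon.1 hcon.2)
      rw [ENNReal.add_halves] at h3
      exact absurd hx (not_le.mpr h3)
    refine (measure_mono hsub).trans ((measure_union_le _ _).trans ?_)
    have htm : Measurable (top f j0) := hf.indicator hsm
    calc _ ≤ δ / 2 + δ / 2 := by
          refine add_le_add ?_ ?_
          · refine (meas_ge_le_lintegral_div htm.enorm.aemeasurable hε2 hε2t).trans ?_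
            rw [ENNReal.div_le_iff hε2 hε2t]
            exact (lintegral_top_le hf j0).trans hj2.le
          · refine (meas_ge_le_lintegral_div (hgm.sub P.continuous.measurable).enorm.aemeasurable
              hε2 hε2t).trans ?_
            rw [ENNReal.div_le_iff hε2 hε2t]
            exact hP2.trans (min_le_right _ _)
      _ = δ := ENNReal.add_halves δ



end Crest.Agent.R100.OneLevel403
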