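import Crest.Agent.R100.M7b_800
import Mathlib
import Crest.Agent.R100.HaarS_403
import Crest.Agent.R100.OneLevelFinal_403
import Crest.Agent.R100.Id_833
import Crest.Agent.R100.HuntLocal_933
import Crest.Agent.R100.CoreX_916

-- ▼ part R100/M7c_800
section

/-!
# R100 / S0132, M7c (helper800): density levels
-/

set_option autoImplicit false

open MeasureTheory Set
open scoped ENNReal

noncomputable section

namespace Crest.Agent.R100.M7800

open Crest.Agent.R100.Mart933 Crest.Agent.R100.Wide933 Crest.Agent.R100.Hunt933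
open Crest.Agent.R100.Local933 Crest.Agent.R100.Haar403




/-! ## homogeneity -/

theorem avN_smul (f : ℝ → ℂ) {c : ℝ} (hc : 0 ≤ c) (k : ℕ) (j : ℤ) :
    avN (fun x => (c : ℂ) * f x) k j = c * avN f k j := by
  unfold avN
  have : ∀ y, ‖(c : ℂ) * f y‖ = c * ‖f y‖ := by
    intro y
    rw [norm_mul, Complex.norm_real, Real.norm_eq_abs, abs_of_nonneg hc]
  simp_rw [this]
  rw [integral_const_mul]
  ring

theorem coef_smul (f : ℝ → ℂ) (c : ℂ) (θ : ℝ) (k : ℕ) (j : ℤ) :
    coef (fun x => c * f x) θ k j = c * coef f θ k j := by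
  unfold coef
  have : ∀ y, c * f y * e (-θ) y = c * (f y * e (-θ) y) := by
    intro y; ring
  simp_rw [this]
  rw [integral_const_mul]
  ring

theorem SS_coef_smul (f : ℝ → ℂ) (c : ℂ) (θ : ℝ) (η : ℕ → ℤ → Prop) (k K : ℕ) (x : ℝ) :
    SS (coef (fun x => c * f x) θ) η k K x = c * SS (coef f θ) η k K x := by
  classical
  unfold SS
  rw [Finset.mul_sum]
  refine Finset.sum_congr rfl fun l _ => ?_
  by_cases h : η l (fl l x)
  · rw [if_pos h, if_pos h]
    unfold dl
    rw [coef_smul, coef_smul]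
    ring
  · rw [if_neg h, if_neg h, mul_zero]



/-! ## layer cake -/



end Crest.Agent.R100.M7800
end
end

-- ▼ part R100/M7d_800
section

/-!
# R100 / S0132, M7d (helper800): summation over the density levels in one cell of generation 0
-/

set_option autoImplicit false

open MeasureTheory Set
open scoped ENNReal

noncomputable section

namespace Crest.Agent.R100.M7800

open Crest.Agent.R100.Mart933 Crest.Agent.R100.Wide933 Crest.Agent.R100.Hunt933
open Crest.Agent.R100.Local933 Crest.Agent.R100.Haar403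







/-- mass of `f` on a node in terms of the average -/
theorem lint_Ivl {f : ℝ → ℂ} (hf : Measurable f) {M : ℝ} (hM : ∀ x, ‖f x‖ ≤ M) (k : ℕ) (i : ℤ) :
    ENNReal.ofReal (avN f k i) * volume (Ivl k i) = ∫⁻ x in Ivl k i, ‖f x‖ₑ := by
  rw [← ofReal_integral_norm_eq_lintegral_enorm (intOn k i hf hM), volume_Ivl,
    ← ENNReal.ofReal_mul (avN_nonneg _ _ _)]
  congr 1
  unfold avN
  field_simp




end Crest.Agent.R100.M7800
end
end

-- ▼ part R100/P1_800
section

/-!
# R100 / S0132, part P1 (helper800)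

Reduction of a.e. convergence of Fourier series in `L log L` to a maximal inequality for bounded
measurable functions.
-/

set_option autoImplicit false

open MeasureTheory Filter Set Topology
open scoped ENNReal NNReal

noncomputable section

namespace Crest.Agent.R100.P1800

variable {T : ℝ} [hT : Fact (0 < T)]

/-- symmetric partial sum of the Fourier series -/
def S (f : AddCircle T → ℂ) (N : ℕ) (x : AddCircle T) : ℂ :=
  ∑ k ∈ Finset.Icc (-(N : ℤ)) N, fourierCoeff f k • fourier k x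

/-- the Young function `t log (2 + t)` -/
def φ (t : ℝ) : ℝ := t * Real.log (2 + t)



/-! ## the function `φ` -/












/-! ## basic facts on `S` -/

local notation "μ" => AddCircle.haarAddCircle (T := T)



lemma continuous_S (f : AddCircle T → ℂ) (N : ℕ) : Continuous (S f N) := by
  unfold S
  refine continuous_finsetSum _ fun k _ => ?_
  have h : Continuous (fun x : AddCircle T => fourier k x) := map_continuous (fourier k)
  simp only [smul_eq_mul]
  exact continuous_const.mul h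






/-! ## approximation by trigonometric polynomials -/









end Crest.Agent.R100.P1800
end
end

-- ▼ part R100/P2_800
section

/-!
# R100 / S0132, part P2 (helper800)

The maximal inequality `MI T` follows from the one-level bound `OL T` (Stein–Weiss summation over
doubly exponential levels).
-/

set_option autoImplicit false

open MeasureTheory Filter Set Topology
open scoped ENNReal NNReal

noncomputable section

namespace Crest.Agent.R100.P2800

open Crest.Agent.R100.P1800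

variable {T : ℝ} [hT : Fact (0 < T)]

local notation "μ" => AddCircle.haarAddCircle (T := T)

/-- the one-level loss `n / (1 + log (1 + log (1 + n)))` -/
def V (n : ℕ) : ℝ := n / (1 + Real.log (1 + Real.log (1 + n)))


/-! ## numerology -/

/-- number of dyadic thresholds used at level `m` -/
def I (m : ℕ) : ℕ := 3 + 2 * Nat.clog 2 (m + 1)












/-! ## the levels of `f` -/












end Crest.Agent.R100.P2800
end
end

-- ▼ part R100/P2b_800
section

/-!
# R100 / S0132, part P2b (helper800)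

Weak (1,1) bound of the centred maximal function on the circle, and the reduction of the one-level
bound `OL T` to the strong local bound `StrongLocal T` off the exceptional set of the maximal
function.
-/

set_option autoImplicit false

open MeasureTheory Filter Set Topology Metric
open scoped ENNReal NNReal

noncomputable section

namespace Crest.Agent.R100.P2b800

open Crest.Agent.R100.P1800 Crest.Agent.R100.P2800

variable {T : ℝ} [hT : Fact (0 < T)]

local notation "μ" => AddCircle.haarAddCircle (T := T)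

/-- `Mf ≤ 1` on `G` (centred maximal function) -/
def MaxLe (f : AddCircle T → ℂ) (G : Set (AddCircle T)) : Prop :=
  ∀ x ∈ G, ∀ r : ℝ, 0 < r →
    ∫⁻ y in closedBall x r, ‖f y‖ₑ ∂(AddCircle.haarAddCircle (T := T))
      ≤ AddCircle.haarAddCircle (T := T) (closedBall x r)


/-! ## weak (1,1) -/

lemma haar_closedBall (x : AddCircle T) (r : ℝ) :
    ENNReal.ofReal T * μ (closedBall x r) = ENNReal.ofReal (min T (2 * r)) := by
  rw [← AddCircle.volume_closedBall (x := x), AddCircle.volume_eq_smul_haarAddCircle]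
  simp

lemma haar_closedBall_five (x : AddCircle T) (r : ℝ) :
    μ (closedBall x (5 * r)) ≤ 5 * μ (closedBall x r) := by
  have hT0 : ENNReal.ofReal T ≠ 0 := by
    rw [Ne, ENNReal.ofReal_eq_zero, not_le]; exact hT.out
  have h1 : ENNReal.ofReal T * μ (closedBall x (5 * r))
      ≤ ENNReal.ofReal T * (5 * μ (closedBall x r)) := by
    rw [mul_left_comm, haar_closedBall, haar_closedBall,
      show (5 : ℝ≥0∞) = ENNReal.ofReal 5 by norm_num, ← ENNReal.ofReal_mul (by norm_num)]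
    apply ENNReal.ofReal_le_ofReal
    have h0 := hT.out
    rcases le_total T (2 * r) with h | h
    · rw [min_eq_left h]
      exact (min_le_left _ _).trans (by linarith)
    · rw [min_eq_right h]
      exact (min_le_right _ _).trans (by linarith)
  exact (ENNReal.mul_le_mul_iff_right hT0 ENNReal.ofReal_ne_top).1 h1

/-- weak type (1,1): the set where the centred maximal function exceeds `t` -/
lemma weak_type (f : AddCircle T → ℂ) (t : ℝ≥0∞) :
    t * μ {x | ∃ r : ℝ, 0 < r ∧ t * μ (closedBall x r) < ∫⁻ y in closedBall x r, ‖f y‖ₑ ∂μ}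
      ≤ 5 * ∫⁻ y, ‖f y‖ₑ ∂μ := by
  set E : Set (AddCircle T) :=
    {x | ∃ r : ℝ, 0 < r ∧ t * μ (closedBall x r) < ∫⁻ y in closedBall x r, ‖f y‖ₑ ∂μ} with hE
  have hT0 := hT.out
  -- bounded radii
  have hbd : ∀ x ∈ E, ∃ r : ℝ, 0 < r ∧ r ≤ T ∧
      t * μ (closedBall x r) < ∫⁻ y in closedBall x r, ‖f y‖ₑ ∂μ := by
    rintro x ⟨r, hr, h⟩
    by_cases hrT : r ≤ T
    · exact ⟨r, hr, hrT, h⟩
    · push Not at hrT
      have e1 : closedBall x r = univ := by
        refine AddCircle.closedBall_eq_univ_of_half_period_le T hT0.ne' x ?_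
        rw [abs_of_pos hT0]; linarith
      have e2 : closedBall x T = univ := by
        refine AddCircle.closedBall_eq_univ_of_half_period_le T hT0.ne' x ?_
        rw [abs_of_pos hT0]; linarith
      refine ⟨T, hT0, le_rfl, ?_⟩
      rw [e2]; rwa [e1] at h
  choose! r hr0 hrT hr using hbd
  obtain ⟨u, huE, hdisj, hcov⟩ := Vitali.exists_disjoint_subfamily_covering_enlargement_closedBall
    E (fun x => x) r T (fun a ha => hrT a ha) 5 (by norm_num)
  have hcount : u.Countable := by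
    refine hdisj.countable_of_nonempty_interior fun x hx => ?_
    refine ⟨x, ?_⟩
    exact ball_subset_interior_closedBall (mem_ball_self (hr0 x (huE hx)))
  have hsub : E ⊆ ⋃ x ∈ u, closedBall x (5 * r x) := by
    intro x hx
    obtain ⟨b, hb, hxb⟩ := hcov x hx
    exact mem_biUnion hb (hxb (mem_closedBall_self (hr0 x hx).le))
  calc t * μ E ≤ t * μ (⋃ x ∈ u, closedBall x (5 * r x)) := by gcongr
    _ ≤ t * ∑' x : u, μ (closedBall (x : AddCircle T) (5 * r x)) := by
        gcongr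
        exact measure_biUnion_le _ hcount _
    _ ≤ t * ∑' x : u, 5 * μ (closedBall (x : AddCircle T) (r x)) := by
        gcongr with x
        exact haar_closedBall_five _ _
    _ = 5 * ∑' x : u, t * μ (closedBall (x : AddCircle T) (r x)) := by
        rw [ENNReal.tsum_mul_left, ENNReal.tsum_mul_left]
        ring
    _ ≤ 5 * ∑' x : u, ∫⁻ y in closedBall (x : AddCircle T) (r x), ‖f y‖ₑ ∂μ := by
        gcongr with x
        exact (hr x (huE x.2)).le
    _ = 5 * ∫⁻ y in ⋃ x ∈ u, closedBall x (r x), ‖f y‖ₑ ∂μ := by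
        rw [lintegral_biUnion hcount (fun x _ => isClosed_closedBall.measurableSet) hdisj]
    _ ≤ 5 * ∫⁻ y, ‖f y‖ₑ ∂μ := by
        gcongr
        exact Measure.restrict_le_self

/-! ## numerology -/







end Crest.Agent.R100.P2b800
end
end

-- ▼ part R100/P3_800
section

/-!
# R100 / S0132, part P3 (helper800)

From the circle to the real line: `StrongLocal T` follows from the strong local bound for the
(hard truncated) modulated Hilbert kernel `e^{-2π i N(x) y} / (x - y)` on the real line.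
-/

set_option autoImplicit false

open MeasureTheory Filter Set Topology Metric
open scoped ENNReal NNReal

noncomputable section

namespace Crest.Agent.R100.P3800

open Crest.Agent.R100.P1800 Crest.Agent.R100.P2800 Crest.Agent.R100.P2b800

variable {T : ℝ} [hT : Fact (0 < T)]

local notation "μ" => AddCircle.haarAddCircle (T := T)




/-! ## the parametrisation -/

/-- the parametrisation `u ↦ T u` of the circle -/
def ph (u : ℝ) : AddCircle T := ((T * u : ℝ) : AddCircle T)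

lemma measurePreserving_ph (a : ℝ) :
    MeasurePreserving (ph (T := T)) (volume.restrict (Ioc a (a + 1))) μ := by
  have hT0 := hT.out
  have h1 := AddCircle.measurePreserving_mk T (T * a)
  have hm : Measurable (fun u : ℝ => T * u) := measurable_const_mul T
  refine ⟨h1.measurable.comp hm, ?_⟩
  have h2 : Measure.map (fun u : ℝ => T * u) (volume.restrict (Ioc a (a + 1)))
      = ENNReal.ofReal T⁻¹ • volume.restrict (Ioc (T * a) (T * a + T)) := by
    have hpre : (fun u : ℝ => T * u) ⁻¹' (Ioc (T * a) (T * a + T)) = Ioc a (a + 1) := by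
      ext u
      simp only [mem_preimage, mem_Ioc]
      constructor
      · rintro ⟨h3, h4⟩
        exact ⟨lt_of_mul_lt_mul_left h3 hT0.le, by
          have : T * u ≤ T * (a + 1) := by linarith
          exact le_of_mul_le_mul_left this hT0⟩
      · rintro ⟨h3, h4⟩
        exact ⟨mul_lt_mul_of_pos_left h3 hT0, by
          have : T * u ≤ T * (a + 1) := mul_le_mul_of_nonneg_left h4 hT0.le
          linarith⟩
    rw [← hpre, ← Measure.restrict_map hm measurableSet_Ioc]
    have h3 := Real.map_volume_mul_left (a := T) hT0.ne'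
    rw [h3, Measure.restrict_smul, abs_of_pos (inv_pos.2 hT0)]
  have h4 : (ph (T := T)) = ((↑) : ℝ → AddCircle T) ∘ (fun u : ℝ => T * u) := rfl
  rw [h4, ← Measure.map_map h1.measurable hm, h2, Measure.map_smul, h1.map_eq,
    AddCircle.volume_eq_smul_haarAddCircle, smul_smul, ← ENNReal.ofReal_mul (by positivity),
    inv_mul_cancel₀ hT0.ne']
  simp

omit hT in
lemma measurable_ph : Measurable (ph (T := T)) := by
  have h1 : Measurable ((↑) : ℝ → AddCircle T) := AddCircle.measurable_mk'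
  exact h1.comp (measurable_const_mul T)

lemma lint_ph (a : ℝ) {g : AddCircle T → ℝ≥0∞} (hg : Measurable g) :
    ∫⁻ x, g x ∂μ = ∫⁻ u in Ioc a (a + 1), g (ph u) :=
  ((measurePreserving_ph (T := T) a).lintegral_comp hg).symm

lemma int_ph (a : ℝ) {g : AddCircle T → ℂ} (hg : AEStronglyMeasurable g μ) :
    ∫ x, g x ∂μ = ∫ u in Ioc a (a + 1), g (ph u) := by
  have h := measurePreserving_ph (T := T) a
  rw [← h.map_eq, integral_map h.measurable.aemeasurable (by rw [h.map_eq]; exact hg)]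


lemma fourier_ph (k : ℤ) (u : ℝ) :
    (fourier k (ph (T := T) u) : ℂ) = Complex.exp (2 * Real.pi * Complex.I * k * u) := by
  unfold ph
  rw [fourier_coe_apply]
  congr 1
  have : (T : ℂ) ≠ 0 := by exact_mod_cast hT.out.ne'
  push_cast
  field_simp

/-! ## the Dirichlet kernel -/

/-- real Dirichlet kernel (period 1) -/
def Dr (N : ℕ) (w : ℝ) : ℝ := 1 + ∑ k ∈ Finset.range N, 2 * Real.cos (2 * Real.pi * (k + 1) * w)

lemma Dr_eq (N : ℕ) (w : ℝ) :
    ∑ k ∈ Finset.Icc (-(N : ℤ)) N, Complex.exp (2 * Real.pi * Complex.I * k * w) = (Dr N w : ℂ) := by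
  induction N with
  | zero => simp [Dr]
  | succ N ih =>
    have h1 : Finset.Icc (-((N + 1 : ℕ) : ℤ)) ((N + 1 : ℕ) : ℤ)
        = insert (-((N : ℤ) + 1)) (insert ((N : ℤ) + 1) (Finset.Icc (-(N : ℤ)) N)) := by
      ext k
      simp only [Finset.mem_Icc, Finset.mem_insert]
      push_cast
      omega
    rw [h1, Finset.sum_insert, Finset.sum_insert, ih]
    · unfold Dr
      rw [Finset.sum_range_succ]
      have h2 : Complex.exp (2 * Real.pi * Complex.I * ((-((N : ℤ) + 1) : ℤ) : ℂ) * w)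
          + Complex.exp (2 * Real.pi * Complex.I * (((N : ℤ) + 1 : ℤ) : ℂ) * w)
          = 2 * Complex.cos (2 * Real.pi * (N + 1) * w) := by
        rw [Complex.cos]
        push_cast
        rw [mul_div_cancel₀ _ (two_ne_zero)]
        rw [add_comm]
        congr 1
        · congr 1; ring
        · congr 1; ring
      push_cast at h2 ⊢
      linear_combination h2
    · simp only [Finset.mem_Icc]; omega
    · simp only [Finset.mem_Icc, Finset.mem_insert]; omega

lemma Dr_mul_sin (N : ℕ) (w : ℝ) :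
    Real.sin (Real.pi * w) * Dr N w = Real.sin (2 * Real.pi * N * w + Real.pi * w) := by
  induction N with
  | zero => simp [Dr]
  | succ N ih =>
    have h1 : Dr (N + 1) w = Dr N w + 2 * Real.cos (2 * Real.pi * (N + 1) * w) := by
      unfold Dr
      rw [Finset.sum_range_succ]
      ring
    rw [h1, mul_add, ih]
    have e1 : 2 * Real.pi * (N : ℝ) * w + Real.pi * w
        = 2 * Real.pi * (N + 1) * w - Real.pi * w := by ring
    have e2 : 2 * Real.pi * ((N + 1 : ℕ) : ℝ) * w + Real.pi * w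
        = 2 * Real.pi * (N + 1) * w + Real.pi * w := by push_cast; ring
    rw [e1, e2, Real.sin_sub, Real.sin_add]
    ring

lemma abs_Dr_le (N : ℕ) (w : ℝ) : |Dr N w| ≤ 2 * N + 1 := by
  unfold Dr
  have h1 : |∑ k ∈ Finset.range N, 2 * Real.cos (2 * Real.pi * (k + 1) * w)| ≤ 2 * N := by
    refine (Finset.abs_sum_le_sum_abs _ _).trans ?_
    calc ∑ k ∈ Finset.range N, |2 * Real.cos (2 * Real.pi * (k + 1) * w)|
        ≤ ∑ k ∈ Finset.range N, (2 : ℝ) := by
          refine Finset.sum_le_sum fun k _ => ?_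
          rw [abs_mul, abs_two]
          have := Real.abs_cos_le_one (2 * Real.pi * (k + 1) * w)
          linarith
      _ = 2 * N := by simp; ring
  calc |1 + ∑ k ∈ Finset.range N, 2 * Real.cos (2 * Real.pi * (k + 1) * w)|
      ≤ |(1 : ℝ)| + |∑ k ∈ Finset.range N, 2 * Real.cos (2 * Real.pi * (k + 1) * w)| :=
        abs_add_le _ _
    _ ≤ 2 * N + 1 := by rw [abs_one]; linarith




/-! ## from the circle to the line -/

/-- periodic lift -/
def lift (f : AddCircle T → ℂ) (u : ℝ) : ℂ := f (ph u)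


omit hT in
lemma measurable_lift {f : AddCircle T → ℂ} (hf : Measurable f) : Measurable (lift f) :=
  hf.comp measurable_ph



lemma lint_lift {f : AddCircle T → ℂ} (hf : Measurable f) (a : ℝ) :
    ∫⁻ u in Ioc a (a + 1), ‖lift f u‖ₑ = ∫⁻ x, ‖f x‖ₑ ∂μ :=
  (lint_ph a hf.enorm).symm


lemma dist_ph_le (u v : ℝ) : dist (ph (T := T) v) (ph u) ≤ T * |v - u| := by
  unfold ph
  rw [dist_eq_norm, ← AddCircle.coe_sub, ← mul_sub]
  have h1 : ‖((T * (v - u) : ℝ) : AddCircle T)‖ ≤ ‖T * (v - u)‖ :=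
    QuotientAddGroup.norm_mk_le_norm
  rwa [Real.norm_eq_abs, abs_mul, abs_of_pos hT.out] at h1

lemma ball_bound {f : AddCircle T → ℂ} (hf : Measurable f) {G : Set (AddCircle T)}
    (hG : MaxLe f G) {u : ℝ} (hu : ph u ∈ G) {r : ℝ} (hr : 0 < r) (hr2 : r ≤ 1 / 2) :
    ∫⁻ v in Icc (u - r) (u + r), ‖lift f v‖ₑ ≤ ENNReal.ofReal (2 * r) := by
  have hT0 := hT.out
  have h1 := hG (ph u) hu (T * r) (by positivity)
  have h2 : ∫⁻ v in Icc (u - r) (u + r), ‖lift f v‖ₑ
      ≤ ∫⁻ y in closedBall (ph (T := T) u) (T * r), ‖f y‖ₑ ∂μ := by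
    rw [← lintegral_indicator isClosed_closedBall.measurableSet,
      lint_ph (u - 1 / 2) (hf.enorm.indicator isClosed_closedBall.measurableSet)]
    rw [setLIntegral_congr (Ioc_ae_eq_Icc (a := u - r) (b := u + r)).symm]
    have hsub : Ioc (u - r) (u + r) ⊆ Ioc (u - 1 / 2) (u - 1 / 2 + 1) :=
      Ioc_subset_Ioc (by linarith) (by linarith)
    calc ∫⁻ v in Ioc (u - r) (u + r), ‖lift f v‖ₑ
        ≤ ∫⁻ v in Ioc (u - r) (u + r),
          (closedBall (ph (T := T) u) (T * r)).indicator (fun y => ‖f y‖ₑ) (ph v) := by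
          refine setLIntegral_mono' measurableSet_Ioc fun v hv => ?_
          have hv2 : ph (T := T) v ∈ closedBall (ph u) (T * r) := by
            rw [mem_closedBall]
            refine (dist_ph_le u v).trans ?_
            have : |v - u| ≤ r := by
              rw [abs_le]; constructor <;> linarith [hv.1, hv.2]
            gcongr
          rw [indicator_of_mem hv2]
          exact le_rfl
      _ ≤ _ := lintegral_mono_set hsub
  refine h2.trans (h1.trans ?_)
  have h3 := haar_closedBall (T := T) (ph u) (T * r)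
  have hT0' : ENNReal.ofReal T ≠ 0 := by
    rw [Ne, ENNReal.ofReal_eq_zero, not_le]; exact hT0
  refine (ENNReal.mul_le_mul_iff_right hT0' ENNReal.ofReal_ne_top).1 ?_
  rw [h3, ← ENNReal.ofReal_mul hT0.le]
  apply ENNReal.ofReal_le_ofReal
  refine (min_le_right _ _).trans (le_of_eq (by ring))

lemma total_le_one {f : AddCircle T → ℂ} {G : Set (AddCircle T)}
    (hG : MaxLe f G) {x : AddCircle T} (hx : x ∈ G) : ∫⁻ y, ‖f y‖ₑ ∂μ ≤ 1 := by
  have hT0 := hT.out
  have h1 := hG x hx T hT0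
  have e2 : closedBall x T = univ := by
    refine AddCircle.closedBall_eq_univ_of_half_period_le T hT0.ne' x ?_
    rw [abs_of_pos hT0]; linarith
  rw [e2] at h1
  simpa using h1

/-- the good set on the line -/
def GR (G : Set (AddCircle T)) : Set ℝ := Ioc 0 1 ∩ ph ⁻¹' G


/-- partial sums as integrals on the line -/
lemma S_eq {f : AddCircle T → ℂ} (hf : Measurable f) {B : ℝ} (hB : ∀ x, ‖f x‖ ≤ B) (N : ℕ)
    (u : ℝ) : S f N (ph u) = ∫ v in Ioc (u - 1 / 2) (u - 1 / 2 + 1), (Dr N (u - v) : ℂ) * lift f v := by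
  unfold S
  have hint : ∀ k : ℤ, Integrable (fun v : ℝ => Complex.exp (-(2 * Real.pi * Complex.I * k * v))
      * lift f v) (volume.restrict (Ioc (u - 1 / 2) (u - 1 / 2 + 1))) := by
    intro k
    refine Integrable.of_bound (C := B) ?_ ?_
    · refine AEStronglyMeasurable.mul ?_ (measurable_lift hf).aestronglyMeasurable
      have : Continuous (fun v : ℝ => Complex.exp (-(2 * Real.pi * Complex.I * k * v))) := by
        fun_prop
      exact this.aestronglyMeasurable
    · refine Eventually.of_forall fun v => ?_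
      rw [norm_mul]
      have : ‖Complex.exp (-(2 * Real.pi * Complex.I * k * v))‖ = 1 := by
        have h : -(2 * Real.pi * Complex.I * k * v) = ((-(2 * Real.pi * k * v) : ℝ) : ℂ)
            * Complex.I := by push_cast; ring
        rw [h, Complex.norm_exp_ofReal_mul_I]
      rw [this, one_mul]
      exact hB _
  have h1 : ∀ k : ℤ, fourierCoeff f k • (fourier k (ph (T := T) u) : ℂ)
      = ∫ v in Ioc (u - 1 / 2) (u - 1 / 2 + 1),
        Complex.exp (2 * Real.pi * Complex.I * k * ((u - v : ℝ) : ℂ)) * lift f v := by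
    intro k
    unfold fourierCoeff
    rw [int_ph (u - 1 / 2)]
    · rw [smul_eq_mul, mul_comm, ← integral_const_mul]
      refine integral_congr_ae (Eventually.of_forall fun v => ?_)
      simp only [smul_eq_mul]
      rw [fourier_ph, fourier_ph, ← mul_assoc, ← Complex.exp_add]
      unfold lift
      congr 2
      push_cast
      ring
    · have : Continuous (fun x : AddCircle T => (fourier (-k) x : ℂ)) :=
        map_continuous (fourier (-k))
      exact this.aestronglyMeasurable.smul hf.aestronglyMeasurable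
  simp only [h1]
  rw [← integral_finsetSum]
  · refine integral_congr_ae (Eventually.of_forall fun v => ?_)
    simp only
    rw [← Finset.sum_mul, Dr_eq]
  · intro k _
    refine ((hint k).const_mul (Complex.exp (2 * Real.pi * Complex.I * k * u))).congr ?_
    refine Eventually.of_forall fun v => ?_
    simp only
    rw [← mul_assoc, ← Complex.exp_add]
    congr 2
    push_cast
    ring

end Crest.Agent.R100.P3800
end
end

-- ▼ part R100/P4_800
section

/-!
# R100 / S0132, part P4 (helper800): pointwise kernel formula for the partial sums.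

`‖S f N (ph u) - (1/π) ∫_{-1/2}^{1/2} F(u-t) sin((2N+1)πt)/t dt‖ ≤ ∫ ‖f‖`, `F = lift f`.
-/

set_option autoImplicit false

open MeasureTheory Filter Set Topology Metric
open scoped ENNReal NNReal

noncomputable section

namespace Crest.Agent.R100.P4800

open Crest.Agent.R100.P1800 Crest.Agent.R100.P2800 Crest.Agent.R100.P2b800
open Crest.Agent.R100.P3800

variable {T : ℝ} [hT : Fact (0 < T)]

local notation "μ" => AddCircle.haarAddCircle (T := T)

lemma inv_sin_bound {x : ℝ} (hx : 0 < x) (hx1 : x ≤ Real.pi / 2) :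
    |1 / Real.sin x - 1 / x| ≤ 1 := by
  have hs : 2 / Real.pi * x ≤ Real.sin x := Real.mul_le_sin hx.le hx1
  have hpi := Real.pi_pos
  have hpi4 : Real.pi < 3.15 := Real.pi_lt_d2
  have hs0 : 0 < Real.sin x := lt_of_lt_of_le (by positivity) hs
  have h0 : Real.sin x ≤ x := Real.sin_le hx.le
  have h2 : x - x ^ 3 / 6 ≤ Real.sin x := (Real.sin_gt_sub_cube hx).le
  have h1 : 1 / Real.sin x - 1 / x = (x - Real.sin x) / (x * Real.sin x) := by
    field_simp
  rw [h1, abs_div, abs_of_pos (mul_pos hx hs0), div_le_iff₀ (mul_pos hx hs0), one_mul,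
    abs_of_nonneg (by linarith)]
  have h3 : x * (2 / Real.pi * x) ≤ x * Real.sin x := mul_le_mul_of_nonneg_left hs hx.le
  have h4 : x / 6 ≤ 2 / Real.pi := by
    rw [le_div_iff₀ hpi]
    nlinarith
  have h5 : x ^ 3 / 6 ≤ x * (2 / Real.pi * x) := by
    have := mul_le_mul_of_nonneg_left h4 (by positivity : (0 : ℝ) ≤ x ^ 2)
    calc x ^ 3 / 6 = x ^ 2 * (x / 6) := by ring
      _ ≤ x ^ 2 * (2 / Real.pi) := this
      _ = x * (2 / Real.pi * x) := by ring
  linarith

lemma Dr_bound' (N : ℕ) {w : ℝ} (hw0 : w ≠ 0) (hw : |w| ≤ 1 / 2) :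
    |Dr N w - Real.sin ((2 * N + 1) * Real.pi * w) / (Real.pi * w)| ≤ 1 := by
  wlog hpos : 0 < w generalizing w with H
  · have hneg : 0 < -w := by
      rcases lt_or_gt_of_ne hw0 with h | h
      · linarith
      · exact absurd h hpos
    have := H (neg_ne_zero.2 hw0) (by rwa [abs_neg]) hneg
    have e1 : Dr N (-w) = Dr N w := by
      unfold Dr
      congr 1
      refine Finset.sum_congr rfl fun k _ => ?_
      rw [mul_neg, Real.cos_neg]
    have e2 : Real.sin ((2 * N + 1) * Real.pi * (-w)) / (Real.pi * (-w))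
        = Real.sin ((2 * N + 1) * Real.pi * w) / (Real.pi * w) := by
      rw [mul_neg, Real.sin_neg, mul_neg, neg_div_neg_eq]
    rw [e1, e2] at this
    exact this
  have hpi := Real.pi_pos
  have hw2 : w ≤ 1 / 2 := by rwa [abs_of_pos hpos] at hw
  have hx : 0 < Real.pi * w := by positivity
  have hx1 : Real.pi * w ≤ Real.pi / 2 := by nlinarith
  have hs0 : 0 < Real.sin (Real.pi * w) := Real.sin_pos_of_pos_of_lt_pi hx (by nlinarith)
  have h1 := Dr_mul_sin N w
  have e0 : 2 * Real.pi * N * w + Real.pi * w = (2 * N + 1) * Real.pi * w := by ring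
  rw [e0] at h1
  have h2 : Dr N w = Real.sin ((2 * N + 1) * Real.pi * w) * (1 / Real.sin (Real.pi * w)) := by
    field_simp
    linarith
  have h3 : Dr N w - Real.sin ((2 * N + 1) * Real.pi * w) / (Real.pi * w)
      = Real.sin ((2 * N + 1) * Real.pi * w) * (1 / Real.sin (Real.pi * w)
        - 1 / (Real.pi * w)) := by
    rw [h2]; ring
  rw [h3, abs_mul]
  have h4 := inv_sin_bound hx hx1
  have h5 := Real.abs_sin_le_one ((2 * N + 1) * Real.pi * w)
  calc |Real.sin ((2 * N + 1) * Real.pi * w)| * |1 / Real.sin (Real.pi * w) - 1 / (Real.pi * w)|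
      ≤ 1 * 1 := mul_le_mul h5 h4 (abs_nonneg _) (by norm_num)
    _ = 1 := one_mul _

/-- **Pointwise kernel formula**. -/
theorem S_sub_kernel {f : AddCircle T → ℂ} (hf : Measurable f) {B : ℝ} (hB : ∀ x, ‖f x‖ ≤ B)
    (N : ℕ) (u : ℝ) :
    ‖S f N (ph u) - (1 / Real.pi : ℂ) * ∫ t in (-(1 / 2) : ℝ)..(1 / 2),
        lift f (u - t) * ((Real.sin ((2 * N + 1) * Real.pi * t) / t : ℝ) : ℂ)‖
      ≤ ∫ x, ‖f x‖ ∂μ := by
  have hpi := Real.pi_pos
  have hlm : Measurable (lift f) := measurable_lift hf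
  -- rewrite `S` as an interval integral in `t = u - v`
  have h1 : S f N (ph u) = ∫ t in (-(1 / 2) : ℝ)..(1 / 2), (Dr N t : ℂ) * lift f (u - t) := by
    rw [S_eq hf hB N u, ← intervalIntegral.integral_of_le (by linarith)]
    have h2 := intervalIntegral.integral_comp_sub_left
      (a := (-(1 / 2) : ℝ)) (b := 1 / 2) (fun v => (Dr N (u - v) : ℂ) * lift f v) u
    simp only [sub_sub_cancel] at h2
    rw [h2]
    congr 1
    ring
  have hDrm : Continuous (fun v : ℝ => Dr N v) := by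
    unfold Dr
    fun_prop
  have hsm : Measurable (fun t : ℝ => Real.sin ((2 * N + 1) * Real.pi * t) / t) := by
    have h1 : Measurable (fun v : ℝ => Real.sin ((2 * N + 1) * Real.pi * v)) := by fun_prop
    exact h1.div measurable_id
  have hlb : ∀ v, ‖lift f v‖ ≤ B := fun v => hB _
  have hB0 : 0 ≤ B := (norm_nonneg _).trans (hlb 0)
  have hcm : Measurable (fun t : ℝ => lift f (u - t)) := hlm.comp (measurable_const.sub measurable_id)
  have hi1 : IntervalIntegrable (fun t => (Dr N t : ℂ) * lift f (u - t)) volume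
      (-(1 / 2)) (1 / 2) := by
    rw [intervalIntegrable_iff]
    refine Measure.integrableOn_of_bounded (M := (2 * N + 1) * B) (by simp) ?_ (ae_of_all _ ?_)
    · exact ((Complex.continuous_ofReal.comp hDrm).measurable.mul hcm).aestronglyMeasurable
    · intro t
      rw [norm_mul, Complex.norm_real, Real.norm_eq_abs]
      exact mul_le_mul (abs_Dr_le N t) (hlb _) (norm_nonneg _) (by positivity)
  have hsin : ∀ t : ℝ, |Real.sin ((2 * N + 1) * Real.pi * t) / t| ≤ (2 * N + 1) * Real.pi := by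
    intro t
    by_cases ht : t = 0
    · rw [ht]; simp; positivity
    · rw [abs_div, div_le_iff₀ (abs_pos.2 ht)]
      refine Real.abs_sin_le_abs.trans ?_
      rw [abs_mul, abs_of_pos (by positivity : (0 : ℝ) < (2 * N + 1) * Real.pi)]
  have hi2 : IntervalIntegrable (fun t => lift f (u - t) *
      ((Real.sin ((2 * N + 1) * Real.pi * t) / t : ℝ) : ℂ)) volume (-(1 / 2)) (1 / 2) := by
    rw [intervalIntegrable_iff]
    refine Measure.integrableOn_of_bounded (M := B * ((2 * N + 1) * Real.pi)) (by simp) ?_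
      (ae_of_all _ ?_)
    · exact (hcm.mul (Complex.measurable_ofReal.comp hsm)).aestronglyMeasurable
    · intro t
      rw [norm_mul, Complex.norm_real, Real.norm_eq_abs]
      exact mul_le_mul (hlb _) (hsin t) (abs_nonneg _) hB0
  rw [h1, ← intervalIntegral.integral_const_mul, ← intervalIntegral.integral_sub hi1
    (hi2.const_mul _)]
  have h3 : ∫ x, ‖f x‖ ∂μ = ∫ t in (-(1 / 2) : ℝ)..(1 / 2), ‖lift f (u - t)‖ := by
    have h4 := (measurePreserving_ph (T := T) (u - 1 / 2)).map_eq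
    have h5 : ∫ x, ‖f x‖ ∂μ = ∫ v in Ioc (u - 1 / 2) (u - 1 / 2 + 1), ‖lift f v‖ := by
      rw [← h4, integral_map measurable_ph.aemeasurable
        (hf.norm.aestronglyMeasurable)]
      rfl
    rw [h5, ← intervalIntegral.integral_of_le (by linarith)]
    have h2 := intervalIntegral.integral_comp_sub_left
      (a := (-(1 / 2) : ℝ)) (b := 1 / 2) (fun v => ‖lift f v‖) u
    rw [h2]
    congr 1
    ring
  rw [h3]
  refine intervalIntegral.norm_integral_le_of_norm_le (by norm_num) ?_ ?_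
  · have h0 : ∀ᵐ t : ℝ, t ≠ 0 := by
      have : (volume : Measure ℝ) {(0 : ℝ)} = 0 := by simp
      exact compl_mem_ae_iff.2 this
    filter_upwards [h0] with t ht0 ht
    have ht2 : |t| ≤ 1 / 2 := by
      rw [abs_le]; exact ⟨ht.1.le, ht.2⟩
    have h6 := Dr_bound' N ht0 ht2
    have e : (Dr N t : ℂ) * lift f (u - t) - (1 / Real.pi : ℂ) * (lift f (u - t) *
        ((Real.sin ((2 * N + 1) * Real.pi * t) / t : ℝ) : ℂ))
        = ((Dr N t - Real.sin ((2 * N + 1) * Real.pi * t) / (Real.pi * t) : ℝ) : ℂ)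
          * lift f (u - t) := by
      have hpi' : (Real.pi : ℂ) ≠ 0 := by exact_mod_cast hpi.ne'
      have ht' : (t : ℂ) ≠ 0 := by exact_mod_cast ht0
      push_cast
      field_simp
    rw [e, norm_mul, Complex.norm_real, Real.norm_eq_abs]
    calc |Dr N t - Real.sin ((2 * N + 1) * Real.pi * t) / (Real.pi * t)| * ‖lift f (u - t)‖
        ≤ 1 * ‖lift f (u - t)‖ := by gcongr
      _ = _ := one_mul _
  · rw [intervalIntegrable_iff]
    refine Measure.integrableOn_of_bounded (M := B) (by simp) hcm.norm.aestronglyMeasurable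
      (ae_of_all _ ?_)
    intro t
    rw [norm_norm]
    exact hlb _

end Crest.Agent.R100.P4800
end
end

-- ▼ part R100/Glue_403
section

/-!
# R100 / S0132, helper403: partial Fourier sums are dominated by averages of the dyadic model
-/

set_option autoImplicit false

open MeasureTheory Filter Set Topology Metric
open scoped ENNReal NNReal

noncomputable section

namespace Crest.Agent.R100.Glue403

open Crest.Agent.R100.P1800 Crest.Agent.R100.P3800 Crest.Agent.R100.P4800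
open Crest.Agent.R100.Haar403

variable {T : ℝ} [hT : Fact (0 < T)]

local notation "μ" => AddCircle.haarAddCircle (T := T)

/-! ## modulations and dilations -/

lemma dil_mdl (ρ σ θ : ℝ) (F : ℝ → ℂ) :
    dil ρ σ (mdl θ F) = fun y => ee θ (ρ * σ) * mdl (ρ * θ) (dil ρ σ F) y := by
  funext y
  unfold dil mdl
  rw [mul_add, ee_add]
  have : ee θ (ρ * y) = ee (ρ * θ) y := by
    unfold ee; congr 1; push_cast; ring_nf
  rw [this]; ring

lemma Av_const_mul (c : ℂ) (g : ℝ → ℂ) (k : ℕ) (x : ℝ) :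
    Av k (fun y => c * g y) x = c * Av k g x := by
  unfold Av
  rw [intervalIntegral.integral_const_mul]
  ring_nf

lemma D_const_mul (c : ℂ) (g : ℝ → ℂ) (k : ℕ) (x : ℝ) :
    D k (fun y => c * g y) x = c * D k g x := by
  unfold D
  rw [Av_const_mul, Av_const_mul]; ring

lemma H_const_mul (c : ℂ) (g : ℝ → ℂ) (m : ℕ) (x : ℝ) :
    H m (fun y => c * g y) x = c * H m g x := by
  unfold H
  rw [Finset.mul_sum]
  refine Finset.sum_congr rfl fun k _ => ?_
  rw [D_const_mul]; ring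

lemma enorm_H_dil_mdl (m : ℕ) (ρ σ θ : ℝ) (F : ℝ → ℂ) (z : ℝ) :
    ‖H m (dil ρ σ (mdl θ F)) z‖ₑ = ‖H m (mdl (ρ * θ) (dil ρ σ F)) z‖ₑ := by
  rw [dil_mdl, H_const_mul, enorm_mul]
  have h : ‖ee θ (ρ * σ)‖ₑ = 1 := by
    rw [← ofReal_norm, norm_ee, ENNReal.ofReal_one]
  rw [h, one_mul]

/-! ## periodicity -/

omit hT in
lemma intervalIntegrable_norm_lift {f : AddCircle T → ℂ} (hf : Measurable f) {B : ℝ}
    (hB : ∀ x, ‖f x‖ ≤ B) (a b : ℝ) : IntervalIntegrable (fun t => ‖lift f t‖) volume a b := by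
  rw [intervalIntegrable_iff]
  refine Measure.integrableOn_of_bounded (M := B) (by simp) (measurable_lift hf).norm.aestronglyMeasurable
    (ae_of_all _ fun t => ?_)
  rw [norm_norm]
  exact hB _

lemma integral_norm_lift {f : AddCircle T → ℂ} (hf : Measurable f) (a : ℝ) : ∫ t in a..(a + 1), ‖lift f t‖ = ∫ x, ‖f x‖ ∂μ := by
  have h1 := lint_lift hf a
  rw [intervalIntegral.integral_of_le (by linarith)]
  rw [integral_norm_eq_lintegral_enorm (measurable_lift hf).aestronglyMeasurable,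
    integral_norm_eq_lintegral_enorm hf.aestronglyMeasurable, h1]

lemma integral_norm_lift_sub {f : AddCircle T → ℂ} (hf : Measurable f) {B : ℝ}
    (hB : ∀ x, ‖f x‖ ≤ B) (u : ℝ) :
    ∫ t in (-1 : ℝ)..1, ‖lift f (u - t)‖ = 2 * ∫ x, ‖f x‖ ∂μ := by
  have h0 : ∫ t in (-1 : ℝ)..1, ‖lift f (u - t)‖ = ∫ t in (u - 1)..(u - (-1)), ‖lift f t‖ :=
    intervalIntegral.integral_comp_sub_left (fun t => ‖lift f t‖) u
  rw [h0, sub_neg_eq_add,
    ← intervalIntegral.integral_add_adjacent_intervals (b := u)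
      (intervalIntegrable_norm_lift hf hB _ _) (intervalIntegrable_norm_lift hf hB _ _)]
  have h1 := integral_norm_lift hf (u - 1)
  rw [sub_add_cancel] at h1
  rw [h1, integral_norm_lift hf u]
  ring

/-! ## the glue -/

/-- the average over all the grids of the model operator, frequency `θ` -/
def AvH (m : ℕ) (θ : ℝ) (F : ℝ → ℂ) (u : ℝ) : ℝ≥0∞ :=
  ∫⁻ ρ in Ioc (1 / 2 : ℝ) 1, ∫⁻ σ in Ioc (0 : ℝ) 1,
    ‖H m (mdl (ρ * θ) (dil ρ σ F)) (u / ρ - σ)‖ₑ

/-- **partial sums are dominated by averages of the dyadic model operator** -/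
theorem enorm_S_le {f : AddCircle T → ℂ} (hf : Measurable f) {B : ℝ} (hB : ∀ x, ‖f x‖ ≤ B)
    (N m : ℕ) (u : ℝ) :
    ‖S f N (ph u)‖ₑ ≤
      8 * (AvH m (-(N + 1 / 2)) (lift f) u + AvH m (N + 1 / 2) (lift f) u) +
        ENNReal.ofReal (33 * (∫ x, ‖f x‖ ∂μ) + 18 * (2 * Real.pi * (N + 1 / 2)) * B * (2 ^ m)⁻¹) := by
  have hk := S_sub_kernel hf hB N u
  have hB0 : 0 ≤ B := (norm_nonneg _).trans (hB 0)
  have hθ : (0 : ℝ) ≤ N + 1 / 2 := by positivity
  have hs := enorm_sinInt_le (measurable_lift hf) (fun y => hB (ph y)) m hθ u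
  have hI0 : 0 ≤ ∫ x, ‖f x‖ ∂μ := integral_nonneg fun _ => norm_nonneg _
  have e1 : (∫ t in (-(1 / 2) : ℝ)..(1 / 2),
      lift f (u - t) * ((Real.sin ((2 * N + 1) * Real.pi * t) / t : ℝ) : ℂ)) =
      ∫ t in (-(1 / 2) : ℝ)..(1 / 2),
        ((Real.sin (2 * Real.pi * (N + 1 / 2) * t) * t⁻¹ : ℝ) : ℂ) * lift f (u - t) := by
    refine intervalIntegral.integral_congr fun t _ => ?_
    rw [mul_comm, div_eq_mul_inv]
    congr 5
    ring
  rw [e1] at hk
  set I : ℂ := ∫ t in (-(1 / 2) : ℝ)..(1 / 2),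
        ((Real.sin (2 * Real.pi * (N + 1 / 2) * t) * t⁻¹ : ℝ) : ℂ) * lift f (u - t) with hI
  have hpi : ‖(1 / Real.pi : ℂ)‖ₑ ≤ 1 := by
    rw [← ofReal_norm]
    refine ENNReal.ofReal_le_one.2 ?_
    rw [norm_div, norm_one, Complex.norm_real, Real.norm_eq_abs, abs_of_pos Real.pi_pos,
      div_le_one Real.pi_pos]
    linarith [Real.pi_gt_three]
  have h1 : ‖S f N (ph u)‖ₑ ≤ ‖I‖ₑ + ENNReal.ofReal (∫ x, ‖f x‖ ∂μ) := by
    calc ‖S f N (ph u)‖ₑ = ‖(1 / Real.pi : ℂ) * I + (S f N (ph u) - (1 / Real.pi : ℂ) * I)‖ₑ := by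
          congr 1; ring
      _ ≤ ‖(1 / Real.pi : ℂ) * I‖ₑ + ‖S f N (ph u) - (1 / Real.pi : ℂ) * I‖ₑ := enorm_add_le _ _
      _ ≤ ‖I‖ₑ + ENNReal.ofReal (∫ x, ‖f x‖ ∂μ) := by
          refine add_le_add ?_ ?_
          · rw [enorm_mul]
            calc ‖(1 / Real.pi : ℂ)‖ₑ * ‖I‖ₑ ≤ 1 * ‖I‖ₑ := by gcongr
              _ = ‖I‖ₑ := one_mul _
          · rw [← ofReal_norm]
            exact ENNReal.ofReal_le_ofReal hk
  have h2 : ‖I‖ₑ ≤ 8 * (AvH m (-(N + 1 / 2)) (lift f) u + AvH m (N + 1 / 2) (lift f) u) +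
      ENNReal.ofReal (32 * (∫ x, ‖f x‖ ∂μ) + 18 * (2 * Real.pi * (N + 1 / 2)) * B * (2 ^ m)⁻¹) := by
    refine hs.trans (le_of_eq ?_)
    unfold AvH
    simp_rw [enorm_H_dil_mdl]
    rw [integral_norm_lift_sub hf hB u]
    congr 3
    ring
  calc ‖S f N (ph u)‖ₑ ≤ ‖I‖ₑ + ENNReal.ofReal (∫ x, ‖f x‖ ∂μ) := h1
    _ ≤ (8 * (AvH m (-(N + 1 / 2)) (lift f) u + AvH m (N + 1 / 2) (lift f) u) +
      ENNReal.ofReal (32 * (∫ x, ‖f x‖ ∂μ) + 18 * (2 * Real.pi * (N + 1 / 2)) * B * (2 ^ m)⁻¹)) +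
        ENNReal.ofReal (∫ x, ‖f x‖ ∂μ) := by gcongr
    _ = 8 * (AvH m (-(N + 1 / 2)) (lift f) u + AvH m (N + 1 / 2) (lift f) u) +
        ENNReal.ofReal (33 * (∫ x, ‖f x‖ ∂μ) +
          18 * (2 * Real.pi * (N + 1 / 2)) * B * (2 ^ m)⁻¹) := by
        rw [add_assoc, ← ENNReal.ofReal_add (by positivity) hI0]
        congr 2
        ring

end Crest.Agent.R100.Glue403
end
end

-- ▼ part R100/M7e_800
section

/-!
# R100 / S0132, M7e (helper800): from the model to the strong local bound on the circle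
-/

set_option autoImplicit false

open MeasureTheory Set
open scoped ENNReal NNReal

noncomputable section

namespace Crest.Agent.R100.M7800

open Crest.Agent.R100.Mart933 Crest.Agent.R100.Wide933 Crest.Agent.R100.Hunt933
open Crest.Agent.R100.Local933 Crest.Agent.R100.Haar403

/-! ## the model operator on the line -/

theorem H_eq_SS (m : ℕ) (f : ℝ → ℂ) (θ x : ℝ) :
    H m (mdl (-θ) f) x = SS (coef f θ) (fun _ _ => True) 0 m x := by
  classical
  unfold H SS
  rw [Finset.range_eq_Ico]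
  refine Finset.sum_congr rfl fun k _ => ?_
  rw [if_pos trivial, D_mdl_eq, sg_eq_rad]

section line

variable {W : ℕ → ℝ} {C B : ℝ}


/-- three cells -/
theorem three_cells : Ico (-1 : ℝ) 2 = (Ivl 0 (-1) ∪ Ivl 0 0) ∪ Ivl 0 1 := by
  unfold Ivl
  ext x
  simp only [mem_Ico, mem_union]
  norm_num
  constructor
  · rintro ⟨h1, h2⟩
    rcases lt_or_ge x 0 with h | h
    · exact Or.inl (Or.inl ⟨h1, h⟩)
    · rcases lt_or_ge x 1 with h3 | h3
      · exact Or.inl (Or.inr ⟨h, h3⟩)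
      · exact Or.inr ⟨h3, h2⟩
  · rintro ((⟨h1, h2⟩ | ⟨h1, h2⟩) | ⟨h1, h2⟩) <;> constructor <;> linarith

theorem disj_cells {i j : ℤ} (h : i ≠ j) : Disjoint (Ivl 0 i) (Ivl 0 j) := by
  rw [Set.disjoint_left]
  intro x h1 h2
  rw [mem_Ivl] at h1 h2
  exact h (h1.symm.trans h2)

theorem lint_three (g : ℝ → ℝ≥0∞) :
    ∫⁻ x in Ico (-1 : ℝ) 2, g x = ((∫⁻ x in Ivl 0 (-1), g x) + ∫⁻ x in Ivl 0 0, g x) +
      ∫⁻ x in Ivl 0 1, g x := by
  rw [three_cells, lintegral_union (measurableSet_Ivl _ _),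
    lintegral_union (measurableSet_Ivl _ _) (disj_cells (by norm_num))]
  rw [Set.disjoint_union_left]
  exact ⟨disj_cells (by norm_num), disj_cells (by norm_num)⟩


end line

/-! ## dilations -/

theorem lint_dil {ρ : ℝ} (hρ : 0 < ρ) (σ : ℝ) {h : ℝ → ℝ≥0∞} (hh : Measurable h) :
    ∫⁻ y, h (ρ * (σ + y)) = ENNReal.ofReal ρ⁻¹ * ∫⁻ u, h u := by
  have h1 : ∫⁻ y, h (ρ * (σ + y)) = ∫⁻ y, h (ρ * y) := by
    rw [lintegral_add_left_eq_self (fun y => h (ρ * y)) σ]
  rw [h1]
  have h2 := Real.map_volume_mul_left hρ.ne'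
  rw [← lintegral_map hh (measurable_const_mul ρ), h2, lintegral_smul_measure,
    abs_of_pos (inv_pos.2 hρ), smul_eq_mul]

theorem lint_dil_set {ρ : ℝ} (hρ : 0 < ρ) (σ : ℝ) {h : ℝ → ℝ≥0∞} (hh : Measurable h) {S S' : Set ℝ}
    (hS' : MeasurableSet S') (hS : MeasurableSet S) (hSS : ∀ y ∈ S, ρ * (σ + y) ∈ S') :
    ∫⁻ y in S, h (ρ * (σ + y)) ≤ ENNReal.ofReal ρ⁻¹ * ∫⁻ u in S', h u := by
  rw [← lintegral_indicator hS', ← lint_dil hρ σ (hh.indicator hS'), ← lintegral_indicator hS]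
  refine lintegral_mono fun y => ?_
  by_cases hy : y ∈ S
  · rw [indicator_of_mem hy, indicator_of_mem (hSS y hy)]
  · rw [indicator_of_notMem hy]
    exact zero_le

end Crest.Agent.R100.M7800
end
end

-- ▼ part R100/M7f_800
section

/-!
# R100 / S0132, M7f (helper800): the weak model bound implies the strong local bound on the circle
and hence the a.e. convergence.
-/

set_option autoImplicit false

open MeasureTheory Set Metric
open scoped ENNReal NNReal

noncomputable section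

namespace Crest.Agent.R100.M7800

open Crest.Agent.R100.Mart933 Crest.Agent.R100.Wide933 Crest.Agent.R100.Hunt933
open Crest.Agent.R100.Local933 Crest.Agent.R100.Haar403 Crest.Agent.R100.Glue403
open Crest.Agent.R100.P1800 Crest.Agent.R100.P2800 Crest.Agent.R100.P2b800
open Crest.Agent.R100.P3800 Crest.Agent.R100.P4800

variable {T : ℝ} [hT : Fact (0 < T)]

local notation "μ" => AddCircle.haarAddCircle (T := T)

theorem lint_two {f : AddCircle T → ℂ} (hf : Measurable f) (a : ℝ) :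
    ∫⁻ u in Ioc a (a + 2), ‖lift f u‖ₑ = 2 * ∫⁻ x, ‖f x‖ₑ ∂μ := by
  have h : Ioc a (a + 2) = Ioc a (a + 1) ∪ Ioc (a + 1) (a + 1 + 1) := by
    rw [Ioc_union_Ioc_eq_Ioc (by linarith) (by linarith)]
    congr 1
    ring
  rw [h, lintegral_union measurableSet_Ioc, lint_lift hf, lint_lift hf, two_mul]
  rw [Set.disjoint_left]
  rintro x ⟨_, h1⟩ ⟨h2, _⟩
  linarith

theorem lint_four {f : AddCircle T → ℂ} (hf : Measurable f) (a : ℝ) :
    ∫⁻ u in Ioc a (a + 4), ‖lift f u‖ₑ = 4 * ∫⁻ x, ‖f x‖ₑ ∂μ := by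
  have h : Ioc a (a + 4) = Ioc a (a + 2) ∪ Ioc (a + 2) (a + 2 + 2) := by
    rw [Ioc_union_Ioc_eq_Ioc (by linarith) (by linarith)]
    congr 1
    ring
  rw [h, lintegral_union measurableSet_Ioc, lint_two hf, lint_two hf, ← add_mul]
  · norm_num
  rw [Set.disjoint_left]
  rintro x ⟨_, h1⟩ ⟨h2, _⟩
  linarith

/-- averages over the cells of the dilated grids at the good points -/
theorem avN_dil_le {f : AddCircle T → ℂ} (hf : Measurable f) {M : ℝ} (hM : ∀ x, ‖f x‖ ≤ M)
    {G : Set (AddCircle T)} (hG : MaxLe f G) {ρ σ : ℝ} (hρ0 : 1 / 2 < ρ) (hρ1 : ρ ≤ 1) {x : ℝ}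
    (hx : ph (ρ * (σ + x)) ∈ G) (k : ℕ) : avN (dil ρ σ (lift f)) k (fl k x) ≤ 4 := by
  have hρ : 0 < ρ := by linarith
  set u : ℝ := ρ * (σ + x) with hu
  set r : ℝ := 1 / 2 ^ k with hr
  have hr0 : 0 < r := by positivity
  have hxI : x ∈ Ivl k (fl k x) := mem_Ivl.2 rfl
  have h1 := lint_Ivl (measurable_dil (ρ := ρ) (σ := σ) (measurable_lift hf)) (fun y => hM _) k (fl k x)
  have h2 : ∫⁻ y in Ivl k (fl k x), ‖dil ρ σ (lift f) y‖ₑ ≤
      ENNReal.ofReal ρ⁻¹ * ∫⁻ v in Icc (u - ρ * r) (u + ρ * r), ‖lift f v‖ₑ := by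
    refine lint_dil_set hρ σ (measurable_lift hf).enorm measurableSet_Icc (measurableSet_Ivl _ _)
      fun y hy => ?_
    have h3 := dist_Ivl hxI hy
    have h4 : |y - x| ≤ r := by
      rw [abs_sub_comm] at h3
      first
        | exact h3
        | (rw [abs_sub_comm]; exact h3)
    rw [abs_le] at h4
    rw [hu]
    constructor
    · nlinarith [h4.1]
    · nlinarith [h4.2]
  have h5 : ENNReal.ofReal ρ⁻¹ * ∫⁻ v in Icc (u - ρ * r) (u + ρ * r), ‖lift f v‖ₑ ≤
      ENNReal.ofReal (4 * r) := by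
    by_cases hrr : ρ * r ≤ 1 / 2
    · have h6 := ball_bound hf hG hx (r := ρ * r) (by positivity) hrr
      calc _ ≤ ENNReal.ofReal ρ⁻¹ * ENNReal.ofReal (2 * (ρ * r)) := by gcongr
        _ = ENNReal.ofReal (2 * r) := by
            rw [← ENNReal.ofReal_mul (by positivity)]
            congr 1
            field_simp
        _ ≤ _ := ENNReal.ofReal_le_ofReal (by linarith)
    · push Not at hrr
      have hk : k = 0 := by
        by_contra hk
        have : r ≤ 1 / 2 := by
          rw [hr]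
          have : (2 : ℝ) ≤ 2 ^ k := by
            calc (2 : ℝ) = 2 ^ 1 := (pow_one _).symm
              _ ≤ 2 ^ k := pow_le_pow_right₀ (by norm_num) (Nat.one_le_iff_ne_zero.2 hk)
          gcongr
        nlinarith
      have hr1 : r = 1 := by rw [hr, hk]; norm_num
      have h7 : ∫⁻ v in Icc (u - ρ * r) (u + ρ * r), ‖lift f v‖ₑ ≤ 2 := by
        rw [setLIntegral_congr (Ioc_ae_eq_Icc (a := u - ρ * r) (b := u + ρ * r)).symm]
        have h8 : Ioc (u - ρ * r) (u + ρ * r) ⊆ Ioc (u - 1) (u - 1 + 2) := by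
          refine Ioc_subset_Ioc ?_ ?_
          · rw [hr1]; linarith
          · rw [hr1]; linarith
        calc _ ≤ ∫⁻ v in Ioc (u - 1) (u - 1 + 2), ‖lift f v‖ₑ := lintegral_mono_set h8
          _ = 2 * ∫⁻ x, ‖f x‖ₑ ∂μ := lint_two hf _
          _ ≤ 2 * 1 := by
              gcongr
              exact total_le_one hG hx
          _ = 2 := mul_one _
      calc _ ≤ ENNReal.ofReal ρ⁻¹ * 2 := by gcongr
        _ = ENNReal.ofReal (ρ⁻¹ * 2) := by
            rw [ENNReal.ofReal_mul (by positivity)]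
            norm_num
        _ ≤ _ := by
            apply ENNReal.ofReal_le_ofReal
            rw [hr1, inv_mul_le_iff₀ hρ]
            linarith
  have h9 := h1.trans_le (h2.trans h5)
  rw [volume_Ivl, ← ENNReal.ofReal_mul (avN_nonneg _ _ _),
    ENNReal.ofReal_le_ofReal_iff (by positivity)] at h9
  exact le_of_mul_le_mul_right h9 hr0

/-- the model operator as a function of all the parameters `((u, ρ), σ)` -/
def hpar (F : ℝ → ℂ) (θ : ℝ → ℝ) (m : ℕ) (p : (ℝ × ℝ) × ℝ) : ℝ≥0∞ :=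
  ‖H m (mdl (p.1.2 * θ p.1.1) (dil p.1.2 p.2 F)) (p.1.1 / p.1.2 - p.2)‖ₑ

theorem measurable_Hpar {F : ℝ → ℂ} (hF : Measurable F) {M : ℝ} (hM : ∀ x, ‖F x‖ ≤ M)
    {θ : ℝ → ℝ} (hθ : Measurable θ) (m : ℕ) :
    Measurable (hpar F θ m) := by
  unfold hpar
  have h := measurable_H_param (G := fun x y => mdl (θ x) F y) ?_ (B := M) ?_ m
  · have e1 : (fun p : (ℝ × ℝ) × ℝ =>
        ‖H m (mdl (p.1.2 * θ p.1.1) (dil p.1.2 p.2 F)) (p.1.1 / p.1.2 - p.2)‖ₑ) =
        fun p : (ℝ × ℝ) × ℝ =>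
        ‖H m (dil p.1.2 p.2 (mdl (θ p.1.1) F)) (p.1.1 / p.1.2 - p.2)‖ₑ := by
      ext p
      rw [enorm_H_dil_mdl]
    rw [e1]
    exact h.enorm
  · unfold Function.uncurry mdl ee
    have h1 : Measurable fun a : ℝ × ℝ => θ a.1 := hθ.comp measurable_fst
    have h2 : Measurable fun a : ℝ × ℝ => F a.2 := hF.comp measurable_snd
    fun_prop
  · intro x y
    rw [norm_mdl]
    exact hM y

section main

variable {W : ℕ → ℝ} {C B : ℝ}



end main

end Crest.Agent.R100.M7800
end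
end

-- ▼ part R100/P3b_800
section

/-!
# R100 / S0132, part P3b (helper800): `StrongLocalR → StrongLocal T`.
-/
namespace Crest.Agent.R100.P3b800
end Crest.Agent.R100.P3b800
end

-- ▼ part R100/MM_800
section

/-!
# R100 / S0132, MM (helper800): the MULTI-LEVEL model bound implies the multi-level bound on the
circle.

`ModelMulti`: `∫ |TL m f θ(x)| ≤ A (n ∫ |f| + n / (1 + log n)^2)` for `|f| ≤ 2 ^ n`.
`StrongMulti T`: `∫_G |S f (N x)| ≤ A (n ∫ |f| + n / (1 + log n)^2)` for `|f| ≤ 2 ^ n` and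
`Mf ≤ 1` on `G`.
-/

set_option autoImplicit false

open MeasureTheory Set Metric Filter Topology
open scoped ENNReal NNReal

noncomputable section

namespace Crest.Agent.R100.MM800

open Crest.Agent.R100.Mart933 Crest.Agent.R100.Wide933 Crest.Agent.R100.Hunt933
open Crest.Agent.R100.Local933 Crest.Agent.R100.Haar403 Crest.Agent.R100.Glue403
open Crest.Agent.R100.P1800 Crest.Agent.R100.P2800 Crest.Agent.R100.P2b800
open Crest.Agent.R100.P3800 Crest.Agent.R100.P4800 Crest.Agent.R100.P3b800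
open Crest.Agent.R100.M7800

/-- **multi-level model bound** -/
def ModelMulti : Prop :=
  ∃ A : ℝ, 0 ≤ A ∧ ∀ (n : ℕ) (_ : 1 ≤ n) (f : ℝ → ℂ) (_ : Measurable f) (_ : ∀ x, ‖f x‖ ≤ 2 ^ n)
    (θ : ℝ → ℝ) (_ : Measurable θ) (_ : (range θ).Finite) (m : ℕ),
    ∫⁻ x in Ico (0 : ℝ) 1, ‖TL m f (θ x) x‖ₑ ≤
      ENNReal.ofReal (A * n) * (∫⁻ x in Ico (0 : ℝ) 1, ‖f x‖ₑ) +
        ENNReal.ofReal (A * n / (1 + Real.log n) ^ 2)

/-- **multi-level bound on the circle** -/
def StrongMulti (T : ℝ) [hT : Fact (0 < T)] : Prop :=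
  ∃ A : ℝ≥0, ∀ (n : ℕ) (_ : 1 ≤ n) (f : AddCircle T → ℂ) (_ : Measurable f)
    (_ : ∀ x, ‖f x‖ ≤ 2 ^ n) (G : Set (AddCircle T)) (_ : MeasurableSet G) (_ : MaxLe f G)
    (R : ℕ) (N : AddCircle T → ℕ) (_ : Measurable N) (_ : ∀ x, N x ≤ R),
    ∫⁻ x in G, ‖S f (N x) x‖ₑ ∂(AddCircle.haarAddCircle (T := T))
      ≤ A * (n * (∫⁻ x, ‖f x‖ₑ ∂(AddCircle.haarAddCircle (T := T))) +
        ENNReal.ofReal (n / (1 + Real.log n) ^ 2))

/-! ## one cell -/

/-- the model inequality at one `n`, with general constants -/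
def MB (K1 K2 : ℝ≥0∞) (n : ℕ) : Prop :=
  ∀ (f : ℝ → ℂ) (_ : Measurable f) (_ : ∀ x, ‖f x‖ ≤ 2 ^ n)
    (θ : ℝ → ℝ) (_ : Measurable θ) (_ : (range θ).Finite) (m : ℕ),
    ∫⁻ x in Ico (0 : ℝ) 1, ‖TL m f (θ x) x‖ₑ ≤ K1 * (∫⁻ x in Ico (0 : ℝ) 1, ‖f x‖ₑ) + K2

theorem lint_cell (h : ℝ → ℝ≥0∞) (i0 : ℤ) :
    ∫⁻ x in Ivl 0 i0, h x = ∫⁻ y in Ico (0 : ℝ) 1, h (y + i0) := by
  rw [← lintegral_indicator (measurableSet_Ivl _ _), ← lintegral_indicator measurableSet_Ico,
    ← lintegral_add_right_eq_self _ (i0 : ℝ)]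
  refine lintegral_congr fun y => ?_
  have e : y + (i0 : ℝ) ∈ Ivl 0 i0 ↔ y ∈ Ico (0 : ℝ) 1 := by
    unfold Ivl
    simp only [mem_Ico, pow_zero, div_one]
    constructor
    · rintro ⟨h1, h2⟩; constructor <;> linarith
    · rintro ⟨h1, h2⟩; constructor <;> linarith
  by_cases hy : y ∈ Ico (0 : ℝ) 1
  · rw [indicator_of_mem hy, indicator_of_mem (e.2 hy)]
  · rw [indicator_of_notMem hy, indicator_of_notMem (fun h' => hy (e.1 h'))]

theorem cell_mm {K1 K2 : ℝ≥0∞} {n : ℕ} (hA : MB K1 K2 n) {f : ℝ → ℂ}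
    (hf : Measurable f) (hfn : ∀ x, ‖f x‖ ≤ 2 ^ n) {θ : ℝ → ℝ} (hθ : Measurable θ)
    (hθr : (range θ).Finite) (m : ℕ) {G : Set ℝ}
    (hGf : ∀ x ∈ G, ∀ k, avN f k (fl k x) ≤ 4) (i0 : ℤ) :
    ∫⁻ x in Ivl 0 i0, G.indicator (fun x => ‖H m (mdl (-(θ x)) f) x‖ₑ) x ≤
      K1 * (∫⁻ x in Ivl 0 i0, ‖f x‖ₑ) + 4 * K2 := by
  classical
  set g : ℝ → ℂ := fun x => ((1 / 4 : ℝ) : ℂ) * f x with hg
  have hgm : Measurable g := hf.const_mul _
  have hgn : ∀ x, ‖g x‖ = 1 / 4 * ‖f x‖ := by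
    intro x
    rw [hg]
    simp only
    rw [norm_mul, Complex.norm_real, Real.norm_eq_abs, abs_of_pos (by norm_num)]
  have hgn' : ∀ x, ‖g x‖ ≤ 2 ^ n := by
    intro x
    rw [hgn]
    have := hfn x
    have := norm_nonneg (f x)
    linarith
  have hge : ∀ x, 4 * ‖g x‖ₑ = ‖f x‖ₑ := by
    intro x
    rw [← ofReal_norm, ← ofReal_norm, hgn, show (4 : ℝ≥0∞) = ENNReal.ofReal 4 by norm_num,
      ← ENNReal.ofReal_mul (by norm_num)]
    congr 1
    ring
  set g' : ℝ → ℂ := rs g 0 i0 with hg'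
  have hg'm : Measurable g' := measurable_rs hgm 0 i0
  have h := hA g' hg'm (fun x => hgn' _) (fun y => θ (y + i0)) (hθ.comp (measurable_add_const _))
    (hθr.subset (by rintro _ ⟨y, rfl⟩; exact ⟨_, rfl⟩)) m
  rw [lint_cell, lint_cell]
  have e1 : ∀ y : ℝ, G.indicator (fun x => ‖H m (mdl (-(θ x)) f) x‖ₑ) (y + i0) ≤
      4 * ‖TL m g' (θ (y + i0)) y‖ₑ := by
    intro y
    by_cases hy : y + (i0 : ℝ) ∈ G
    · rw [indicator_of_mem hy]
      have e2 : ‖H m (mdl (-(θ (y + i0))) f) (y + i0)‖ₑ =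
          4 * ‖SS (coef g (θ (y + i0))) (fun _ _ => True) 0 m (y + i0)‖ₑ := by
        rw [H_eq_SS, hg, SS_coef_smul, enorm_mul, ← mul_assoc]
        have : (4 : ℝ≥0∞) * ‖(((1 / 4 : ℝ) : ℝ) : ℂ)‖ₑ = 1 := by
          rw [← ofReal_norm, Complex.norm_real, Real.norm_eq_abs, abs_of_pos (by norm_num),
            show (4 : ℝ≥0∞) = ENNReal.ofReal 4 by norm_num, ← ENNReal.ofReal_mul (by norm_num)]
          norm_num
        rw [this, one_mul]
      have e3 : SS (coef g (θ (y + i0))) (fun _ _ => True) 0 m (y + i0) =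
          SS (coef g (θ (y + i0))) (AL g 1 0) 0 m (y + i0) := by
        refine SS_congr fun l _ _ => ?_
        rw [AL_fl]
        refine ⟨fun _ k' _ _ => ?_, fun _ => trivial⟩
        rw [hg, avN_smul f (by norm_num)]
        have := hGf _ hy k'
        linarith
      have e4 := TL_rs g (θ (y + i0)) 0 i0 m y
      rw [pow_zero, div_one, div_one, div_one, zero_add] at e4
      rw [e2, e3]
      apply le_of_eq
      congr 1
      rw [← ofReal_norm, ← ofReal_norm, ← e4]
    · rw [indicator_of_notMem hy]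
      exact zero_le
  calc ∫⁻ y in Ico (0 : ℝ) 1, G.indicator (fun x => ‖H m (mdl (-(θ x)) f) x‖ₑ) (y + i0)
      ≤ ∫⁻ y in Ico (0 : ℝ) 1, 4 * ‖TL m g' (θ (y + i0)) y‖ₑ := lintegral_mono fun y => e1 y
    _ = 4 * ∫⁻ y in Ico (0 : ℝ) 1, ‖TL m g' (θ (y + i0)) y‖ₑ :=
        lintegral_const_mul' _ _ (by norm_num)
    _ ≤ 4 * (K1 * (∫⁻ y in Ico (0 : ℝ) 1, ‖g' y‖ₑ) + K2) := by gcongr
    _ = K1 * (∫⁻ y in Ico (0 : ℝ) 1, 4 * ‖g' y‖ₑ) + 4 * K2 := by
        rw [lintegral_const_mul' _ _ (by norm_num)]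
        ring
    _ = _ := by
        congr 2
        refine lintegral_congr fun y => ?_
        rw [hg']
        unfold rs
        rw [hge, pow_zero, div_one, div_one]

theorem line_mm {K1 K2 : ℝ≥0∞} {n : ℕ} (hA : MB K1 K2 n) {f : ℝ → ℂ}
    (hf : Measurable f) (hfn : ∀ x, ‖f x‖ ≤ 2 ^ n) {θ : ℝ → ℝ} (hθ : Measurable θ)
    (hθr : (range θ).Finite) (m : ℕ) {G : Set ℝ}
    (hGf : ∀ x ∈ G, ∀ k, avN f k (fl k x) ≤ 4) :
    ∫⁻ x in Ico (-1 : ℝ) 2, G.indicator (fun x => ‖H m (mdl (-(θ x)) f) x‖ₑ) x ≤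
      K1 * (∫⁻ x in Ico (-1 : ℝ) 2, ‖f x‖ₑ) + 12 * K2 := by
  have h := fun i0 => cell_mm hA hf hfn hθ hθr m hGf i0
  rw [lint_three, lint_three]
  refine (add_le_add (add_le_add (h (-1)) (h 0)) (h 1)).trans (le_of_eq ?_)
  ring

variable {T : ℝ} [hT : Fact (0 < T)]

local notation "μ" => AddCircle.haarAddCircle (T := T)

theorem fixed_grid_mm {K1 K2 : ℝ≥0∞} {n : ℕ} (hA : MB K1 K2 n)
    {f : AddCircle T → ℂ} (hf : Measurable f) (hfn : ∀ x, ‖f x‖ ≤ 2 ^ n)
    {G : Set (AddCircle T)} (hGm : MeasurableSet G) (hG : MaxLe f G)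
    {θ : ℝ → ℝ} (hθ : Measurable θ) (hθr : (range θ).Finite) (m : ℕ)
    {ρ σ : ℝ} (hρ0 : 1 / 2 < ρ) (hρ1 : ρ ≤ 1) (hσ0 : 0 < σ) (hσ1 : σ ≤ 1) :
    ∫⁻ u in GR G, ‖H m (mdl (ρ * θ u) (dil ρ σ (lift f))) (u / ρ - σ)‖ₑ ≤
      4 * K1 * (∫⁻ x, ‖f x‖ₑ ∂μ) + 12 * K2 := by
  classical
  have hρ : 0 < ρ := by linarith
  have hGR : MeasurableSet (GR G) := measurableSet_Ioc.inter (measurable_ph hGm)
  set F : ℝ → ℂ := lift f with hF
  have hFm : Measurable F := measurable_lift hf
  have hFn : ∀ x, ‖F x‖ ≤ 2 ^ n := fun x => hfn _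
  have hm1 : Measurable fun u : ℝ => hpar F θ m ((u, ρ), σ) :=
    (measurable_Hpar hFm hFn hθ m).comp ((measurable_id.prodMk measurable_const).prodMk
      measurable_const)
  have hpe : ∀ u, hpar F θ m ((u, ρ), σ) =
      ‖H m (mdl (ρ * θ u) (dil ρ σ F)) (u / ρ - σ)‖ₑ := fun u => rfl
  simp_rw [hpe] at hm1
  set h : ℝ → ℝ≥0∞ := (GR G).indicator
    (fun u => ‖H m (mdl (ρ * θ u) (dil ρ σ F)) (u / ρ - σ)‖ₑ) with hh
  have hhm : Measurable h := hm1.indicator hGR
  rw [← lintegral_indicator hGR]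
  have h1 : ∫⁻ u, h u = ENNReal.ofReal ρ * ∫⁻ y, h (ρ * (σ + y)) := by
    rw [lint_dil hρ σ hhm, ← mul_assoc, ← ENNReal.ofReal_mul hρ.le, mul_inv_cancel₀ hρ.ne']
    simp
  rw [h1]
  set G' : Set ℝ := {y | ρ * (σ + y) ∈ GR G} with hG'
  have hlin : Measurable fun y : ℝ => ρ * (σ + y) := by fun_prop
  set θ' : ℝ → ℝ := fun y => -(ρ * θ (ρ * (σ + y))) with hθ'
  have hθ'm : Measurable θ' := ((hθ.comp hlin).const_mul ρ).neg
  have hθ'r : (range θ').Finite := by
    refine (hθr.image fun t => -(ρ * t)).subset ?_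
    rintro _ ⟨y, rfl⟩
    exact ⟨_, ⟨_, rfl⟩, rfl⟩
  have hF'm : Measurable (dil ρ σ F) := measurable_dil hFm
  have hF'n : ∀ x, ‖dil ρ σ F x‖ ≤ 2 ^ n := fun x => hFn _
  have hline := line_mm hA hF'm hF'n hθ'm hθ'r m (G := G')
    (fun x hx k => avN_dil_le hf hfn hG hρ0 hρ1 hx.2 k)
  have e1 : ∀ y, h (ρ * (σ + y)) = (Ico (-1 : ℝ) 2).indicator
      (G'.indicator (fun x => ‖H m (mdl (-(θ' x)) (dil ρ σ F)) x‖ₑ)) y := by
    intro y
    by_cases hy : y ∈ G'
    · have hy' : ρ * (σ + y) ∈ GR G := hy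
      have hyI : y ∈ Ico (-1 : ℝ) 2 := by
        obtain ⟨⟨a1, a2⟩, -⟩ := hy'
        have a3 : 0 < σ + y := by
          by_contra hcon
          push Not at hcon
          nlinarith
        have a4 : σ + y < 2 := by
          by_contra hcon
          push Not at hcon
          nlinarith
        constructor <;> linarith
      rw [indicator_of_mem hyI, indicator_of_mem hy, hh, indicator_of_mem hy']
      have e2 : ρ * (σ + y) / ρ - σ = y := by field_simp; ring
      have e3 : -(θ' y) = ρ * θ (ρ * (σ + y)) := by simp [hθ']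
      rw [e2, e3]
    · have hy' : ρ * (σ + y) ∉ GR G := hy
      rw [hh, indicator_of_notMem hy']
      by_cases hyI : y ∈ Ico (-1 : ℝ) 2
      · rw [indicator_of_mem hyI, indicator_of_notMem hy]
      · rw [indicator_of_notMem hyI]
  simp_rw [e1]
  rw [lintegral_indicator measurableSet_Ico]
  -- the right-hand side
  have h2 : ∫⁻ x in Ico (-1 : ℝ) 2, ‖dil ρ σ F x‖ₑ ≤
      ENNReal.ofReal ρ⁻¹ * (4 * ∫⁻ x, ‖f x‖ₑ ∂μ) := by
    rw [← lint_four hf (-1)]
    refine lint_dil_set hρ σ hFm.enorm measurableSet_Ioc measurableSet_Ico fun y hy => ?_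
    constructor
    · nlinarith [hy.1]
    · nlinarith [hy.2]
  calc ENNReal.ofReal ρ * ∫⁻ x in Ico (-1 : ℝ) 2,
        G'.indicator (fun x => ‖H m (mdl (-(θ' x)) (dil ρ σ F)) x‖ₑ) x
      ≤ ENNReal.ofReal ρ * (K1 * (ENNReal.ofReal ρ⁻¹ * (4 * ∫⁻ x, ‖f x‖ₑ ∂μ)) + 12 * K2) := by
        gcongr
        exact hline.trans (by gcongr)
    _ = (ENNReal.ofReal ρ * ENNReal.ofReal ρ⁻¹) * (4 * K1 * ∫⁻ x, ‖f x‖ₑ ∂μ) +
        ENNReal.ofReal ρ * (12 * K2) := by ring
    _ ≤ 1 * (4 * K1 * ∫⁻ x, ‖f x‖ₑ ∂μ) + 1 * (12 * K2) := by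
        gcongr
        · rw [← ENNReal.ofReal_mul hρ.le, mul_inv_cancel₀ hρ.ne', ENNReal.ofReal_one]
        · rw [← ENNReal.ofReal_one]
          exact ENNReal.ofReal_le_ofReal hρ1
    _ = _ := by rw [one_mul, one_mul]

/-- the average over the grids -/
theorem avg_mm {K1 K2 : ℝ≥0∞} {n : ℕ} (hA : MB K1 K2 n)
    {f : AddCircle T → ℂ} (hf : Measurable f) (hfn : ∀ x, ‖f x‖ ≤ 2 ^ n)
    {G : Set (AddCircle T)} (hGm : MeasurableSet G) (hG : MaxLe f G)
    {θ : ℝ → ℝ} (hθ : Measurable θ) (hθr : (range θ).Finite) (m : ℕ) :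
    ∫⁻ u in GR G, AvH m (θ u) (lift f) u ≤ 4 * K1 * (∫⁻ x, ‖f x‖ₑ ∂μ) + 12 * K2 := by
  have hFm : Measurable (lift f) := measurable_lift hf
  have hFn : ∀ x, ‖lift f x‖ ≤ 2 ^ n := fun x => hfn _
  have hm3 := measurable_Hpar hFm hFn hθ m
  unfold AvH
  have hsw : ∫⁻ u in GR G, ∫⁻ ρ in Ioc (1 / 2 : ℝ) 1, ∫⁻ σ in Ioc (0 : ℝ) 1,
        ‖H m (mdl (ρ * θ u) (dil ρ σ (lift f))) (u / ρ - σ)‖ₑ =
      ∫⁻ ρ in Ioc (1 / 2 : ℝ) 1, ∫⁻ u in GR G, ∫⁻ σ in Ioc (0 : ℝ) 1,
        ‖H m (mdl (ρ * θ u) (dil ρ σ (lift f))) (u / ρ - σ)‖ₑ := by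
    have h2 : Measurable fun p : ℝ × ℝ => ∫⁻ σ in Ioc (0 : ℝ) 1, hpar (lift f) θ m (p, σ) :=
      hm3.lintegral_prod_right'
    exact lintegral_lintegral_swap
      (f := fun u ρ => ∫⁻ σ in Ioc (0 : ℝ) 1, hpar (lift f) θ m ((u, ρ), σ)) h2.aemeasurable
  rw [hsw]
  have h1 : ∀ ρ : ℝ, ∫⁻ u in GR G, ∫⁻ σ in Ioc (0 : ℝ) 1,
      ‖H m (mdl (ρ * θ u) (dil ρ σ (lift f))) (u / ρ - σ)‖ₑ =
      ∫⁻ σ in Ioc (0 : ℝ) 1, ∫⁻ u in GR G,
      ‖H m (mdl (ρ * θ u) (dil ρ σ (lift f))) (u / ρ - σ)‖ₑ := by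
    intro ρ
    have h2 : Measurable fun p : ℝ × ℝ => hpar (lift f) θ m ((p.1, ρ), p.2) :=
      hm3.comp ((measurable_fst.prodMk measurable_const).prodMk measurable_snd)
    exact lintegral_lintegral_swap (f := fun u σ => hpar (lift f) θ m ((u, ρ), σ))
      h2.aemeasurable
  simp_rw [h1]
  set K := 4 * K1 * (∫⁻ x, ‖f x‖ₑ ∂μ) + 12 * K2 with hK
  calc ∫⁻ ρ in Ioc (1 / 2 : ℝ) 1, ∫⁻ σ in Ioc (0 : ℝ) 1, ∫⁻ u in GR G,
      ‖H m (mdl (ρ * θ u) (dil ρ σ (lift f))) (u / ρ - σ)‖ₑ
      ≤ ∫⁻ ρ in Ioc (1 / 2 : ℝ) 1, ∫⁻ σ in Ioc (0 : ℝ) 1, K := by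
        refine setLIntegral_mono' measurableSet_Ioc fun ρ hρ => ?_
        refine setLIntegral_mono' measurableSet_Ioc fun σ hσ => ?_
        exact fixed_grid_mm hA hf hfn hGm hG hθ hθr m hρ.1 hρ.2 hσ.1 hσ.2
    _ = ENNReal.ofReal (1 / 2) * K := by
        rw [setLIntegral_const, setLIntegral_const, Real.volume_Ioc, Real.volume_Ioc]
        norm_num
        rw [mul_comm]
    _ ≤ 1 * K := by
        gcongr
        rw [← ENNReal.ofReal_one]
        exact ENNReal.ofReal_le_ofReal (by norm_num)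
    _ = K := one_mul K

/-- `n / (1 + log n)^2 ≥ 1/4` -/
theorem err_ge {n : ℕ} (hn : 1 ≤ n) : (1 / 4 : ℝ) ≤ n / (1 + Real.log n) ^ 2 := by
  have h1 : (1 : ℝ) ≤ n := by exact_mod_cast hn
  have h0 : 0 ≤ Real.log n := Real.log_nonneg h1
  have h2 : (1 + Real.log n) ≤ 2 * Real.sqrt n := by
    have h3 : Real.log n = 2 * Real.log (Real.sqrt n) := by
      rw [Real.log_sqrt (by positivity)]
      ring
    have h4 : Real.log (Real.sqrt n) ≤ Real.sqrt n - 1 :=
      Real.log_le_sub_one_of_pos (Real.sqrt_pos.2 (by linarith))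
    rw [h3]
    linarith
  rw [div_le_div_iff₀ (by norm_num) (by positivity)]
  calc 1 * (1 + Real.log n) ^ 2 ≤ 1 * (2 * Real.sqrt n) ^ 2 := by gcongr
    _ = (n : ℝ) * 4 := by
        rw [mul_pow, Real.sq_sqrt (by positivity)]
        ring

/-- **SH2** -/
theorem StrongMulti_of_ModelMulti (h : ModelMulti) : StrongMulti T := by
  classical
  obtain ⟨B, hB, hE⟩ := h
  refine ⟨Real.toNNReal (256 * B + 136), fun n hn f hf hfb G hGm hG R N hNm hNR => ?_⟩
  set a : ℝ≥0∞ := ∫⁻ x, ‖f x‖ₑ ∂μ with ha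
  have hfi : Integrable f μ :=
    Integrable.of_bound hf.aestronglyMeasurable (2 ^ n) (Eventually.of_forall hfb)
  have haI : ENNReal.ofReal (∫ x, ‖f x‖ ∂μ) = a := ofReal_integral_norm_eq_lintegral_enorm hfi
  have hGRm : MeasurableSet (GR G) := measurableSet_Ioc.inter (measurable_ph hGm)
  have hvolG : volume (GR G) = μ G := by
    have h1 := (measurePreserving_ph (T := T) 0).measure_preimage hGm.nullMeasurableSet
    rw [Measure.restrict_apply (measurable_ph hGm), zero_add] at h1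
    unfold GR
    rw [inter_comm]
    exact h1
  -- choice of the number of scales
  obtain ⟨m, hm⟩ : ∃ m : ℕ, 18 * (2 * Real.pi * (R + 1 / 2)) * 2 ^ n * ((2 : ℝ) ^ m)⁻¹ ≤ 1 := by
    obtain ⟨m, hm⟩ := pow_unbounded_of_one_lt (18 * (2 * Real.pi * (R + 1 / 2)) * 2 ^ n)
      (one_lt_two (α := ℝ))
    refine ⟨m, ?_⟩
    rw [← div_eq_mul_inv, div_le_one (by positivity)]
    exact hm.le
  -- the frequencies
  have hN1 : Measurable (fun u : ℝ => ((N (ph (T := T) u) : ℕ) : ℝ)) :=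
    (measurable_from_top (f := fun k : ℕ => (k : ℝ))).comp (hNm.comp measurable_ph)
  set K1 : ℝ≥0∞ := ENNReal.ofReal (B * n) with hK1
  set K2 : ℝ≥0∞ := ENNReal.ofReal (B * n / (1 + Real.log n) ^ 2) with hK2
  have hMB : MB K1 K2 n := fun f hf hfn θ hθ hθr m => hE n hn f hf hfn θ hθ hθr m
  have h1 := avg_mm hMB hf hfb hGm hG
    (θ := fun u => -((N (ph u) : ℝ) + 1 / 2)) ((hN1.add_const _).neg) (by
      refine ((Finset.range (R + 1)).image (fun k : ℕ => -((k : ℝ) + 1 / 2))).finite_toSet.subset ?_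
      rintro _ ⟨u, rfl⟩
      rw [Finset.mem_coe, Finset.mem_image]
      exact ⟨N (ph u), Finset.mem_range.2 (Nat.lt_succ_of_le (hNR _)), rfl⟩) m
  have h2 := avg_mm hMB hf hfb hGm hG
    (θ := fun u => ((N (ph u) : ℝ) + 1 / 2)) (hN1.add_const _) (by
      refine ((Finset.range (R + 1)).image (fun k : ℕ => ((k : ℝ) + 1 / 2))).finite_toSet.subset ?_
      rintro _ ⟨u, rfl⟩
      rw [Finset.mem_coe, Finset.mem_image]
      exact ⟨N (ph u), Finset.mem_range.2 (Nat.lt_succ_of_le (hNR _)), rfl⟩) m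
  rw [← ha] at h1 h2
  -- the left-hand side on the line
  have hSm : Measurable (fun x : AddCircle T => ‖S f (N x) x‖ₑ) := by
    have h3 : Measurable (fun p : AddCircle T × ℕ => S f p.2 p.1) := by
      refine measurable_from_prod_countable_left fun k => ?_
      exact (continuous_S f k).measurable
    exact (h3.comp (measurable_id.prodMk hNm)).enorm
  have hL : ∫⁻ x in G, ‖S f (N x) x‖ₑ ∂μ
      = ∫⁻ u in GR G, ‖S f (N (ph u)) (ph u)‖ₑ := by
    rw [← lintegral_indicator hGm, lint_ph 0 (hSm.indicator hGm), zero_add]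
    unfold GR
    rw [inter_comm, ← setLIntegral_indicator (measurable_ph hGm)]
    refine lintegral_congr fun u => ?_
    by_cases hu : ph u ∈ G
    · rw [indicator_of_mem hu, indicator_of_mem (show u ∈ ph ⁻¹' G from hu)]
    · rw [indicator_of_notMem hu, indicator_of_notMem (show u ∉ ph ⁻¹' G from hu)]
  have hAm : Measurable fun u : ℝ => AvH m (-((N (ph (T := T) u) : ℝ) + 1 / 2)) (lift f) u := by
    have hm3 := measurable_Hpar (measurable_lift hf) (fun x => hfb _)
      (θ := fun u => -((N (ph (T := T) u) : ℝ) + 1 / 2)) ((hN1.add_const _).neg) m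
    have h4 : Measurable fun p : ℝ × ℝ => ∫⁻ σ in Ioc (0 : ℝ) 1,
        hpar (lift f) (fun u => -((N (ph (T := T) u) : ℝ) + 1 / 2)) m (p, σ) :=
      hm3.lintegral_prod_right'
    exact h4.lintegral_prod_right'
  rw [hL]
  have hG1 : μ G ≤ 1 := prob_le_one
  have hn1 : (1 : ℝ) ≤ n := by exact_mod_cast hn
  set E : ℝ≥0∞ := ENNReal.ofReal (n / (1 + Real.log n) ^ 2) with hEr
  have hE1 : (1 : ℝ≥0∞) ≤ 4 * E := by
    rw [hEr, show (4 : ℝ≥0∞) = ENNReal.ofReal 4 by norm_num, ← ENNReal.ofReal_mul (by norm_num),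
      ← ENNReal.ofReal_one]
    apply ENNReal.ofReal_le_ofReal
    have := err_ge hn
    linarith
  have hK1' : K1 = ENNReal.ofReal B * n := by
    rw [hK1, ENNReal.ofReal_mul hB, ENNReal.ofReal_natCast]
  have hK2' : K2 = ENNReal.ofReal B * E := by
    rw [hK2, mul_div_assoc, ENNReal.ofReal_mul hB]
  have hna : (1 : ℝ≥0∞) ≤ (n : ℝ≥0∞) := by exact_mod_cast hn
  calc ∫⁻ u in GR G, ‖S f (N (ph u)) (ph u)‖ₑ
      ≤ ∫⁻ u in GR G, (8 * (AvH m (-((N (ph u) : ℝ) + 1 / 2)) (lift f) u +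
          AvH m ((N (ph u) : ℝ) + 1 / 2) (lift f) u) + (33 * a + 1)) := by
        refine setLIntegral_mono' hGRm fun u hu => ?_
        refine (enorm_S_le hf hfb (N (ph u)) m u).trans ?_
        gcongr
        rw [ENNReal.ofReal_add (by positivity) (by positivity), ENNReal.ofReal_mul (by norm_num),
          haI]
        refine add_le_add (by norm_num) ?_
        rw [← ENNReal.ofReal_one]
        apply ENNReal.ofReal_le_ofReal
        refine le_trans ?_ hm
        have hNR' : ((N (ph (T := T) u) : ℕ) : ℝ) ≤ R := by exact_mod_cast hNR _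
        gcongr
    _ = 8 * ((∫⁻ u in GR G, AvH m (-((N (ph u) : ℝ) + 1 / 2)) (lift f) u) +
          ∫⁻ u in GR G, AvH m ((N (ph u) : ℝ) + 1 / 2) (lift f) u) + (33 * a + 1) * μ G := by
        rw [lintegral_add_right _ measurable_const, setLIntegral_const, hvolG,
          lintegral_const_mul' _ _ (by norm_num), lintegral_add_left hAm]
    _ ≤ 8 * ((4 * K1 * a + 12 * K2) + (4 * K1 * a + 12 * K2)) + (33 * a + 1) * 1 := by
        gcongr
    _ = 64 * K1 * a + 192 * K2 + 33 * a + 1 := by ring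
    _ ≤ 64 * K1 * a + 192 * K2 + 33 * (n * a) + 4 * E := by
        gcongr
        calc a = 1 * a := (one_mul _).symm
          _ ≤ n * a := by gcongr
    _ = (64 * ENNReal.ofReal B + 33) * (n * a) + (192 * ENNReal.ofReal B + 4) * E := by
        rw [hK1', hK2']
        ring
    _ ≤ (256 * ENNReal.ofReal B + 136) * (n * a) + (256 * ENNReal.ofReal B + 136) * E := by
        gcongr <;> norm_num
    _ = (256 * ENNReal.ofReal B + 136) * (n * a + E) := by ring
    _ = _ := by
        congr 1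
        rw [← ENNReal.ofReal_coe_nnreal, Real.coe_toNNReal _ (by positivity),
          ENNReal.ofReal_add (by positivity) (by norm_num), ENNReal.ofReal_mul (by norm_num)]
        norm_num

end Crest.Agent.R100.MM800
end
end

-- ▼ part R100/Multi1_701
section

/-!
# R100 / S0132, new outer shell, part 1 (helper701): the strong multi-level bound on the circle
implies the a.e. convergence for `L log L`.

`StrongMulti T`: for `|f| ≤ 2^n` and `Mf ≤ 1` on `G`,
`∫_G |S_{N(x)} f(x)| ≤ A (n ∫ |f| + n / (1 + log n)^2)`.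
No weak type loss: the pieces `f_j = f 1_{2^{2^j} < |f| ≤ 2^{2^{j+1}}}` are summed in `L¹(G)`.
-/

set_option autoImplicit false

open MeasureTheory Set Filter Topology Metric
open scoped ENNReal NNReal

noncomputable section

namespace Crest.Agent.R100.Multi701

open Crest.Agent.R100.OneLevel403 Crest.Agent.R100.P2b800

variable {T : ℝ} [hT : Fact (0 < T)]

local notation "μ" => AddCircle.haarAddCircle (T := T)

/-- the error function of the multi-level bound -/
def er (n : ℕ) : ℝ := n / (1 + Real.log n) ^ 2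

/-- **strong multi-level bound on the circle** (`= MM800.StrongMulti T`) -/
def StrongMulti (T : ℝ) [hT : Fact (0 < T)] : Prop :=
  ∃ A : ℝ≥0, ∀ (n : ℕ) (_ : 1 ≤ n) (f : AddCircle T → ℂ) (_ : Measurable f)
    (_ : ∀ x, ‖f x‖ ≤ 2 ^ n) (G : Set (AddCircle T)) (_ : MeasurableSet G) (_ : MaxLe f G)
    (R : ℕ) (N : AddCircle T → ℕ) (_ : Measurable N) (_ : ∀ x, N x ≤ R),
    ∫⁻ x in G, ‖S f (N x) x‖ₑ ∂(AddCircle.haarAddCircle (T := T))
      ≤ A * (n * ∫⁻ x, ‖f x‖ₑ ∂(AddCircle.haarAddCircle (T := T)) + ENNReal.ofReal (er n))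

theorem StrongMulti_iff : MM800.StrongMulti T ↔ StrongMulti T := Iff.rfl

lemma er_nonneg (n : ℕ) : 0 ≤ er n := by
  unfold er; positivity

/-- a measurable selection of the largest partial sum among the first ones -/
def sel (f : AddCircle T → ℂ) : ℕ → AddCircle T → ℕ
  | 0 => fun _ => 0
  | R + 1 => fun x => if ‖S f (sel f R x) x‖ < ‖S f (R + 1) x‖ then R + 1 else sel f R x

lemma measurable_S_comp (f : AddCircle T → ℂ) {N : AddCircle T → ℕ} (hN : Measurable N) :
    Measurable fun x => S f (N x) x := by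
  have h3 : Measurable (fun p : AddCircle T × ℕ => S f p.2 p.1) := by
    refine measurable_from_prod_countable_left fun k => ?_
    exact (continuous_S f k).measurable
  have h4 : Measurable (fun x : AddCircle T => (x, N x)) := measurable_id.prodMk hN
  have h5 := h3.comp h4
  simpa only [Function.comp_def] using h5

lemma sel_le (f : AddCircle T → ℂ) (R : ℕ) (x : AddCircle T) : sel f R x ≤ R := by
  induction R with
  | zero => exact le_rfl
  | succ R ih =>
    unfold sel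
    split_ifs with h
    · exact le_rfl
    · exact ih.trans (Nat.le_succ R)

lemma measurable_sel (f : AddCircle T → ℂ) (R : ℕ) : Measurable (sel f R) := by
  induction R with
  | zero => exact measurable_const
  | succ R ih =>
    unfold sel
    refine Measurable.ite ?_ measurable_const ih
    exact measurableSet_lt (measurable_S_comp f ih).norm (continuous_S f (R + 1)).measurable.norm

lemma S_sel_succ (f : AddCircle T → ℂ) (R : ℕ) (x : AddCircle T) :
    ‖S f (sel f (R + 1) x) x‖ = max ‖S f (sel f R x) x‖ ‖S f (R + 1) x‖ := by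
  have : sel f (R + 1) x =
    if ‖S f (sel f R x) x‖ < ‖S f (R + 1) x‖ then R + 1 else sel f R x := rfl
  rw [this]
  split_ifs with h
  · rw [max_eq_right h.le]
  · rw [max_eq_left (not_lt.1 h)]

lemma S_le_sel (f : AddCircle T → ℂ) {N R : ℕ} (h : N ≤ R) (x : AddCircle T) :
    ‖S f N x‖ ≤ ‖S f (sel f R x) x‖ := by
  induction R with
  | zero =>
    have : N = 0 := by omega
    subst this
    exact le_rfl
  | succ R ih =>
    rw [S_sel_succ]
    rcases Nat.lt_or_ge N (R + 1) with h1 | h1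
    · exact (ih (by omega)).trans (le_max_left _ _)
    · have : N = R + 1 := by omega
      subst this
      exact le_max_right _ _

lemma C_eq_iSup_sel (f : AddCircle T → ℂ) (x : AddCircle T) :
    C f x = ⨆ R : ℕ, ‖S f (sel f R x) x‖ₑ := by
  unfold C
  refine le_antisymm (iSup_le fun N => ?_) (iSup_le fun R => ?_)
  · refine le_trans ?_ (le_iSup (fun R => ‖S f (sel f R x) x‖ₑ) N)
    rw [← ofReal_norm, ← ofReal_norm]
    exact ENNReal.ofReal_le_ofReal (S_le_sel f le_rfl x)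
  · exact le_iSup (fun N => ‖S f N x‖ₑ) (sel f R x)

/-- the maximal function form -/
lemma lint_C_le {f : AddCircle T → ℂ} {G : Set (AddCircle T)} {K : ℝ≥0∞}
    (h : ∀ (R : ℕ) (N : AddCircle T → ℕ) (_ : Measurable N) (_ : ∀ x, N x ≤ R),
      ∫⁻ x in G, ‖S f (N x) x‖ₑ ∂μ ≤ K) :
    ∫⁻ x in G, C f x ∂μ ≤ K := by
  have h1 : ∫⁻ x in G, C f x ∂μ = ∫⁻ x in G, ⨆ R : ℕ, ‖S f (sel f R x) x‖ₑ ∂μ :=
    lintegral_congr fun x => C_eq_iSup_sel f x
  rw [h1, lintegral_iSup (fun R => (measurable_S_comp f (measurable_sel f R)).enorm)]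
  · exact iSup_le fun R => h R _ (measurable_sel f R) (sel_le f R)
  · refine monotone_nat_of_le_succ fun R x => ?_
    simp only
    rw [← ofReal_norm, ← ofReal_norm]
    apply ENNReal.ofReal_le_ofReal
    rw [S_sel_succ]
    exact le_max_left _ _

lemma maxLe_smul {f : AddCircle T → ℂ} {t : ℝ} (ht : 0 < t) {x : AddCircle T}
    (hx : ∀ r : ℝ, 0 < r → ∫⁻ y in closedBall x r, ‖f y‖ₑ ∂μ ≤
      ENNReal.ofReal t⁻¹ * μ (closedBall x r)) (r : ℝ) (hr : 0 < r) :
    ∫⁻ y in closedBall x r, ‖((t : ℝ) : ℂ) * f y‖ₑ ∂μ ≤ μ (closedBall x r) := by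
  have hge : ∀ y, ‖((t : ℝ) : ℂ) * f y‖ₑ = ENNReal.ofReal t * ‖f y‖ₑ := by
    intro y
    rw [enorm_mul, ← ofReal_norm ((t : ℝ) : ℂ), Complex.norm_real, Real.norm_of_nonneg ht.le]
  simp only [hge]
  rw [lintegral_const_mul' _ _ ENNReal.ofReal_ne_top]
  calc ENNReal.ofReal t * ∫⁻ y in closedBall x r, ‖f y‖ₑ ∂μ
      ≤ ENNReal.ofReal t * (ENNReal.ofReal t⁻¹ * μ (closedBall x r)) := by
        gcongr
        exact hx r hr
    _ = μ (closedBall x r) := by
        rw [← mul_assoc, ← ENNReal.ofReal_mul ht.le, mul_inv_cancel₀ ht.ne']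
        simp

/-- scaled form of the multi-level bound -/
lemma scaled {A : ℝ≥0} (hA : ∀ (n : ℕ) (_ : 1 ≤ n) (f : AddCircle T → ℂ) (_ : Measurable f)
    (_ : ∀ x, ‖f x‖ ≤ 2 ^ n) (G : Set (AddCircle T)) (_ : MeasurableSet G) (_ : MaxLe f G)
    (R : ℕ) (N : AddCircle T → ℕ) (_ : Measurable N) (_ : ∀ x, N x ≤ R),
    ∫⁻ x in G, ‖S f (N x) x‖ₑ ∂μ ≤ A * (n * ∫⁻ x, ‖f x‖ₑ ∂μ + ENNReal.ofReal (er n)))
    {n : ℕ} (hn : 1 ≤ n) {f : AddCircle T → ℂ} (hf : Measurable f) {B : ℝ} (hB : ∀ x, ‖f x‖ ≤ B)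
    {t : ℝ} (ht : 0 < t) (htB : t * B ≤ 2 ^ n) :
    ∃ G : Set (AddCircle T), MeasurableSet G ∧
      μ Gᶜ ≤ ENNReal.ofReal (5 * (t * ∫ x, ‖f x‖ ∂μ)) ∧
      ∫⁻ x in G, C f x ∂μ ≤ ENNReal.ofReal (A * (n * ∫ x, ‖f x‖ ∂μ + er n / t)) := by
  set a : ℝ := ∫ x, ‖f x‖ ∂μ with ha
  have hfi : Integrable f μ := integrable_of_bdd hf hB
  have haI : ENNReal.ofReal a = ∫⁻ x, ‖f x‖ₑ ∂μ := ofReal_integral_norm_eq_lintegral_enorm hfi
  have ha0 : 0 ≤ a := integral_nonneg fun _ => norm_nonneg _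
  set E' : Set (AddCircle T) := {x | ∃ r : ℝ, 0 < r ∧
    ENNReal.ofReal t⁻¹ * μ (closedBall x r) < ∫⁻ y in closedBall x r, ‖f y‖ₑ ∂μ} with hE'
  have hw := weak_type f (ENNReal.ofReal t⁻¹)
  rw [← hE', ← haI] at hw
  refine ⟨(toMeasurable μ E')ᶜ, (measurableSet_toMeasurable _ _).compl, ?_, ?_⟩
  · rw [compl_compl, measure_toMeasurable]
    calc μ E' = ENNReal.ofReal t * (ENNReal.ofReal t⁻¹ * μ E') := by
          rw [← mul_assoc, ← ENNReal.ofReal_mul ht.le, mul_inv_cancel₀ ht.ne']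
          simp
      _ ≤ ENNReal.ofReal t * (5 * ENNReal.ofReal a) := by gcongr
      _ = ENNReal.ofReal (5 * (t * a)) := by
          rw [show (5 : ℝ≥0∞) = ENNReal.ofReal 5 by norm_num, ← ENNReal.ofReal_mul (by norm_num),
            ← ENNReal.ofReal_mul ht.le]
          congr 1; ring
  · refine lint_C_le fun R N hN hNR => ?_
    set G : Set (AddCircle T) := (toMeasurable μ E')ᶜ with hG
    have hGm : MeasurableSet G := (measurableSet_toMeasurable _ _).compl
    have hMax : MaxLe (fun y => ((t : ℝ) : ℂ) * f y) G := by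
      intro x hx r hr
      refine maxLe_smul ht (fun r hr => ?_) r hr
      by_contra hcon
      exact hx (subset_toMeasurable _ _ ⟨r, hr, not_le.1 hcon⟩)
    have hnorm : ∀ x, ‖((t : ℝ) : ℂ) * f x‖ = t * ‖f x‖ := by
      intro x
      rw [norm_mul, Complex.norm_real, Real.norm_of_nonneg ht.le]
    have h1 := hA n hn (fun y => ((t : ℝ) : ℂ) * f y) (hf.const_mul _) (fun x => by
      rw [hnorm]
      calc t * ‖f x‖ ≤ t * B := by gcongr; exact hB x
        _ ≤ 2 ^ n := htB) G hGm hMax R N hN hNR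
    have e1 : ∀ x, ‖S (fun y => ((t : ℝ) : ℂ) * f y) (N x) x‖ₑ =
        ENNReal.ofReal t * ‖S f (N x) x‖ₑ := by
      intro x
      rw [S_const_smul, enorm_mul, ← ofReal_norm ((t : ℝ) : ℂ), Complex.norm_real,
        Real.norm_of_nonneg ht.le]
    have e2 : ∀ x, ‖((t : ℝ) : ℂ) * f x‖ₑ = ENNReal.ofReal t * ‖f x‖ₑ := by
      intro x
      rw [enorm_mul, ← ofReal_norm ((t : ℝ) : ℂ), Complex.norm_real, Real.norm_of_nonneg ht.le]
    simp only [e1, e2] at h1
    rw [lintegral_const_mul' _ _ ENNReal.ofReal_ne_top,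
      lintegral_const_mul' _ _ ENNReal.ofReal_ne_top, ← haI] at h1
    calc ∫⁻ x in G, ‖S f (N x) x‖ₑ ∂μ
        = ENNReal.ofReal t⁻¹ * (ENNReal.ofReal t * ∫⁻ x in G, ‖S f (N x) x‖ₑ ∂μ) := by
          rw [← mul_assoc, ← ENNReal.ofReal_mul (inv_pos.2 ht).le, inv_mul_cancel₀ ht.ne']
          simp
      _ ≤ ENNReal.ofReal t⁻¹ * (A * (n * (ENNReal.ofReal t * ENNReal.ofReal a) +
            ENNReal.ofReal (er n))) := by gcongr
      _ = ENNReal.ofReal (A * (n * a + er n / t)) := by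
          have her := er_nonneg n
          rw [show (A : ℝ≥0∞) = ENNReal.ofReal (A : ℝ) by simp,
            show (n : ℝ≥0∞) = ENNReal.ofReal (n : ℝ) by simp,
            ← ENNReal.ofReal_mul ht.le, ← ENNReal.ofReal_mul (by positivity),
            ← ENNReal.ofReal_add (by positivity) her, ← ENNReal.ofReal_mul (by positivity),
            ← ENNReal.ofReal_mul (by positivity)]
          congr 1
          field_simp

/-- weights of the levels -/
def cw (f : AddCircle T → ℂ) (j : ℕ) : ℝ := 2 ^ j * anorm f j + 1 / ((j : ℝ) + 1) ^ 2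


lemma tsum_cw {f : AddCircle T → ℂ} (hf : Measurable f)
    (hlog : ∫⁻ x, ‖f x‖ₑ * ENNReal.ofReal (Real.log (2 + ‖f x‖)) ∂μ < ⊤) :
    ∑' j, ENNReal.ofReal (cw f j) ≠ ∞ := by
  have h0 : ∀ j, ENNReal.ofReal (cw f j) = ENNReal.ofReal (2 ^ j * anorm f j) +
      ENNReal.ofReal (1 / ((j : ℝ) + 1) ^ 2) := by
    intro j
    unfold cw
    rw [← ENNReal.ofReal_add (mul_nonneg (by positivity) (anorm_nonneg f j)) (by positivity)]
  simp_rw [h0]
  rw [ENNReal.tsum_add]
  refine ENNReal.add_ne_top.mpr ⟨tsum_anorm hf hlog, ?_⟩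
  have hs : Summable fun j : ℕ => 1 / ((j : ℝ) + 1) ^ 2 := by
    have h1 : Summable fun j : ℕ => 1 / (j : ℝ) ^ 2 := Real.summable_one_div_nat_pow.2 (by norm_num)
    have h2 := (summable_nat_add_iff 1).2 h1
    refine h2.congr fun j => ?_
    push_cast
    rfl
  rw [← ENNReal.ofReal_tsum_of_nonneg (fun j => by positivity) hs]
  exact ENNReal.ofReal_ne_top

lemma er_level (j : ℕ) : er (3 * 2 ^ j) / 2 ^ j ≤ 12 / ((j : ℝ) + 1) ^ 2 := by
  unfold er
  have h1 : ((j : ℝ) + 1) / 2 ≤ 1 + Real.log ((3 * 2 ^ j : ℕ) : ℝ) := by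
    push_cast
    rw [Real.log_mul (by norm_num) (by positivity), Real.log_pow]
    have h2 := Real.log_two_gt_d9
    have h3 : 0 ≤ Real.log 3 := Real.log_nonneg (by norm_num)
    have h4 : (0 : ℝ) ≤ j := Nat.cast_nonneg j
    nlinarith
  have h5 : (0 : ℝ) < ((j : ℝ) + 1) / 2 := by positivity
  have h6 : (((j : ℝ) + 1) / 2) ^ 2 ≤ (1 + Real.log ((3 * 2 ^ j : ℕ) : ℝ)) ^ 2 := by gcongr
  have h7 : (0 : ℝ) < (((j : ℝ) + 1) / 2) ^ 2 := by positivity
  rw [div_div]
  have h8 : (0 : ℝ) < 2 ^ j := by positivity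
  calc ((3 * 2 ^ j : ℕ) : ℝ) / ((1 + Real.log ((3 * 2 ^ j : ℕ) : ℝ)) ^ 2 * 2 ^ j)
      ≤ ((3 * 2 ^ j : ℕ) : ℝ) / ((((j : ℝ) + 1) / 2) ^ 2 * 2 ^ j) := by gcongr
    _ = 12 / ((j : ℝ) + 1) ^ 2 := by
        push_cast
        field_simp
        norm_num

/-- the maximal function of the part above level `j0` is small. -/
lemma measure_C_top_le {A : ℝ≥0} (hA : ∀ (n : ℕ) (_ : 1 ≤ n) (f : AddCircle T → ℂ)
    (_ : Measurable f)
    (_ : ∀ x, ‖f x‖ ≤ 2 ^ n) (G : Set (AddCircle T)) (_ : MeasurableSet G) (_ : MaxLe f G)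
    (R : ℕ) (N : AddCircle T → ℕ) (_ : Measurable N) (_ : ∀ x, N x ≤ R),
    ∫⁻ x in G, ‖S f (N x) x‖ₑ ∂μ ≤ A * (n * ∫⁻ x, ‖f x‖ₑ ∂μ + ENNReal.ofReal (er n)))
    {f : AddCircle T → ℂ} (hf : Measurable f)
    (hlog : ∫⁻ x, ‖f x‖ₑ * ENNReal.ofReal (Real.log (2 + ‖f x‖)) ∂μ < ⊤)
    (j0 : ℕ) (t : ℝ≥0∞) (ht0 : t ≠ 0) (htt : t ≠ ∞) :
    μ {x | t < C (top f j0) x} ≤
      (5 + ENNReal.ofReal (12 * A) / t) * ∑' i, ENNReal.ofReal (cw f (i + j0)) := by
  have hint : ∀ i, Integrable (part f (j0 + i)) μ := fun i =>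
    integrable_of_bdd (measurable_part hf _) (norm_part_le f _)
  have hsum : Summable fun i => ∫ x, ‖part f (j0 + i) x‖ ∂μ := by
    have h1 : Summable fun j => 2 ^ j * anorm f j := by
      have h2 := tsum_anorm hf hlog
      have h3 := ENNReal.summable_toReal h2
      refine h3.congr fun j => ?_
      exact ENNReal.toReal_ofReal (mul_nonneg (by positivity) (anorm_nonneg f j))
    have h4 : Summable fun i => 2 ^ (j0 + i) * anorm f (j0 + i) :=
      h1.comp_injective (add_right_injective j0)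
    refine Summable.of_nonneg_of_le (fun i => anorm_nonneg f (j0 + i)) (fun i => ?_) h4
    have h5 : (1 : ℝ) ≤ 2 ^ (j0 + i) := one_le_pow₀ (by norm_num)
    exact le_mul_of_one_le_left (anorm_nonneg f (j0 + i)) h5
  have hlev : ∀ i, ∃ G : Set (AddCircle T), MeasurableSet G ∧
      μ Gᶜ ≤ 5 * ENNReal.ofReal (cw f (i + j0)) ∧
      ∫⁻ x in G, C (part f (j0 + i)) x ∂μ ≤
        ENNReal.ofReal (12 * A) * ENNReal.ofReal (cw f (i + j0)) := by
    intro i
    set j := j0 + i with hj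
    have hji : i + j0 = j := by omega
    rw [hji]
    have hj1 : j ≤ 2 ^ j := Nat.lt_two_pow_self.le
    obtain ⟨G, hG, h1, h2⟩ := scaled hA (n := 3 * 2 ^ j) (by
      have : 0 < 2 ^ j := by positivity
      omega) (measurable_part hf j) (norm_part_le f j) (t := 2 ^ j) (by positivity) (by
      rw [← pow_add]
      refine pow_le_pow_right₀ (by norm_num) ?_
      rw [pow_succ]; omega)
    change μ Gᶜ ≤ ENNReal.ofReal (5 * (2 ^ j * anorm f j)) at h1
    change _ ≤ ENNReal.ofReal (A * (((3 * 2 ^ j : ℕ) : ℝ) * anorm f j + er (3 * 2 ^ j) / 2 ^ j)) at h2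
    have han := anorm_nonneg f j
    refine ⟨G, hG, h1.trans ?_, h2.trans ?_⟩
    · rw [show (5 : ℝ≥0∞) = ENNReal.ofReal 5 by norm_num, ← ENNReal.ofReal_mul (by norm_num)]
      apply ENNReal.ofReal_le_ofReal
      unfold cw
      have : (0 : ℝ) ≤ 1 / ((j : ℝ) + 1) ^ 2 := by positivity
      linarith
    · rw [← ENNReal.ofReal_mul (by positivity)]
      apply ENNReal.ofReal_le_ofReal
      have h3 := er_level j
      have hA0 : (0 : ℝ) ≤ A := A.coe_nonneg
      calc (A : ℝ) * (((3 * 2 ^ j : ℕ) : ℝ) * anorm f j + er (3 * 2 ^ j) / 2 ^ j)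
          ≤ A * (((3 * 2 ^ j : ℕ) : ℝ) * anorm f j + 12 / ((j : ℝ) + 1) ^ 2) := by gcongr
        _ ≤ A * (12 * (2 ^ j * anorm f j) + 12 / ((j : ℝ) + 1) ^ 2) := by
            refine mul_le_mul_of_nonneg_left (add_le_add ?_ le_rfl) hA0
            push_cast
            have : (0 : ℝ) ≤ 2 ^ j * anorm f j := by positivity
            nlinarith
        _ = 12 * A * cw f j := by unfold cw; ring
  choose G hG hG1 hG2 using hlev
  set H : Set (AddCircle T) := ⋂ i, G i with hH
  have hHm : MeasurableSet H := MeasurableSet.iInter hG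
  set Sc := ∑' i, ENNReal.ofReal (cw f (i + j0)) with hSc
  have hHc : μ Hᶜ ≤ 5 * Sc := by
    rw [hH, compl_iInter]
    refine (measure_iUnion_le _).trans ?_
    rw [hSc, ← ENNReal.tsum_mul_left]
    exact ENNReal.tsum_le_tsum hG1
  have hHi : ∫⁻ x in H, C (top f j0) x ∂μ ≤ ENNReal.ofReal (12 * A) * Sc := by
    calc ∫⁻ x in H, C (top f j0) x ∂μ ≤ ∫⁻ x in H, ∑' i, C (part f (j0 + i)) x ∂μ := by
          refine lintegral_mono fun x => ?_
          have := C_tsum_le hint hsum x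
          have he : (fun y => ∑' i, part f (j0 + i) y) = top f j0 := by
            ext y; exact tsum_part f j0 y
          rwa [he] at this
      _ = ∑' i, ∫⁻ x in H, C (part f (j0 + i)) x ∂μ :=
          lintegral_tsum fun i => (measurable_C _).aemeasurable
      _ ≤ ∑' i, ∫⁻ x in G i, C (part f (j0 + i)) x ∂μ :=
          ENNReal.tsum_le_tsum fun i => lintegral_mono_set (iInter_subset _ i)
      _ ≤ ∑' i, ENNReal.ofReal (12 * A) * ENNReal.ofReal (cw f (i + j0)) :=
          ENNReal.tsum_le_tsum hG2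
      _ = _ := ENNReal.tsum_mul_left
  have hsub : {x | t < C (top f j0) x} ⊆ Hᶜ ∪ {x | t ≤ H.indicator (C (top f j0)) x} := by
    intro x hx
    by_cases hxH : x ∈ H
    · right
      rw [mem_ofPred_eq, indicator_of_mem hxH]
      exact (show t < C (top f j0) x from hx).le
    · exact Or.inl hxH
  refine (measure_mono hsub).trans ((measure_union_le _ _).trans ?_)
  rw [add_mul]
  refine add_le_add hHc ?_
  refine (meas_ge_le_lintegral_div ((measurable_C _).indicator hHm).aemeasurable ht0 htt).trans ?_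
  rw [lintegral_indicator hHm, ENNReal.div_le_iff ht0 htt]
  refine hHi.trans (le_of_eq ?_)
  rw [mul_right_comm, ENNReal.div_mul_cancel ht0 htt]

/-- bounded functions are approximated by trigonometric polynomials with small maximal function -/
lemma exists_good_poly_bdd {A : ℝ≥0} (hA : ∀ (n : ℕ) (_ : 1 ≤ n) (f : AddCircle T → ℂ)
    (_ : Measurable f)
    (_ : ∀ x, ‖f x‖ ≤ 2 ^ n) (G : Set (AddCircle T)) (_ : MeasurableSet G) (_ : MaxLe f G)
    (R : ℕ) (N : AddCircle T → ℕ) (_ : Measurable N) (_ : ∀ x, N x ≤ R),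
    ∫⁻ x in G, ‖S f (N x) x‖ₑ ∂μ ≤ A * (n * ∫⁻ x, ‖f x‖ₑ ∂μ + ENNReal.ofReal (er n)))
    {g : AddCircle T → ℂ} (hg : Measurable g) {R : ℝ} (hR : 0 < R) (hb : ∀ x, ‖g x‖ ≤ R)
    (ε δ : ℝ≥0∞) (hε0 : ε ≠ 0) (hε : ε ≠ ∞) (hδ0 : δ ≠ 0) :
    ∃ P : C(AddCircle T, ℂ), P ∈ Submodule.span ℂ (range (@fourier T)) ∧
      μ {x | ε < C (fun y => g y - P y) x} ≤ δ ∧
      ∫⁻ x, ‖g x - P x‖ₑ ∂μ ≤ δ := by
  set M : ℝ := 2 * R + 1 with hM
  have hMpos : 0 < M := by positivity
  have h01 : Tendsto (fun k : ℕ => (k : ℝ) * (1 / 2) ^ k) atTop (𝓝 0) :=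
    tendsto_self_mul_const_pow_of_lt_one (by norm_num) (by norm_num)
  have h02 : Tendsto (fun k : ℕ => ((1 / 2 : ℝ)) ^ k) atTop (𝓝 0) :=
    tendsto_pow_atTop_nhds_zero_of_lt_one (by norm_num) (by norm_num)
  have hlim : Tendsto (fun k : ℕ => (2 * A * M * (k * (1 / 2) ^ k) : ℝ)) atTop (𝓝 0) := by
    simpa using h01.const_mul (2 * A * M : ℝ)
  have hlim1 : Tendsto (fun k : ℕ => (5 * (1 / 2) ^ k : ℝ)) atTop (𝓝 0) := by
    simpa using h02.const_mul (5 : ℝ)
  have hlim2 : Tendsto (fun k : ℕ => (M * (1 / 2) ^ k : ℝ)) atTop (𝓝 0) := by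
    simpa using h02.const_mul M
  have ev : ∀ (u : ℕ → ℝ) (c : ℝ≥0∞), c ≠ 0 → Tendsto u atTop (𝓝 0) →
      ∀ᶠ k in atTop, ENNReal.ofReal (u k) ≤ c := by
    intro u c hc hu
    have h := (ENNReal.tendsto_ofReal hu)
    rw [ENNReal.ofReal_zero] at h
    exact (h.eventually (gt_mem_nhds (pos_iff_ne_zero.mpr hc))).mono fun k hk => le_of_lt hk
  have hδ2 : δ / 2 ≠ 0 := ENNReal.div_ne_zero.mpr ⟨hδ0, by norm_num⟩
  have hδε : δ / 2 * ε ≠ 0 := mul_ne_zero hδ2 hε0
  obtain ⟨k, hk1, hk2, hk3, hk4⟩ := ((ev _ _ hδε hlim).and ((ev _ _ hδ2 hlim1).and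
    ((ev _ _ hδ0 hlim2).and (eventually_ge_atTop 1)))).exists
  set η : ℝ := M * (1 / 4) ^ k with hη
  have hηpos : 0 < η := by positivity
  have hηle : η ≤ M * (1 / 2) ^ k := by
    rw [hη]
    gcongr
    norm_num
  obtain ⟨P, hP, hPb, hPi⟩ := exists_trig_approx hg hR hb hηpos
  have hmeas : Measurable fun y => g y - P y := hg.sub P.continuous.measurable
  refine ⟨P, hP, ?_, ?_⟩
  · set h : AddCircle T → ℂ := fun y => g y - P y with hh
    have h2k : (0 : ℝ) < 2 ^ k := by positivity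
    obtain ⟨G, hG, hG1, hG2⟩ := scaled hA (n := k) hk4 hmeas (B := M) (fun x => hPb x)
      (t := 2 ^ k / M) (by positivity) (by
        rw [div_mul_cancel₀ _ hMpos.ne'])
    have ha0 : 0 ≤ ∫ x, ‖g x - P x‖ ∂μ := integral_nonneg fun _ => norm_nonneg _
    have e24 : (2 : ℝ) ^ k * (1 / 4) ^ k = (1 / 2) ^ k := by
      rw [← mul_pow]; norm_num
    have hc1 : μ Gᶜ ≤ δ / 2 := by
      refine hG1.trans ((ENNReal.ofReal_le_ofReal ?_).trans hk2)
      calc 5 * (2 ^ k / M * ∫ x, ‖g x - P x‖ ∂μ) ≤ 5 * (2 ^ k / M * η) := by gcongr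
        _ = 5 * (2 ^ k * (1 / 4) ^ k) := by rw [hη]; field_simp
        _ = 5 * (1 / 2) ^ k := by rw [e24]
    have hk0 : (1 : ℝ) ≤ k := by exact_mod_cast hk4
    have herk : er k ≤ k := by
      unfold er
      have hl : 0 ≤ Real.log k := Real.log_nonneg hk0
      refine div_le_self (by linarith) ?_
      nlinarith
    have hc2 : ∫⁻ x in G, C h x ∂μ ≤ δ / 2 * ε := by
      refine hG2.trans ((ENNReal.ofReal_le_ofReal ?_).trans hk1)
      have hA0 : (0 : ℝ) ≤ A := A.coe_nonneg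
      calc (A : ℝ) * (k * (∫ x, ‖g x - P x‖ ∂μ) + er k / (2 ^ k / M))
          ≤ A * (k * (M * (1 / 2) ^ k) + k / (2 ^ k / M)) := by
            gcongr
            exact hPi.trans hηle
        _ = 2 * A * M * (k * (1 / 2) ^ k) := by
            have : (k : ℝ) / (2 ^ k / M) = M * (k * (1 / 2) ^ k) := by
              rw [one_div_pow]; field_simp
            rw [this]; ring
    have hsub : {x | ε < C h x} ⊆ Gᶜ ∪ {x | ε ≤ G.indicator (C h) x} := by
      intro x hx
      by_cases hxG : x ∈ G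
      · right
        rw [mem_ofPred_eq, indicator_of_mem hxG]
        exact (show ε < C h x from hx).le
      · exact Or.inl hxG
    refine (measure_mono hsub).trans ((measure_union_le _ _).trans ?_)
    calc _ ≤ δ / 2 + δ / 2 := by
          refine add_le_add hc1 ?_
          refine (meas_ge_le_lintegral_div ((measurable_C _).indicator hG).aemeasurable
            hε0 hε).trans ?_
          rw [lintegral_indicator hG, ENNReal.div_le_iff hε0 hε]
          exact hc2
      _ = δ := ENNReal.add_halves δ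
  · refine le_trans (le_of_eq ?_) ((ENNReal.ofReal_le_ofReal (hPi.trans hηle)).trans hk3)
    rw [ofReal_integral_norm_eq_lintegral_enorm (integrable_of_bdd hmeas hPb)]

lemma lintegral_top_le {f : AddCircle T → ℂ} (hf : Measurable f) (j0 : ℕ) :
    ∫⁻ x, ‖top f j0 x‖ₑ ∂μ ≤ ∑' i, ENNReal.ofReal (cw f (i + j0)) := by
  calc ∫⁻ x, ‖top f j0 x‖ₑ ∂μ
      ≤ ∫⁻ x, ∑' i, ‖part f (j0 + i) x‖ₑ ∂μ := by
        refine lintegral_mono fun x => ?_
        rw [← tsum_part]
        exact enorm_tsum_le_tsum_enorm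
    _ = ∑' i, ∫⁻ x, ‖part f (j0 + i) x‖ₑ ∂μ :=
        lintegral_tsum fun i => (measurable_part hf _).enorm.aemeasurable
    _ ≤ ∑' i, ENNReal.ofReal (cw f (i + j0)) := by
        refine ENNReal.tsum_le_tsum fun i => ?_
        rw [← ofReal_integral_norm_eq_lintegral_enorm (integrable_of_bdd (measurable_part hf _)
          (norm_part_le f _))]
        refine ENNReal.ofReal_le_ofReal ?_
        change anorm f (j0 + i) ≤ _
        unfold cw
        rw [add_comm i j0]
        have ha := anorm_nonneg f (j0 + i)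
        have h5 : (1 : ℝ) ≤ 2 ^ (j0 + i) := one_le_pow₀ (by norm_num)
        have h6 : (0 : ℝ) ≤ 1 / (((j0 + i : ℕ) : ℝ) + 1) ^ 2 := by positivity
        nlinarith

/-- `L log L` functions are approximated by trigonometric polynomials with small maximal
function -/
lemma exists_good_poly (hSM : StrongMulti T) {f : AddCircle T → ℂ} (hf : Measurable f)
    (hlog : ∫⁻ x, ‖f x‖ₑ * ENNReal.ofReal (Real.log (2 + ‖f x‖)) ∂μ < ⊤)
    (hfi : Integrable f μ)
    (ε δ : ℝ≥0∞) (hε0 : ε ≠ 0) (hε : ε ≠ ∞) (hδ0 : δ ≠ 0) (hδ : δ ≠ ∞) :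
    ∃ P : C(AddCircle T, ℂ), P ∈ Submodule.span ℂ (range (@fourier T)) ∧
      μ {x | ε < C (fun y => f y - P y) x} ≤ δ ∧
      μ {x | ε ≤ ‖f x - P x‖ₑ} ≤ δ := by
  obtain ⟨A, hA⟩ := hSM
  have hcc := tsum_cw hf hlog
  have hε2 : ε / 2 ≠ 0 := ENNReal.div_ne_zero.mpr ⟨hε0, by norm_num⟩
  have hε2t : ε / 2 ≠ ∞ := ENNReal.div_ne_top hε (by norm_num)
  have hδ2 : δ / 2 ≠ 0 := ENNReal.div_ne_zero.mpr ⟨hδ0, by norm_num⟩
  have hδ2t : δ / 2 ≠ ∞ := ENNReal.div_ne_top hδ (by norm_num)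
  -- choose the level
  have htail := ENNReal.tendsto_sum_nat_add (fun j => ENNReal.ofReal (cw f j)) hcc
  have hKt : (5 : ℝ≥0∞) + ENNReal.ofReal (12 * A) / (ε / 2) ≠ ⊤ :=
    ENNReal.add_ne_top.2 ⟨by norm_num, ENNReal.div_ne_top ENNReal.ofReal_ne_top hε2⟩
  have htail' : Tendsto (fun j0 => ((5 : ℝ≥0∞) + ENNReal.ofReal (12 * A) / (ε / 2)) *
      ∑' i, ENNReal.ofReal (cw f (i + j0))) atTop (𝓝 0) := by
    have := ENNReal.Tendsto.const_mul (a := (5 : ℝ≥0∞) + ENNReal.ofReal (12 * A) / (ε / 2)) htail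
      (Or.inr hKt)
    simpa only [mul_zero] using this
  have hpos1 : 0 < (δ / 2) * (ε / 2) := pos_iff_ne_zero.mpr (mul_ne_zero hδ2 hε2)
  obtain ⟨j0, hj1, hj2⟩ := ((htail'.eventually (gt_mem_nhds (pos_iff_ne_zero.2 hδ2))).and
    (htail.eventually (gt_mem_nhds hpos1))).exists
  set R : ℝ := 2 ^ (2 ^ j0) with hR
  have hRpos : 0 < R := by positivity
  set s : Set (AddCircle T) := {x | R < ‖f x‖} with hs
  have hsm : MeasurableSet s := measurableSet_lt measurable_const hf.norm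
  set g : AddCircle T → ℂ := sᶜ.indicator f with hg
  have hgm : Measurable g := hf.indicator hsm.compl
  have hgb : ∀ x, ‖g x‖ ≤ R := by
    intro x
    rw [hg]
    by_cases hx : x ∈ s
    · rw [indicator_of_notMem (by simpa using hx), norm_zero]; exact hRpos.le
    · rw [indicator_of_mem (by simpa using hx)]
      exact not_lt.mp hx
  have hfg : ∀ x, f x = top f j0 x + g x := by
    intro x
    have := congrFun (indicator_self_add_compl s f) x
    simpa [top, hg, hs, hR] using this.symm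
  set δ' : ℝ≥0∞ := min (δ / 2) ((δ / 2) * (ε / 2)) with hδ'
  have hδ'0 : δ' ≠ 0 := by
    rw [hδ']
    exact (lt_min (pos_iff_ne_zero.mpr hδ2) hpos1).ne'
  obtain ⟨P, hP, hP1, hP2⟩ := exists_good_poly_bdd hA hgm hRpos hgb (ε / 2) δ' hε2 hε2t hδ'0
  have htopi : Integrable (top f j0) μ := hfi.indicator hsm
  have hgi : Integrable g μ := integrable_of_bdd hgm hgb
  have hPi : Integrable (fun x => P x) μ :=
    P.continuous.integrable_of_hasCompactSupport (HasCompactSupport.of_compactSpace _)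
  refine ⟨P, hP, ?_, ?_⟩
  · have hsub : {x | ε < C (fun y => f y - P y) x} ⊆
        {x | ε / 2 < C (top f j0) x} ∪ {x | ε / 2 < C (fun y => g y - P y) x} := by
      intro x hx
      rw [mem_ofPred_eq] at hx
      by_contra hcon
      rw [mem_union, not_or, mem_ofPred_eq, mem_ofPred_eq, not_lt, not_lt] at hcon
      have h1 := C_add_le htopi (hgi.sub hPi) x
      have h2 : (fun y => top f j0 y + (g - fun x => P x) y) = fun y => f y - P y := by
        ext y
        rw [hfg y]; simp only [Pi.sub_apply]; ring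
      rw [h2] at h1
      have h3 : C (fun y => f y - P y) x ≤ ε / 2 + ε / 2 := h1.trans (add_le_add hcon.1 hcon.2)
      rw [ENNReal.add_halves] at h3
      exact absurd hx (not_lt.mpr h3)
    refine (measure_mono hsub).trans ((measure_union_le _ _).trans ?_)
    calc _ ≤ δ / 2 + δ / 2 := by
          refine add_le_add ?_ (hP1.trans (min_le_left _ _))
          exact (measure_C_top_le hA hf hlog j0 (ε / 2) hε2 hε2t).trans hj1.le
      _ = δ := ENNReal.add_halves δ
  · have hsub : {x | ε ≤ ‖f x - P x‖ₑ} ⊆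
        {x | ε / 2 ≤ ‖top f j0 x‖ₑ} ∪ {x | ε / 2 ≤ ‖g x - P x‖ₑ} := by
      intro x hx
      rw [mem_ofPred_eq] at hx
      by_contra hcon
      rw [mem_union, not_or, mem_ofPred_eq, mem_ofPred_eq, not_le, not_le] at hcon
      have h1 : ‖f x - P x‖ₑ ≤ ‖top f j0 x‖ₑ + ‖g x - P x‖ₑ := by
        have : f x - P x = top f j0 x + (g x - P x) := by rw [hfg x]; ring
        rw [this]; exact enorm_add_le _ _
      have h3 : ‖f x - P x‖ₑ < ε / 2 + ε / 2 := h1.trans_lt (ENNReal.add_lt_add hcon.1 hcon.2)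
      rw [ENNReal.add_halves] at h3
      exact absurd hx (not_le.mpr h3)
    refine (measure_mono hsub).trans ((measure_union_le _ _).trans ?_)
    have htm : Measurable (top f j0) := hf.indicator hsm
    calc _ ≤ δ / 2 + δ / 2 := by
          refine add_le_add ?_ ?_
          · refine (meas_ge_le_lintegral_div htm.enorm.aemeasurable hε2 hε2t).trans ?_
            rw [ENNReal.div_le_iff hε2 hε2t]
            exact (lintegral_top_le hf j0).trans hj2.le
          · refine (meas_ge_le_lintegral_div (hgm.sub P.continuous.measurable).enorm.aemeasurable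
              hε2 hε2t).trans ?_
            rw [ENNReal.div_le_iff hε2 hε2t]
            exact hP2.trans (min_le_right _ _)
      _ = δ := ENNReal.add_halves δ

/-- a.e. convergence, measurable version. -/
theorem ae_tendsto_of_StrongMulti' (hSM : StrongMulti T) {f : AddCircle T → ℂ} (hf : Measurable f)
    (hlog : ∫⁻ x, ‖f x‖ₑ * ENNReal.ofReal (Real.log (2 + ‖f x‖)) ∂μ < ⊤) :
    ∀ᵐ x ∂μ, Tendsto (fun N : ℕ => S f N x) atTop (𝓝 (f x)) := by
  have hfi : Integrable f μ := by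
    refine ⟨hf.aestronglyMeasurable, ?_⟩
    have hl2 : (0 : ℝ) < Real.log 2 := Real.log_pos (by norm_num)
    have h1 : ENNReal.ofReal (Real.log 2) * ∫⁻ x, ‖f x‖ₑ ∂μ < ⊤ := by
      rw [← lintegral_const_mul _ hf.enorm]
      refine lt_of_le_of_lt (lintegral_mono fun x => ?_) hlog
      rw [mul_comm]
      gcongr
      linarith [norm_nonneg (f x)]
    rw [HasFiniteIntegral]
    by_contra hcon
    rw [not_lt, top_le_iff] at hcon
    rw [hcon, ENNReal.mul_top (by simpa using hl2)] at h1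
    exact lt_irrefl _ h1
  have key : ∀ m : ℕ, μ {x | ∃ᶠ N : ℕ in atTop,
      ((m : ℝ≥0∞) + 1)⁻¹ + ((m : ℝ≥0∞) + 1)⁻¹ < ‖S f N x - f x‖ₑ} = 0 := by
    intro m
    set ε : ℝ≥0∞ := ((m : ℝ≥0∞) + 1)⁻¹ with hε
    have hε0 : ε ≠ 0 := ENNReal.inv_ne_zero.mpr (by
      exact ENNReal.add_ne_top.mpr ⟨ENNReal.natCast_ne_top m, ENNReal.one_ne_top⟩)
    have hεt : ε ≠ ∞ := ENNReal.inv_ne_top.mpr (by simp)
    have hle : ∀ δ : ℝ≥0∞, δ ≠ 0 → δ ≠ ∞ → μ {x | ∃ᶠ N : ℕ in atTop,
        ε + ε < ‖S f N x - f x‖ₑ} ≤ δ + δ := by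
      intro δ hδ0 hδ
      obtain ⟨P, hP, hP1, hP2⟩ := exists_good_poly hSM hf hlog hfi ε δ hε0 hεt hδ0 hδ
      refine (measure_mono ?_).trans ((measure_union_le _ _).trans (add_le_add hP1 hP2))
      intro x hx
      rw [mem_ofPred_eq] at hx
      by_contra hcon
      rw [mem_union, not_or, mem_ofPred_eq, mem_ofPred_eq, not_lt, not_le] at hcon
      refine hx ?_
      filter_upwards [S_span hP] with N hN
      rw [not_lt]
      have hPi : Integrable (fun x => P x) μ :=
        P.continuous.integrable_of_hasCompactSupport (HasCompactSupport.of_compactSpace _)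
      have h1 : S f N x = S (fun y => f y - P y) N x + P x := by
        have h2 := S_add (hfi.sub hPi) hPi N x
        have h3 : (fun y => (f - fun x => P x) y + P y) = f := by
          ext y; simp
        rw [h3] at h2
        rw [h2]
        congr 1
        exact hN x
      have h4 : S f N x - f x = S (fun y => f y - P y) N x - (f x - P x) := by rw [h1]; ring
      rw [h4]
      calc ‖S (fun y => f y - P y) N x - (f x - P x)‖ₑ
          ≤ ‖S (fun y => f y - P y) N x‖ₑ + ‖f x - P x‖ₑ := enorm_sub_le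
        _ ≤ ε + ε := add_le_add ((le_iSup (fun N => ‖S (fun y => f y - P y) N x‖ₑ) N).trans
            hcon.1) hcon.2.le
    refine le_antisymm (ENNReal.le_of_forall_pos_le_add fun r hr _ => ?_) bot_le
    have := hle (r / 2 : ℝ≥0) (by
      have : (0 : ℝ≥0) < r / 2 := by positivity
      exact_mod_cast this.ne') ENNReal.coe_ne_top
    rw [zero_add]
    refine this.trans (le_of_eq ?_)
    rw [← ENNReal.coe_add, add_halves]
  have hall : ∀ᵐ x ∂μ, ∀ m : ℕ, ¬ ∃ᶠ N : ℕ in atTop,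
      ((m : ℝ≥0∞) + 1)⁻¹ + ((m : ℝ≥0∞) + 1)⁻¹ < ‖S f N x - f x‖ₑ := by
    rw [ae_all_iff]
    intro m
    exact measure_eq_zero_iff_ae_notMem.mp (key m)
  filter_upwards [hall] with x hx
  rw [EMetric.tendsto_nhds]
  intro r hr
  obtain ⟨m, hm⟩ := ENNReal.exists_inv_nat_lt (a := r / 2)
    (ENNReal.div_ne_zero.mpr ⟨hr.ne', by norm_num⟩)
  have h1 := hx m
  rw [not_frequently] at h1
  filter_upwards [h1] with N hN
  rw [not_lt] at hN
  rw [edist_eq_enorm_sub]
  have h2 : ((m : ℝ≥0∞) + 1)⁻¹ < r / 2 := by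
    refine lt_of_le_of_lt ?_ hm
    exact ENNReal.inv_le_inv.mpr le_self_add
  calc ‖S f N x - f x‖ₑ ≤ ((m : ℝ≥0∞) + 1)⁻¹ + ((m : ℝ≥0∞) + 1)⁻¹ := hN
    _ < r / 2 + r / 2 := ENNReal.add_lt_add h2 h2
    _ = r := ENNReal.add_halves r

/-- **SH1**: the conclusion of S0132 from the strong multi-level bound. -/
theorem result_of_StrongMulti (hSM' : MM800.StrongMulti T) (f : AddCircle T → ℂ)
    (hf : AEStronglyMeasurable f μ)
    (hlog : ∫⁻ x, ‖f x‖ₑ * ENNReal.ofReal (Real.log (2 + ‖f x‖)) ∂μ < ⊤) :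
    ∀ᵐ x ∂μ, Tendsto
      (fun N : ℕ => ∑ k ∈ Finset.Icc (-(N : ℤ)) N, fourierCoeff f k • fourier k x)
      atTop (𝓝 (f x)) := by
  have hSM : StrongMulti T := StrongMulti_iff.1 hSM'
  have hae := hf.ae_eq_mk
  have hm : Measurable (hf.mk f) := hf.stronglyMeasurable_mk.measurable
  have hlog' : ∫⁻ x, ‖hf.mk f x‖ₑ * ENNReal.ofReal (Real.log (2 + ‖hf.mk f x‖)) ∂μ < ⊤ := by
    refine lt_of_le_of_lt (le_of_eq ?_) hlog
    refine lintegral_congr_ae ?_
    filter_upwards [hae] with x hx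
    rw [hx]
  filter_upwards [ae_tendsto_of_StrongMulti' hSM hm hlog', hae] with x hx hfx
  rw [hfx]
  have hco : fourierCoeff f = fourierCoeff (hf.mk f) := fourierCoeff_congr_ae hae
  simp_rw [hco]
  exact hx

/-- **the whole shell**: the conclusion of S0132 from the multi-level model bound. -/
theorem result_of_ModelMulti (hM : MM800.ModelMulti) (f : AddCircle T → ℂ)
    (hf : AEStronglyMeasurable f μ)
    (hlog : ∫⁻ x, ‖f x‖ₑ * ENNReal.ofReal (Real.log (2 + ‖f x‖)) ∂μ < ⊤) :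
    ∀ᵐ x ∂μ, Tendsto
      (fun N : ℕ => ∑ k ∈ Finset.Icc (-(N : ℤ)) N, fourierCoeff f k • fourier k x)
      atTop (𝓝 (f x)) :=
  result_of_StrongMulti (MM800.StrongMulti_of_ModelMulti hM) f hf hlog

end Crest.Agent.R100.Multi701
end
private theorem rz_1c36e12379 : type_of% @_root_.Crest.Agent.R100.Multi701.sel.eq_def := @_root_.Crest.Agent.R100.Multi701.sel.eq_def -- L45
end

-- ▼ part R100/Keep_281
section

/-!
# R100 / S0132, helper281: block B0 = (H) of doc 1968

`hunt_int`: the `L¹` norm of the linearised signed sums of a thin function (Hunt's bound off the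
set where the maximal function is large, crude Hunt bound on this set).
-/

set_option autoImplicit false

open MeasureTheory Set
open scoped ENNReal

noncomputable section

namespace Crest.Agent.R100.Keep281

open Crest.Agent.R100.Mart933 Crest.Agent.R100.Wide933 Crest.Agent.R100.Hunt933
open Crest.Agent.R100.Id833 Crest.Agent.R100.Local933

/-! ## weak type (1,1) on the tree -/

theorem weak_max {g : ℝ → ℂ} (hg : Measurable g) {M : ℝ} (hM : ∀ x, ‖g x‖ ≤ M) {lam : ℝ}
    (hlam : 0 < lam) (d : ℕ) : ∀ (k : ℕ) (j : ℤ),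
    volume {x ∈ Ivl k j | ∃ l, k ≤ l ∧ l ≤ k + d ∧ lam < avN g l (fl l x)} ≤
      ENNReal.ofReal ((∫ y in Ivl k j, ‖g y‖) / lam) := by
  have key : ∀ (k : ℕ) (j : ℤ), lam < avN g k j →
      volume (Ivl k j) ≤ ENNReal.ofReal ((∫ y in Ivl k j, ‖g y‖) / lam) := by
    intro k j h
    rw [volume_Ivl]
    apply ENNReal.ofReal_le_ofReal
    unfold avN at h
    rw [div_le_div_iff₀ (by positivity) hlam]
    nlinarith
  induction d with
  | zero =>
    intro k j
    by_cases h : lam < avN g k j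
    · exact (measure_mono fun x hx => hx.1).trans (key k j h)
    · have : {x ∈ Ivl k j | ∃ l, k ≤ l ∧ l ≤ k + 0 ∧ lam < avN g l (fl l x)} = ∅ := by
        ext x
        simp only [mem_ofPred_eq, mem_empty_iff_false, iff_false, not_and, not_exists]
        intro hx l h1 h2 h3
        have : l = k := by omega
        subst this
        rw [mem_Ivl.1 hx] at h3
        exact h h3
      rw [this]; simp
  | succ d ih =>
    intro k j
    by_cases h : lam < avN g k j
    · exact (measure_mono fun x hx => hx.1).trans (key k j h)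
    · have hsub : {x ∈ Ivl k j | ∃ l, k ≤ l ∧ l ≤ k + (d + 1) ∧ lam < avN g l (fl l x)} ⊆
          {x ∈ Ivl (k + 1) (2 * j) | ∃ l, k + 1 ≤ l ∧ l ≤ k + 1 + d ∧ lam < avN g l (fl l x)} ∪
          {x ∈ Ivl (k + 1) (2 * j + 1) |
            ∃ l, k + 1 ≤ l ∧ l ≤ k + 1 + d ∧ lam < avN g l (fl l x)} := by
        rintro x ⟨hx, l, h1, h2, h3⟩
        have hl : l ≠ k := by
          rintro rfl
          rw [mem_Ivl.1 hx] at h3
          exact h h3
        have hx' := hx
        rw [Ivl_split] at hx'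
        rcases hx' with hx' | hx'
        · exact Or.inl ⟨hx', l, by omega, by omega, h3⟩
        · exact Or.inr ⟨hx', l, by omega, by omega, h3⟩
      refine (measure_mono hsub).trans ((measure_union_le _ _).trans
        ((add_le_add (ih _ _) (ih _ _)).trans (le_of_eq ?_)))
      have hi : ∀ k j, IntegrableOn (fun y => ‖g y‖) (Ivl k j) := fun k j =>
        intOn k j hg.norm (M := M) (fun x => by simpa using hM x)
      rw [integral_Ivl hi k j, ← ENNReal.ofReal_add, add_div]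
      · exact div_nonneg (integral_nonneg fun x => norm_nonneg _) hlam.le
      · exact div_nonneg (integral_nonneg fun x => norm_nonneg _) hlam.le

/-! ## layers -/

theorem layer_le {A : Set ℝ} (hA : MeasurableSet A) {T : ℝ → ℝ≥0∞} {E : ℕ → Set ℝ}
    (hE : ∀ t, MeasurableSet (E t)) {a b : ℝ} (ha : 0 ≤ a) (hb : 0 < b)
    (h : ∀ (t : ℕ), ∀ x ∈ A, x ∉ E t → T x ≤ ENNReal.ofReal (a + b * t)) :
    ∫⁻ x in A, T x ≤ ENNReal.ofReal a * volume A + ENNReal.ofReal b * ∑' t, volume (E t) := by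
  classical
  have hp : ∀ x ∈ A, T x ≤
      ENNReal.ofReal a + ∑' t, (E t).indicator (fun _ => ENNReal.ofReal b) x := by
    intro x hx
    by_cases hex : ∃ t, x ∉ E t
    · set τ := Nat.find hex with hτ
      have h1 : x ∉ E τ := Nat.find_spec hex
      have h2 : ∀ t < τ, x ∈ E t := fun t ht => not_not.1 (Nat.find_min hex ht)
      refine (h τ x hx h1).trans ?_
      rw [ENNReal.ofReal_add ha (by positivity)]
      refine add_le_add le_rfl ?_
      refine le_trans (le_of_eq ?_) (ENNReal.sum_le_tsum (Finset.range τ))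
      rw [Finset.sum_congr rfl (g := fun _ => ENNReal.ofReal b) (fun t ht => by
        rw [indicator_of_mem (h2 t (Finset.mem_range.1 ht))])]
      rw [Finset.sum_const, Finset.card_range, nsmul_eq_mul, mul_comm b,
        ENNReal.ofReal_mul (by positivity), ENNReal.ofReal_natCast]
    · push Not at hex
      have : ∑' t, (E t).indicator (fun _ => ENNReal.ofReal b) x = ⊤ := by
        rw [tsum_congr (fun t => indicator_of_mem (hex t) _)]
        exact ENNReal.tsum_const_eq_top_of_ne_zero (by simpa using hb)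
      rw [this]
      simp
  calc ∫⁻ x in A, T x
      ≤ ∫⁻ x in A, (ENNReal.ofReal a + ∑' t, (E t).indicator (fun _ => ENNReal.ofReal b) x) :=
        setLIntegral_mono' hA hp
    _ = ENNReal.ofReal a * volume A +
        ∑' t, ∫⁻ x in A, (E t).indicator (fun _ => ENNReal.ofReal b) x := by
        rw [lintegral_add_left measurable_const, setLIntegral_const,
          lintegral_tsum fun t => (measurable_const.indicator (hE t)).aemeasurable]
    _ ≤ ENNReal.ofReal a * volume A + ∑' t, ENNReal.ofReal b * volume (E t) := by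
        gcongr with t
        rw [lintegral_indicator (hE t), setLIntegral_const]
        gcongr
        exact Measure.restrict_le_self
    _ = _ := by rw [ENNReal.tsum_mul_left]

theorem tsum_exp_le {D : ℝ} (hD : 0 ≤ D) {E : ℕ → Set ℝ}
    (hE : ∀ t : ℕ, volume (E t) ≤ ENNReal.ofReal (112 * Real.exp (-t) * D)) :
    ∑' t, volume (E t) ≤ ENNReal.ofReal (224 * D) := by
  have hs : Summable fun t : ℕ => 112 * D * (1 / 2 : ℝ) ^ t :=
    (summable_geometric_of_lt_one (by norm_num) (by norm_num)).mul_left _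
  calc ∑' t, volume (E t) ≤ ∑' t : ℕ, ENNReal.ofReal (112 * D * (1 / 2) ^ t) := by
        refine ENNReal.tsum_le_tsum fun t => (hE t).trans (ENNReal.ofReal_le_ofReal ?_)
        have := exp_neg_nat_le t
        calc 112 * Real.exp (-t) * D ≤ 112 * (1 / 2) ^ t * D := by gcongr
          _ = _ := by ring
    _ = ENNReal.ofReal (∑' t : ℕ, 112 * D * (1 / 2) ^ t) :=
        (ENNReal.ofReal_tsum_of_nonneg (fun t => by positivity) hs).symm
    _ = _ := by
        rw [tsum_mul_left, tsum_geometric_of_lt_one (by norm_num) (by norm_num)]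
        congr 1
        ring


theorem norm_hd_coef_le {g : ℝ → ℂ} (hg : Measurable g) {M : ℝ} (hM : ∀ x, ‖g x‖ ≤ M) (θ : ℝ)
    (k : ℕ) (j : ℤ) : ‖hd (coef g θ) k j‖ ≤ avN g k j := by
  have h2 := avN_split hg hM k j
  have h3 := norm_coef_le g θ (k + 1) (2 * j)
  have h4 := norm_coef_le g θ (k + 1) (2 * j + 1)
  unfold hd
  rw [norm_div, Complex.norm_ofNat]
  have h5 := norm_sub_le (coef g θ (k + 1) (2 * j)) (coef g θ (k + 1) (2 * j + 1))
  linarith

/-- **the `L¹` norm of the linearised signed sums of a thin function** -/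
theorem hunt_int {n : ℕ} {g : ℝ → ℂ} (hg : Measurable g) (hn : ∀ x, ‖g x‖ ≤ 2 ^ n)
    {al : ℕ → ℤ → Prop} (hcl : ∀ k j, al (k + 1) j → al k (j / 2))
    (hal : ∀ k j, al k j → avN g k j ≤ 1) {θ : ℝ → ℝ} (hfin : (range θ).Finite)
    (m j : ℕ) :
    ∫⁻ x in Ivl 0 0, ‖SS (coef g (θ x)) al 0 m x‖ₑ ≤
      ENNReal.ofReal (922532 * (n + j + 1) * (rr ^ j + 2 ^ j * ∫ y in Ivl 0 0, ‖g y‖)) := by
  classical
  set μ : ℝ := ∫ y in Ivl 0 0, ‖g y‖ with hμ
  have hμ0 : 0 ≤ μ := integral_nonneg fun x => norm_nonneg _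
  set Θ : Finset ℝ := hfin.toFinset with hΘ
  have hθΘ : ∀ x, θ x ∈ Θ := fun x => by rw [hΘ]; simp
  choose E1 hE1m hE1v hE1 using fun t : ℕ => hunt hg hn hcl hal (fun _ _ h => h) Θ 0 m t j
  choose E0 hE0m hE0v hE0 using fun t : ℕ => hunt hg hn hcl hal (fun _ _ h => h) Θ 0 m t 0
  set G : Set ℝ := {x ∈ Ivl 0 0 | ∃ l, 0 ≤ l ∧ l ≤ 0 + m ∧ (1 / 2 : ℝ) ^ j < avN g l (fl l x)} with hG
  have hGm : MeasurableSet G := by
    rw [hG, show {x ∈ Ivl 0 0 | ∃ l, 0 ≤ l ∧ l ≤ 0 + m ∧ (1 / 2 : ℝ) ^ j < avN g l (fl l x)} =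
      Ivl 0 0 ∩ ⋃ l ∈ Finset.range (m + 1), {x | (1 / 2 : ℝ) ^ j < avN g l (fl l x)} by
        ext x
        simp only [mem_ofPred_eq, mem_inter_iff, mem_iUnion, Finset.mem_range, exists_prop]
        constructor
        · rintro ⟨h1, l, _, h3, h4⟩
          exact ⟨h1, l, by omega, h4⟩
        · rintro ⟨h1, l, h3, h4⟩
          exact ⟨h1, l, by omega, by omega, h4⟩]
    refine (measurableSet_Ivl 0 0).inter (Finset.measurableSet_biUnion _ fun l _ => ?_)
    exact measurableSet_lt measurable_const (measurable_fl_comp l fun i => avN g l i)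
  have hGv : volume G ≤ ENNReal.ofReal (2 ^ j * μ) := by
    refine (weak_max hg hn (lam := (1 / 2) ^ j) (by positivity) m 0 0).trans (le_of_eq ?_)
    congr 1
    rw [← hμ, one_div, inv_pow, div_inv_eq_mul, mul_comm]
  have hG0 : G ⊆ Ivl 0 0 := fun x hx => hx.1
  have hr0 : 0 < rr ^ j := pow_pos rr_pos j
  have hr1 : rr ^ j ≤ 1 := pow_le_one₀ rr_pos.le rr_le_one
  -- outside `G`
  have h1 : ∫⁻ x in Ivl 0 0 \ G, ‖SS (coef g (θ x)) al 0 m x‖ₑ ≤
      ENNReal.ofReal (2041 * rr ^ j * (n + 3 * j + 1)) * volume (Ivl 0 0 \ G) +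
        ENNReal.ofReal (2041 * rr ^ j) * ∑' t, volume (E1 t) := by
    refine layer_le ((measurableSet_Ivl 0 0).diff hGm) hE1m (by positivity) (by positivity)
      fun t x hx hxE => ?_
    have h := hE1 t x hx.1 hxE (θ x) (hθΘ x) m le_rfl (fun l hl hal' => ?_)
    · rw [← ofReal_norm]
      apply ENNReal.ofReal_le_ofReal
      refine h.trans (le_of_eq ?_)
      ring
    · have h3 : avN g l (fl l x) ≤ (1 / 2) ^ j := by
        by_contra h4
        push Not at h4
        exact hx.2 ⟨hx.1, l, Nat.zero_le _, by omega, h4⟩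
      have h5 : (0 : ℝ) < (1 / 2) ^ j := by positivity
      exact ⟨((norm_coef_le g _ _ _).trans h3).trans (by linarith),
        ((norm_hd_coef_le hg hn _ _ _).trans h3).trans (by linarith)⟩
  have h2 : ∫⁻ x in G, ‖SS (coef g (θ x)) al 0 m x‖ₑ ≤
      ENNReal.ofReal (2041 * (n + 1)) * volume G + ENNReal.ofReal 2041 * ∑' t, volume (E0 t) := by
    refine layer_le hGm hE0m (by positivity) (by positivity) fun t x hx hxE => ?_
    have h := hE0 t x hx.1 hxE (θ x) (hθΘ x) m le_rfl (fun l hl hal' => ?_)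
    · rw [← ofReal_norm]
      apply ENNReal.ofReal_le_ofReal
      refine h.trans (le_of_eq ?_)
      simp only [pow_zero, Nat.cast_zero]
      ring
    · have h3 := hal _ _ hal'
      exact ⟨((norm_coef_le g _ _ _).trans h3).trans (by norm_num),
        ((norm_hd_coef_le hg hn _ _ _).trans h3).trans (by norm_num)⟩
  have h3 := tsum_exp_le hμ0 hE1v
  have h4 := tsum_exp_le hμ0 hE0v
  have h5 : volume (Ivl 0 0 \ G) ≤ 1 := by
    refine (measure_mono sdiff_subset).trans ?_
    rw [volume_Ivl]; simp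
  have h6 : ∫⁻ x in Ivl 0 0, ‖SS (coef g (θ x)) al 0 m x‖ₑ =
      (∫⁻ x in G, ‖SS (coef g (θ x)) al 0 m x‖ₑ) +
        ∫⁻ x in Ivl 0 0 \ G, ‖SS (coef g (θ x)) al 0 m x‖ₑ := by
    rw [← lintegral_inter_add_sdiff _ (Ivl 0 0) hGm, inter_eq_self_of_subset_right hG0]
  rw [h6]
  calc _ ≤ (ENNReal.ofReal (2041 * (n + 1)) * ENNReal.ofReal (2 ^ j * μ) +
        ENNReal.ofReal 2041 * ENNReal.ofReal (224 * μ)) +
        (ENNReal.ofReal (2041 * rr ^ j * (n + 3 * j + 1)) * 1 +
          ENNReal.ofReal (2041 * rr ^ j) * ENNReal.ofReal (224 * μ)) := by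
        refine add_le_add (h2.trans ?_) (h1.trans ?_) <;> gcongr
    _ = ENNReal.ofReal (2041 * (n + 1) * (2 ^ j * μ) + 2041 * (224 * μ) +
          (2041 * rr ^ j * (n + 3 * j + 1) + 2041 * rr ^ j * (224 * μ))) := by
        rw [mul_one, ← ENNReal.ofReal_mul (by positivity), ← ENNReal.ofReal_mul (by positivity),
          ← ENNReal.ofReal_mul (by positivity), ← ENNReal.ofReal_add (by positivity) (by positivity),
          ← ENNReal.ofReal_add (by positivity) (by positivity),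
          ← ENNReal.ofReal_add (by positivity) (by positivity)]
    _ ≤ _ := by
        apply ENNReal.ofReal_le_ofReal
        have h7 : (1 : ℝ) ≤ 2 ^ j := one_le_pow₀ (by norm_num)
        have h8 : μ ≤ 2 ^ j * μ := by nlinarith
        have h9 : rr ^ j * μ ≤ 2 ^ j * μ := by nlinarith
        have h10 : (0 : ℝ) ≤ n := by positivity
        have h11 : (0 : ℝ) ≤ j := by positivity
        have h12 : 0 ≤ 2 ^ j * μ := by positivity
        have e1 : (2 ^ j * μ) ≤ (n + j + 1) * (2 ^ j * μ) := by nlinarith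
        have e2 : (n + 1 : ℝ) * (2 ^ j * μ) ≤ (n + j + 1) * (2 ^ j * μ) := by
          apply mul_le_mul_of_nonneg_right _ h12; linarith
        have e3 : rr ^ j * (n + 3 * j + 1) ≤ 3 * ((n + j + 1) * rr ^ j) := by nlinarith
        have e4 : 0 ≤ (n + j + 1) * rr ^ j := by positivity
        nlinarith

theorem rr_eq : rr = (2 : ℝ) ^ (-(1 / 2) : ℝ) := by
  unfold rr
  rw [Real.sqrt_eq_rpow, one_div, Real.inv_rpow (by norm_num), Real.rpow_neg (by norm_num)]

/-- choice of the level -/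
theorem choose_level {μ : ℝ} (h0 : 0 < μ) (h1 : μ ≤ 1) :
    ∃ j : ℕ, (j + 2 : ℝ) * (rr ^ j + 2 ^ j * μ) ≤ 20 * μ ^ (1 / 8 : ℝ) := by
  set t : ℝ := Real.logb 2 (1 / μ) with ht
  have hinv : 1 ≤ 1 / μ := by rw [le_div_iff₀ h0]; linarith
  have ht0 : 0 ≤ t := Real.logb_nonneg (by norm_num) hinv
  have hμt : μ = (2 : ℝ) ^ (-t) := by
    rw [Real.rpow_neg (by norm_num), ht, Real.rpow_logb (by norm_num) (by norm_num) (by positivity)]
    simp
  set j : ℕ := ⌊t / 2⌋₊ with hj
  have hj1 : (j : ℝ) ≤ t / 2 := Nat.floor_le (by positivity)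
  have hj2 : t / 2 < j + 1 := Nat.lt_floor_add_one _
  refine ⟨j, ?_⟩
  have e1 : rr ^ j ≤ 2 ^ (1 / 2 : ℝ) * (2 : ℝ) ^ (-(t / 4)) := by
    rw [rr_eq, ← Real.rpow_natCast, ← Real.rpow_mul (by norm_num), ← Real.rpow_add (by norm_num)]
    apply Real.rpow_le_rpow_of_exponent_le (by norm_num)
    linarith
  have e2 : (2 : ℝ) ^ j * μ ≤ (2 : ℝ) ^ (-(t / 4)) := by
    rw [hμt, ← Real.rpow_natCast, ← Real.rpow_add (by norm_num)]
    apply Real.rpow_le_rpow_of_exponent_le (by norm_num)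
    linarith
  have e3 : (2 : ℝ) ^ (1 / 2 : ℝ) ≤ 3 / 2 := by
    rw [← Real.sqrt_eq_rpow]
    rw [Real.sqrt_le_left (by norm_num)]
    norm_num
  have e4 : (j + 2 : ℝ) ≤ 8 * (2 : ℝ) ^ (t / 8) := by
    have h2 : 1 + t / 8 * Real.log 2 ≤ (2 : ℝ) ^ (t / 8) := by
      rw [Real.rpow_def_of_pos (by norm_num)]
      have := Real.add_one_le_exp (Real.log 2 * (t / 8))
      linarith
    have h3 : (0.6931471803 : ℝ) < Real.log 2 := Real.log_two_gt_d9
    nlinarith
  have e5 : (2 : ℝ) ^ (t / 8) * (2 : ℝ) ^ (-(t / 4)) = μ ^ (1 / 8 : ℝ) := by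
    rw [hμt, ← Real.rpow_mul (by norm_num), ← Real.rpow_add (by norm_num)]
    congr 1
    ring
  have h4 : 0 < (2 : ℝ) ^ (-(t / 4)) := by positivity
  have h5 : 0 < (2 : ℝ) ^ (t / 8) := by positivity
  calc (j + 2 : ℝ) * (rr ^ j + 2 ^ j * μ)
      ≤ (8 * (2 : ℝ) ^ (t / 8)) * (3 / 2 * (2 : ℝ) ^ (-(t / 4)) + (2 : ℝ) ^ (-(t / 4))) := by
        have : 0 ≤ rr ^ j := pow_nonneg rr_pos.le j
        gcongr
        exact e1.trans (by gcongr)
    _ = 20 * ((2 : ℝ) ^ (t / 8) * (2 : ℝ) ^ (-(t / 4))) := by ring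
    _ = _ := by rw [e5]





end Crest.Agent.R100.Keep281
end
end

-- ▼ part R100/SH3_701

/-!
# R100 / S0132, SH3 (helper701): the core statement `CoreX` (helper916) together with the Hunt bound
(`HuntInt`, helper281) implies the multi-level model bound `ModelMulti`, hence S0132.
-/

set_option autoImplicit false

open MeasureTheory Set Filter Topology
open scoped ENNReal NNReal

noncomputable section

namespace Crest.Agent.R100.SH3701

open Crest.Agent.R100.Mart933 Crest.Agent.R100.Wide933 Crest.Agent.R100.Hunt933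
open Crest.Agent.R100.Local933 Crest.Agent.R100.Id833 Crest.Agent.R100.MM800
open Crest.Agent.R100.CoreX916

/-- **Hunt bound for thin functions** (helper281) -/
def HuntInt : Prop :=
  ∃ C : ℝ, 1 ≤ C ∧ ∀ (n : ℕ) (_ : 1 ≤ n) (g : ℝ → ℂ) (_ : Measurable g) (_ : ∀ x, ‖g x‖ ≤ 2 ^ n)
    (al : ℕ → ℤ → Prop) (_ : ∀ k j, al (k + 1) j → al k (j / 2))
    (_ : ∀ k j, al k j → avN g k j ≤ 1) (θ : ℝ → ℝ) (_ : Measurable θ) (_ : (range θ).Finite)
    (m j : ℕ),
    ∫⁻ x in Ivl 0 0, ‖SS (coef g (θ x)) al 0 m x‖ₑ ≤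
      ENNReal.ofReal (C * (n + j + 1) * (rr ^ j + 2 ^ j * ∫ y in Ivl 0 0, ‖g y‖))

theorem huntInt : HuntInt :=
  ⟨922532, by norm_num, fun _ _ _ hg hn _ hcl hal _ _ hfin m j =>
    Keep281.hunt_int hg hn hcl hal hfin m j⟩

/-! ## numbers -/

/-- choice of the truncation level -/
lemma choose_level {c : ℝ} (hc : 0 < c) (hc1 : c ≤ 1) {n : ℕ} (hn : 1 ≤ n) :
    ∃ j : ℕ, j ≤ n ∧ ∀ b : ℝ, 0 ≤ b → b ≤ (n : ℝ) ^ (-c) →
      rr ^ j + 2 ^ j * b ≤ 3 * (n : ℝ) ^ (-(c / 3)) := by
  have hn1 : (1 : ℝ) ≤ n := by exact_mod_cast hn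
  have hn0 : (0 : ℝ) < n := by linarith
  set u : ℝ := 2 * c / 3 * Real.logb 2 n with hu
  have hlog : 0 ≤ Real.logb 2 n := Real.logb_nonneg (by norm_num) hn1
  have hu0 : 0 ≤ u := by positivity
  set j : ℕ := ⌊u⌋₊ with hj
  have hju : (j : ℝ) ≤ u := Nat.floor_le hu0
  have huj : u < j + 1 := Nat.lt_floor_add_one u
  have h2n : (n : ℝ) = 2 ^ Real.logb 2 n := (Real.rpow_logb (by norm_num) (by norm_num) hn0).symm
  refine ⟨j, ?_, fun b hb0 hb => ?_⟩
  · have h1 : Real.logb 2 n ≤ n := by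
      rw [Real.logb_le_iff_le_rpow (by norm_num) hn0, Real.rpow_natCast]
      exact_mod_cast Nat.lt_two_pow_self.le
    have h2 : u ≤ n := by
      rw [hu]
      have : 2 * c / 3 ≤ 1 := by linarith
      nlinarith
    exact_mod_cast hju.trans h2
  · have hA : rr ^ j ≤ 3 / 2 * (n : ℝ) ^ (-(c / 3)) := by
      have h1 : rr ^ j = (2 : ℝ) ^ (-((j : ℝ) / 2)) := by
        unfold rr
        rw [Real.sqrt_eq_rpow, ← Real.rpow_natCast, ← Real.rpow_mul (by norm_num),
          one_div, ← Real.rpow_neg_one 2, ← Real.rpow_mul (by norm_num)]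
        congr 1
        ring
      rw [h1]
      have h3 : (n : ℝ) ^ (-(c / 3)) = (2 : ℝ) ^ (-(u / 2)) := by
        conv_lhs => rw [h2n]
        rw [← Real.rpow_mul (by norm_num)]
        congr 1
        rw [hu]; ring
      rw [h3]
      have h4 : (2 : ℝ) ^ (-((j : ℝ) / 2)) ≤ (2 : ℝ) ^ (1 / 2 + -(u / 2) : ℝ) :=
        Real.rpow_le_rpow_of_exponent_le (by norm_num) (by linarith)
      refine h4.trans ?_
      rw [Real.rpow_add (by norm_num)]
      gcongr
      rw [← Real.sqrt_eq_rpow]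
      rw [Real.sqrt_le_left (by norm_num)]
      norm_num
    have hB : (2 : ℝ) ^ j * b ≤ (n : ℝ) ^ (-(c / 3)) := by
      have h1 : (2 : ℝ) ^ j ≤ (n : ℝ) ^ (2 * c / 3) := by
        conv_rhs => rw [h2n]
        rw [← Real.rpow_mul (by norm_num), ← Real.rpow_natCast]
        refine Real.rpow_le_rpow_of_exponent_le (by norm_num) ?_
        calc (j : ℝ) ≤ u := hju
          _ = _ := by rw [hu]; ring
      calc (2 : ℝ) ^ j * b ≤ (n : ℝ) ^ (2 * c / 3) * (n : ℝ) ^ (-c) := by gcongr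
        _ = (n : ℝ) ^ (-(c / 3)) := by
            rw [← Real.rpow_add hn0]
            congr 1
            ring
    have h0 : 0 ≤ (n : ℝ) ^ (-(c / 3)) := by positivity
    linarith

lemma log_sq_le {c : ℝ} (hc : 0 < c) : ∃ K : ℝ, 0 < K ∧ ∀ n : ℕ, 1 ≤ n →
    (n : ℝ) ^ (-(c / 3)) ≤ K / (1 + Real.log n) ^ 2 := by
  refine ⟨(1 + 6 / c) ^ 2, by positivity, fun n hn => ?_⟩
  have hn1 : (1 : ℝ) ≤ n := by exact_mod_cast hn
  have hn0 : (0 : ℝ) < n := by linarith
  have hl : 0 ≤ Real.log n := Real.log_nonneg hn1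
  have h1 : Real.log n ≤ (n : ℝ) ^ (c / 6) / (c / 6) := Real.log_le_rpow_div hn0.le (by positivity)
  have h2 : 1 ≤ (n : ℝ) ^ (c / 6) := Real.one_le_rpow hn1 (by positivity)
  have h3 : 1 + Real.log n ≤ (1 + 6 / c) * (n : ℝ) ^ (c / 6) := by
    have : (n : ℝ) ^ (c / 6) / (c / 6) = 6 / c * (n : ℝ) ^ (c / 6) := by field_simp
    rw [this] at h1
    nlinarith
  rw [Real.rpow_neg hn0.le, inv_eq_one_div, div_le_div_iff₀ (by positivity) (by positivity), one_mul]
  have h4 : (n : ℝ) ^ (c / 3) = ((n : ℝ) ^ (c / 6)) ^ 2 := by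
    rw [← Real.rpow_natCast, ← Real.rpow_mul hn0.le]
    congr 1
    push_cast; ring
  rw [h4, ← mul_pow]
  gcongr

/-! ## the reduction -/

theorem Ivl00 : Ivl 0 0 = Ico (0 : ℝ) 1 := by
  unfold Ivl
  simp

/-- the real form of the linearised integral -/
lemma lint_eq {f : ℝ → ℂ} (hf : Measurable f) {M : ℝ} (hM : ∀ x, ‖f x‖ ≤ M) {θ : ℝ → ℝ}
    (hθ : Measurable θ) (al : ℕ → ℤ → Prop) (m : ℕ) :
    ∫⁻ x in Ivl 0 0, ‖SS (coef f (θ x)) al 0 m x‖ₑ =
      ENNReal.ofReal (∫ x in Ivl 0 0, ‖SS (coef f (θ x)) al 0 m x‖) := by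
  obtain ⟨s, hs, hs1, hs2⟩ := exists_phase
    (measurable_SSh (h := fun _ => f) (al := al) (fun _ => hf) (fun _ => hM) hθ 0 m)
  have h1 := integrableOn_SSh (al := al) (h := fun _ => f) hs hθ hs1 (fun _ => hf) (fun _ => hM) 0
    (le_refl 0) m 0
  have h2 : IntegrableOn (fun x => SS (coef f (θ x)) al 0 m x) (Ivl 0 0) := by
    have hm : Measurable fun x => SS (coef f (θ x)) al 0 m x :=
      measurable_SSh (h := fun _ => f) (al := al) (fun _ => hf) (fun _ => hM) hθ 0 m
    refine Integrable.mono h1 hm.aestronglyMeasurable (Eventually.of_forall fun x => ?_)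
    simp only [zero_add]
    rw [SSh_const]
    have e1 := hs2 x
    rw [SSh_const] at e1
    rw [e1, Complex.norm_real, norm_norm]
  rw [ofReal_integral_norm_eq_lintegral_enorm h2]

/-- **SH3** -/
theorem ModelMulti_of_CoreX (hX : CoreX) : ModelMulti := by
  classical
  obtain ⟨A, c0, hA, hc0, n0, hX⟩ := hX
  obtain ⟨C, hC, hH⟩ := huntInt
  set c : ℝ := min c0 1 with hc
  have hcpos : 0 < c := lt_min hc0 one_pos
  have hc1 : c ≤ 1 := min_le_right _ _
  obtain ⟨K, hK0, hK⟩ := log_sq_le hcpos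
  have hn0l : 0 ≤ Real.log (n0 + 1 : ℝ) := Real.log_nonneg (by
    have : (0 : ℝ) ≤ n0 := Nat.cast_nonneg _
    linarith)
  refine ⟨A + 2 * C * (1 + Real.log (n0 + 1)) ^ 2 + 9 * C * K, by positivity, ?_⟩
  intro n hn f hf hfn θ hθ hθr m
  have hn1 : (1 : ℝ) ≤ n := by exact_mod_cast hn
  have hn00 : (0 : ℝ) < n := by linarith
  have hlogn : 0 ≤ Real.log n := Real.log_nonneg hn1
  set B1 : ℝ := 2 * C * (1 + Real.log (n0 + 1)) ^ 2 with hB1
  have hB10 : 0 ≤ B1 := by positivity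
  have hB2C : 2 * C ≤ B1 := by
    rw [hB1]
    have : (1 : ℝ) ≤ (1 + Real.log (n0 + 1)) ^ 2 := by nlinarith
    nlinarith
  rw [← Ivl00]
  have hfi : IntegrableOn f (Ivl 0 0) := intOn 0 0 hf hfn
  have hfI : ∫⁻ x in Ivl 0 0, ‖f x‖ₑ = ENNReal.ofReal (∫ x in Ivl 0 0, ‖f x‖) :=
    (ofReal_integral_norm_eq_lintegral_enorm hfi).symm
  have hI0 : 0 ≤ ∫ x in Ivl 0 0, ‖f x‖ := integral_nonneg fun _ => norm_nonneg _
  have hTL : ∀ x, TL m f (θ x) x = SS (coef f (θ x)) (alive f) 0 m x := fun x => TL_eq m f (θ x) x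
  simp_rw [hTL]
  rw [hfI, ← ENNReal.ofReal_mul (by positivity), ← ENNReal.ofReal_add (by positivity) (by positivity)]
  rcases lt_or_ge n n0 with hnn | hnn
  · -- small `n`
    refine (hH n hn f hf hfn (alive f) (alive_closed f) (alive_av f) θ hθ hθr m 0).trans ?_
    apply ENNReal.ofReal_le_ofReal
    rw [pow_zero, pow_zero, one_mul]
    push_cast
    rw [add_zero]
    have h1 : Real.log n ≤ Real.log (n0 + 1) := by
      refine Real.log_le_log hn00 ?_
      have : (n : ℝ) < n0 := by exact_mod_cast hnn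
      linarith
    have h2 : 2 * C * n ≤ B1 * n / (1 + Real.log n) ^ 2 := by
      rw [le_div_iff₀ (by positivity), hB1]
      have h3 : (1 + Real.log n) ^ 2 ≤ (1 + Real.log (n0 + 1)) ^ 2 := by gcongr
      calc 2 * C * n * (1 + Real.log n) ^ 2 ≤ 2 * C * n * (1 + Real.log (n0 + 1)) ^ 2 := by gcongr
        _ = _ := by ring
    have h4 : C * (n + 1) * (1 + ∫ y in Ivl 0 0, ‖f y‖) ≤
        2 * C * n + 2 * C * n * ∫ y in Ivl 0 0, ‖f y‖ := by
      have : C * (n + 1) ≤ 2 * C * n := by nlinarith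
      calc C * (n + 1) * (1 + ∫ y in Ivl 0 0, ‖f y‖)
          ≤ 2 * C * n * (1 + ∫ y in Ivl 0 0, ‖f y‖) := by gcongr
        _ = _ := by ring
    have h5 : B1 * n / (1 + Real.log n) ^ 2 ≤
        (A + B1 + 9 * C * K) * n / (1 + Real.log n) ^ 2 := by
      gcongr
      have : 0 ≤ 9 * C * K := by positivity
      linarith
    have h6 : 2 * C * n * ∫ y in Ivl 0 0, ‖f y‖ ≤
        (A + B1 + 9 * C * K) * n * ∫ y in Ivl 0 0, ‖f y‖ := by
      gcongr
      have : 0 ≤ 9 * C * K := by positivity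
      linarith
    linarith
  · -- large `n`
    obtain ⟨s, hs, hs1, hlin⟩ := exists_linearisation (M := 2 ^ n) hf hfn hθ (alive f) m 0 0 rfl
    set P : ℝ → ℂ := Pay s θ (alive f) m with hP
    have hPm : Measurable P := measurable_Pay hs hθ m
    set E : Set ℝ := {y | A * n < ‖P y‖} with hE
    have hEm : MeasurableSet E := measurableSet_lt measurable_const hPm.norm
    set g : ℝ → ℂ := E.indicator f with hg
    have hgm : Measurable g := hf.indicator hEm
    have hgf : ∀ y, ‖g y‖ ≤ ‖f y‖ := fun y => norm_indicator_le_norm_self _ _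
    have hgn : ∀ y, ‖g y‖ ≤ 2 ^ n := fun y => (hgf y).trans (hfn y)
    have hgav : ∀ k j, alive f k j → avN g k j ≤ 1 := by
      intro k j hkj
      refine le_trans ?_ (alive_av f k j hkj)
      unfold avN
      refine mul_le_mul_of_nonneg_left ?_ (by positivity)
      exact integral_mono (intOn k j hgm hgn).norm (intOn k j hf hfn).norm fun y => hgf y
    have hb := hX n hnn s θ (alive f) (fun y => ‖g y‖) m hs hs1 hθ hgm.norm
      (fun y => ⟨norm_nonneg _, hgn y⟩) (alive_closed f) (fun k j hkj => by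
        refine le_trans (le_of_eq ?_) (hgav k j hkj)
        unfold avN
        simp only [Complex.norm_real, norm_norm]) (fun y _ hy => by
        refine ⟨m, le_rfl, ?_⟩
        have hyE : y ∈ E := by
          by_contra hcon
          apply hy
          rw [hg, indicator_of_notMem hcon, norm_zero]
        exact le_of_lt hyE)
    set b : ℝ := ∫ y in Ivl 0 0, ‖g y‖ with hbdef
    have hb0 : 0 ≤ b := integral_nonneg fun _ => norm_nonneg _
    have hbc : b ≤ (n : ℝ) ^ (-c) := by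
      refine hb.trans (Real.rpow_le_rpow_of_exponent_le hn1 ?_)
      have := min_le_left c0 1
      linarith
    obtain ⟨j, hj1, hj2⟩ := choose_level hcpos hc1 hn
    -- the identity
    have hPay : Integrable (fun y => g y * P y) (volume.restrict (Ivl 0 0)) := by
      have := intOn (M := 2 ^ n * m) 0 0 (hgm.mul hPm) (fun y => by
        rw [Pi.mul_apply, norm_mul]
        exact mul_le_mul (hgn y) (norm_Pay hs1 m y) (norm_nonneg _) (by positivity))
      exact this
    have hPay2 : Integrable (fun y => Eᶜ.indicator f y * P y) (volume.restrict (Ivl 0 0)) := by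
      have := intOn (M := 2 ^ n * m) 0 0 ((hf.indicator hEm.compl).mul hPm) (fun y => by
        rw [Pi.mul_apply, norm_mul]
        exact mul_le_mul ((norm_indicator_le_norm_self _ _).trans (hfn y)) (norm_Pay hs1 m y)
          (norm_nonneg _) (by positivity))
      exact this
    have hsplit : ∫ y in Ivl 0 0, f y * P y =
        (∫ y in Ivl 0 0, Eᶜ.indicator f y * P y) + ∫ y in Ivl 0 0, g y * P y := by
      rw [← integral_add hPay2 hPay]
      refine integral_congr_ae (Eventually.of_forall fun y => ?_)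
      simp only
      rw [← add_mul, hg]
      congr 1
      by_cases hy : y ∈ E
      · rw [indicator_of_mem hy, indicator_of_notMem (by simpa using hy), zero_add]
      · rw [indicator_of_notMem hy, indicator_of_mem (show y ∈ Eᶜ from hy), add_zero]
    have hfirst : ‖∫ y in Ivl 0 0, Eᶜ.indicator f y * P y‖ ≤ A * n * ∫ y in Ivl 0 0, ‖f y‖ := by
      rw [← integral_const_mul]
      refine (norm_integral_le_integral_norm _).trans ?_
      refine integral_mono hPay2.norm (hfi.norm.const_mul _) fun y => ?_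
      simp only
      rw [norm_mul]
      by_cases hy : y ∈ E
      · rw [indicator_of_notMem (by simpa using hy), norm_zero, zero_mul]
        positivity
      · rw [indicator_of_mem (show y ∈ Eᶜ from hy), mul_comm]
        have : ‖P y‖ ≤ A * n := not_lt.1 hy
        gcongr
    have hsecond : ‖∫ y in Ivl 0 0, g y * P y‖ ≤
        C * (n + j + 1) * (rr ^ j + 2 ^ j * b) := by
      have h1 := exact_id (al := alive f) (h := fun _ => g) hs hθ hs1 (fun _ => hgm)
        (fun _ => hgn) 0 (le_refl 0) m 0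
      have h3 : ∫ y in Ivl 0 0, ∑ k ∈ Finset.Ico 0 m, g y * e (-0) y * pay s θ (alive f) k y =
          ∫ y in Ivl 0 0, g y * P y := by
        refine setIntegral_congr_fun (measurableSet_Ivl _ _) fun y _ => ?_
        have : e (-0) y = 1 := by unfold e; simp
        simp only [this, mul_one]
        rw [← Finset.mul_sum, ← Finset.range_eq_Ico]
        rfl
      have h4 := h1.trans h3
      rw [← h4]
      have h5 : ‖∫ x in Ivl 0 0, s x * SSh (fun _ => g) (alive f) 0 m (0 + θ x) x‖ ≤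
          ∫ x in Ivl 0 0, ‖SS (coef g (θ x)) (alive f) 0 m x‖ := by
        refine (norm_integral_le_integral_norm _).trans ?_
        have hi := (integrableOn_SSh (al := alive f) (h := fun _ => g) hs hθ hs1 (fun _ => hgm)
          (fun _ => hgn) 0 (le_refl 0) m 0).norm
        obtain ⟨s', hs', hs1', hs2'⟩ := exists_phase
          (measurable_SSh (h := fun _ => g) (al := alive f) (fun _ => hgm) (fun _ => hgn) hθ 0 m)
        have hi2 := (integrableOn_SSh (al := alive f) (h := fun _ => g) hs' hθ hs1' (fun _ => hgm)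
          (fun _ => hgn) 0 (le_refl 0) m 0).norm
        have e2 : (fun x => ‖s' x * SSh (fun _ => g) (alive f) 0 m (0 + θ x) x‖) =
            fun x => ‖SS (coef g (θ x)) (alive f) 0 m x‖ := by
          ext x
          have := hs2' x
          rw [zero_add, this, Complex.norm_real, norm_norm, SSh_const]
        rw [e2] at hi2
        refine integral_mono hi hi2 fun x => ?_
        simp only [zero_add]
        rw [norm_mul, SSh_const]
        exact mul_le_of_le_one_left (norm_nonneg _) (hs1 x)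
      refine h5.trans ?_
      have h6 := hH n hn g hgm hgn (alive f) (alive_closed f) hgav θ hθ hθr m j
      rw [lint_eq hgm hgn hθ] at h6
      rwa [ENNReal.ofReal_le_ofReal_iff (by
        have : 0 ≤ rr ^ j := pow_nonneg rr_pos.le j
        have : 0 ≤ 2 ^ j * b := by positivity
        positivity)] at h6
    rw [lint_eq hf hfn hθ]
    apply ENNReal.ofReal_le_ofReal
    have hmain : ∫ x in Ivl 0 0, ‖SS (coef f (θ x)) (alive f) 0 m x‖ ≤
        A * n * (∫ y in Ivl 0 0, ‖f y‖) + C * (n + j + 1) * (rr ^ j + 2 ^ j * b) := by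
      have h0 : 0 ≤ ∫ x in Ivl 0 0, ‖SS (coef f (θ x)) (alive f) 0 m x‖ :=
        integral_nonneg fun _ => norm_nonneg _
      have h1 : ∫ x in Ivl 0 0, ‖SS (coef f (θ x)) (alive f) 0 m x‖ =
          ‖((∫ x in Ivl 0 0, ‖SS (coef f (θ x)) (alive f) 0 m x‖ : ℝ) : ℂ)‖ := by
        rw [Complex.norm_real, Real.norm_eq_abs, abs_of_nonneg h0]
      rw [h1, hlin, hsplit]
      exact (norm_add_le _ _).trans (add_le_add hfirst hsecond)
    refine hmain.trans (add_le_add ?_ ?_)
    · gcongr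
      have : 0 ≤ 9 * C * K := by positivity
      linarith
    · have h1 := hj2 b hb0 hbc
      have h2 := hK n hn
      have hjn : (j : ℝ) ≤ n := by exact_mod_cast hj1
      have h3 : 0 ≤ rr ^ j + 2 ^ j * b := by
        have : 0 ≤ rr ^ j := pow_nonneg rr_pos.le j
        positivity
      calc C * (n + j + 1) * (rr ^ j + 2 ^ j * b) ≤ C * (3 * n) * (3 * (K / (1 + Real.log n) ^ 2)) := by
            have h4 : (n : ℝ) + j + 1 ≤ 3 * n := by linarith
            have h5 : rr ^ j + 2 ^ j * b ≤ 3 * (K / (1 + Real.log n) ^ 2) := by linarith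
            gcongr
        _ = (9 * C * K) * n / (1 + Real.log n) ^ 2 := by ring
        _ ≤ _ := by
            gcongr
            linarith

/-- **everything above the core** -/
theorem result_of_CoreX (hX : CoreX) {T : ℝ} [hT : Fact (0 < T)]
    (f : AddCircle T → ℂ)
    (hf : AEStronglyMeasurable f (AddCircle.haarAddCircle (T := T)))
    (hlog : ∫⁻ x, ‖f x‖ₑ * ENNReal.ofReal (Real.log (2 + ‖f x‖))
      ∂(AddCircle.haarAddCircle (T := T)) < ⊤) :
    ∀ᵐ x ∂(AddCircle.haarAddCircle (T := T)), Tendsto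
      (fun N : ℕ => ∑ k ∈ Finset.Icc (-(N : ℤ)) N, fourierCoeff f k • fourier k x)
      atTop (𝓝 (f x)) :=
  Multi701.result_of_ModelMulti (ModelMulti_of_CoreX hX) f hf hlog

end Crest.Agent.R100.SH3701
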