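import Mathlib
import Crest.Agent.R100.Tree2_711

-- ▼ part R100/Lev_710
section

/-!
# R100 / S0132, helper710: block B7 of doc 1968 (LEVELS)

Deterministic decomposition of one truncated sum `∑ t k` along the dyadic levels `a` of the running
maximum of `c`.
-/

set_option autoImplicit false

open Finset MeasureTheory

noncomputable section

namespace Crest.Agent.R100.Lev710

/-- `k` is a step strictly inside the level `[a, 2a)` of the running maximum of `c` on `[k0, ·]`: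
the running maximum is `≥ a` at time `k` and `< 2a` at time `k + 1` -/
def On (c : ℕ → ℝ) (k0 : ℕ) (a : ℝ) (k : ℕ) : Prop :=
  (∃ j, k0 ≤ j ∧ j ≤ k ∧ a ≤ c j) ∧ ∀ j, k0 ≤ j → j ≤ k + 1 → c j < 2 * a

/-- the level `a` is reached before time `K` -/
def Vis (c : ℕ → ℝ) (k0 K : ℕ) (a : ℝ) : Prop := ∃ j, k0 ≤ j ∧ j ≤ K ∧ a ≤ c j

open Classical in
/-- the portion of the sum of `t` at level `a` -/
def PSum (c : ℕ → ℝ) (t : ℕ → ℂ) (k0 K : ℕ) (a : ℝ) : ℂ :=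
  ∑ k ∈ Ico k0 K, if On c k0 a k then t k else 0

open Classical in
/-- the portion of the sum of `e` at level `a` -/
def PEx (c e : ℕ → ℝ) (k0 K : ℕ) (a : ℝ) : ℝ :=
  ∑ k ∈ Ico k0 K, if On c k0 a k then e k else 0

open Classical in
/-- the cost of level `a` -/
def Port (c : ℕ → ℝ) (t : ℕ → ℂ) (e : ℕ → ℝ) (C : ℝ) (k0 K : ℕ) (a : ℝ) : ℝ :=
  if Vis c k0 K a then max (‖PSum c t k0 K a‖ - C * PEx c e k0 K a) 0 + 3 * a else 0

theorem Port_nonneg (c : ℕ → ℝ) (t : ℕ → ℂ) (e : ℕ → ℝ) (C : ℝ) (k0 K : ℕ) {a : ℝ} (ha : 0 ≤ a) :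
    0 ≤ Port c t e C k0 K a := by
  unfold Port
  split_ifs
  · have := le_max_right (‖PSum c t k0 K a‖ - C * PEx c e k0 K a) 0
    positivity
  · exact le_rfl

theorem On.vis {c : ℕ → ℝ} {k0 K : ℕ} {a : ℝ} {k : ℕ} (h : On c k0 a k) (hk : k ≤ K) :
    Vis c k0 K a := by
  obtain ⟨⟨j, h1, h2, h3⟩, -⟩ := h
  exact ⟨j, h1, h2.trans hk, h3⟩

theorem On.unique {c : ℕ → ℝ} {k0 : ℕ} {a a' : ℝ} {k : ℕ} (h : On c k0 a k) (h' : On c k0 a' k)
    (haa : 2 * a ≤ a') : False := by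
  obtain ⟨-, h2⟩ := h
  obtain ⟨⟨j, h3, h4, h5⟩, -⟩ := h'
  have := h2 j h3 (by omega)
  linarith


open Classical in
/-- the first time the level `a` is reached -/
def k1 (c : ℕ → ℝ) (k0 K : ℕ) (a : ℝ) : ℕ :=
  if h : ∃ j, k0 ≤ j ∧ a ≤ c j ∧ j ≤ K then Nat.find h else K

theorem k1_spec {c : ℕ → ℝ} {k0 K : ℕ} {a : ℝ} (h : Vis c k0 K a) :
    k0 ≤ k1 c k0 K a ∧ a ≤ c (k1 c k0 K a) ∧ k1 c k0 K a ≤ K := by
  classical
  have h' : ∃ j, k0 ≤ j ∧ a ≤ c j ∧ j ≤ K := by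
    obtain ⟨j, h1, h2, h3⟩ := h
    exact ⟨j, h1, h3, h2⟩
  unfold k1
  rw [dif_pos h']
  exact Nat.find_spec h'

theorem lt_of_lt_k1 {c : ℕ → ℝ} {k0 K : ℕ} {a : ℝ} {j : ℕ} (h0 : k0 ≤ j) (hj : j < k1 c k0 K a)
    (hK : j ≤ K) : c j < a := by
  classical
  unfold k1 at hj
  split_ifs at hj with h
  · have := Nat.find_min h hj
    by_contra hc
    exact this ⟨h0, not_lt.1 hc, hK⟩
  · by_contra hc
    exact h ⟨j, h0, not_lt.1 hc, hK⟩

/-- the portion of level `a` as a sum over an interval of times `[k1, k2)`, where the level is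
reached at time `k1` (for the first time) and `c < 2 a` on the closed interval `[k0, k2]` -/
theorem PSum_eq_Ico {c : ℕ → ℝ} (k0 K : ℕ) (a : ℝ) (h : Vis c k0 K a) :
    ∃ k2, k1 c k0 K a ≤ k2 ∧ k2 ≤ K ∧
      (k1 c k0 K a < k2 → ∀ j, k0 ≤ j → j ≤ k2 → c j < 2 * a) ∧
      (∀ t : ℕ → ℂ, PSum c t k0 K a = ∑ k ∈ Ico (k1 c k0 K a) k2, t k) ∧
      (∀ e : ℕ → ℝ, PEx c e k0 K a = ∑ k ∈ Ico (k1 c k0 K a) k2, e k) := by
  classical
  obtain ⟨hs1, hs2, hs3⟩ := k1_spec h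
  set κ := k1 c k0 K a with hκ
  -- the set of steps
  by_cases hne : ∃ k, k < K ∧ On c k0 a k
  · -- maximal such step
    let k' := Nat.findGreatest (fun k => k < K ∧ On c k0 a k) K
    obtain ⟨k, hkK, hk⟩ := hne
    have hspec : k' < K ∧ On c k0 a k' :=
      Nat.findGreatest_spec (P := fun k => k < K ∧ On c k0 a k) hkK.le ⟨hkK, hk⟩
    have hmax : ∀ l, l < K → On c k0 a l → l ≤ k' := fun l hl hl' =>
      Nat.le_findGreatest (P := fun k => k < K ∧ On c k0 a k) hl.le ⟨hl, hl'⟩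
    have hle : κ ≤ k' := by
      by_contra hlt
      push Not at hlt
      obtain ⟨⟨j, h1, h2, h3⟩, -⟩ := hspec.2
      have := lt_of_lt_k1 h1 (lt_of_le_of_lt h2 hlt) (h2.trans hspec.1.le)
      linarith
    have hiff : ∀ l, l ∈ Ico k0 K → (On c k0 a l ↔ l ∈ Ico κ (k' + 1)) := by
      intro l hl
      rw [mem_Ico] at hl ⊢
      constructor
      · intro ho
        refine ⟨?_, Nat.lt_succ_of_le (hmax l hl.2 ho)⟩
        by_contra hlt
        push Not at hlt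
        obtain ⟨⟨j, h1, h2, h3⟩, -⟩ := ho
        have := lt_of_lt_k1 h1 (lt_of_le_of_lt h2 hlt) (h2.trans hl.2.le)
        linarith
      · rintro ⟨h1, h2⟩
        exact ⟨⟨κ, hs1, h1, hs2⟩, fun j hj hj' => hspec.2.2 j hj (by omega)⟩
    have hset : (Ico k0 K).filter (fun l => On c k0 a l) = Ico κ (k' + 1) := by
      ext l
      rw [mem_filter]
      constructor
      · rintro ⟨h1, h2⟩
        exact (hiff l h1).1 h2
      · intro hl
        have hl' : l ∈ Ico k0 K := by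
          rw [mem_Ico] at hl ⊢
          exact ⟨hs1.trans hl.1, by omega⟩
        exact ⟨hl', (hiff l hl').2 hl⟩
    refine ⟨k' + 1, by omega, by omega, fun _ j hj hj' => hspec.2.2 j hj hj', fun t => ?_,
      fun e => ?_⟩
    · rw [PSum, ← sum_filter, hset]
    · rw [PEx, ← sum_filter, hset]
  · push Not at hne
    refine ⟨κ, le_rfl, hs3, fun hh => absurd hh (lt_irrefl _), fun t => ?_, fun e => ?_⟩
    · rw [Ico_self, sum_empty, PSum]
      refine sum_eq_zero fun k hk => if_neg (hne k (mem_Ico.1 hk).2)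
    · rw [Ico_self, sum_empty, PEx]
      refine sum_eq_zero fun k hk => if_neg (hne k (mem_Ico.1 hk).2)

/-- a jump into level `a` at step `k` -/
def Jump (c : ℕ → ℝ) (k0 : ℕ) (a : ℝ) (k : ℕ) : Prop :=
  (∀ j, k0 ≤ j → j ≤ k → c j < a) ∧ a ≤ c (k + 1)

open Classical in
theorem sum_jump_le (c : ℕ → ℝ) (k0 K : ℕ) {a : ℝ} (ha : 0 ≤ a) :
    ∑ k ∈ Ico k0 K, (if Jump c k0 a k then 3 * a else 0) ≤ if Vis c k0 K a then 3 * a else 0 := by
  by_cases hex : ∃ k ∈ Ico k0 K, Jump c k0 a k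
  · obtain ⟨k, hk, hj⟩ := hex
    have hk' := mem_Ico.1 hk
    rw [if_pos (show Vis c k0 K a from ⟨k + 1, by omega, by omega, hj.2⟩)]
    rw [← sum_filter]
    have : (Ico k0 K).filter (fun k => Jump c k0 a k) ⊆ {k} := by
      intro l hl
      rw [mem_filter, mem_Ico] at hl
      rw [mem_singleton]
      obtain ⟨⟨h1, h2⟩, h3⟩ := hl
      rcases lt_trichotomy l k with h | h | h
      · have := hj.1 (l + 1) (by omega) (by omega)
        have := h3.2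
        linarith
      · exact h
      · have := h3.1 (k + 1) (by omega) (by omega)
        have := hj.2
        linarith
    refine (sum_le_sum_of_subset_of_nonneg this fun _ _ _ => by positivity).trans ?_
    simp
  · push Not at hex
    rw [sum_eq_zero fun k hk => if_neg (hex k hk)]
    split_ifs <;> positivity

open Classical in
/-- one step which is not inside any level -/
theorem step_le {c : ℕ → ℝ} {t : ℕ → ℂ} {e : ℕ → ℝ} {k0 K m : ℕ} {a0 : ℝ}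
    (ht : ∀ k, k0 ≤ k → k < K → ‖t k‖ ≤ c k + c (k + 1) + e k) (ha : 0 < a0)
    (hQ : ∀ k, k0 ≤ k → k ≤ K → c k < a0 * 2 ^ m) {k : ℕ} (hk : k ∈ Ico k0 K)
    (hon : ∀ i ∈ range m, ¬ On c k0 (a0 * 2 ^ i) k) :
    ‖t k‖ ≤ ∑ i ∈ range m, (if Jump c k0 (a0 * 2 ^ i) k then 3 * (a0 * 2 ^ i) else 0) + e k
      + 2 * a0 := by
  have hk' := mem_Ico.1 hk
  have h0 := ht k hk'.1 hk'.2
  have hnn : ∀ i ∈ range m,
      (0 : ℝ) ≤ if Jump c k0 (a0 * 2 ^ i) k then 3 * (a0 * 2 ^ i) else 0 := by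
    intro i _
    split_ifs <;> positivity
  by_cases hlow : ∀ j, k0 ≤ j → j ≤ k + 1 → c j < a0
  · have h1 := hlow k hk'.1 (by omega)
    have h2 := hlow (k + 1) (by omega) le_rfl
    have := sum_nonneg hnn
    linarith
  · push Not at hlow
    -- smallest `i` with all values `< a0 * 2 ^ i`
    have hex : ∃ i, ∀ j, k0 ≤ j → j ≤ k + 1 → c j < a0 * 2 ^ i :=
      ⟨m, fun j hj hj' => hQ j hj (by omega)⟩
    have him : Nat.find hex ≤ m := Nat.find_min' hex fun j hj hj' => hQ j hj (by omega)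
    have hi0 : Nat.find hex ≠ 0 := by
      intro h
      have := Nat.find_spec hex
      rw [h] at this
      obtain ⟨j, h1, h2, h3⟩ := hlow
      have := this j h1 h2
      simp only [pow_zero, mul_one] at this
      linarith
    obtain ⟨i, hi⟩ := Nat.exists_eq_succ_of_ne_zero hi0
    have hspec := Nat.find_spec hex
    rw [hi] at hspec
    have hmin := Nat.find_min hex (m := i) (by omega)
    push Not at hmin
    have hir : i ∈ range m := by
      rw [mem_range]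
      omega
    have hup : ∀ j, k0 ≤ j → j ≤ k + 1 → c j < 2 * (a0 * 2 ^ i) := by
      intro j hj hj'
      have := hspec j hj hj'
      rw [pow_succ] at this
      linarith
    have hno := hon i hir
    have hbelow : ∀ j, k0 ≤ j → j ≤ k → c j < a0 * 2 ^ i := by
      intro j hj hj'
      by_contra hcon
      exact hno ⟨⟨j, hj, hj', not_lt.1 hcon⟩, hup⟩
    have hjump : Jump c k0 (a0 * 2 ^ i) k := by
      refine ⟨hbelow, ?_⟩
      obtain ⟨j, h1, h2, h3⟩ := hmin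
      rcases Nat.lt_or_ge j (k + 1) with h | h
      · have := hbelow j h1 (by omega)
        linarith
      · have : j = k + 1 := le_antisymm h2 h
        rwa [this] at h3
    have h1 := hbelow k hk'.1 le_rfl
    have h2 := hup (k + 1) (by omega) le_rfl
    have h3 := single_le_sum hnn hir
    rw [if_pos hjump] at h3
    linarith

open Classical in
/-- **B7 (LEVELS)** -/
theorem levels {c : ℕ → ℝ} {t : ℕ → ℂ} {e : ℕ → ℝ} {k0 K m : ℕ} {a0 C : ℝ}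
    (he : ∀ k, 0 ≤ e k) (hC : 0 ≤ C)
    (ht : ∀ k, k0 ≤ k → k < K → ‖t k‖ ≤ c k + c (k + 1) + e k) (ha : 0 < a0)
    (hQ : ∀ k, k0 ≤ k → k ≤ K → c k < a0 * 2 ^ m) :
    ‖∑ k ∈ Ico k0 K, t k‖ ≤ ∑ i ∈ range m, Port c t e C k0 K (a0 * 2 ^ i)
      + (C + 1) * ∑ k ∈ Ico k0 K, e k + ((K - k0 : ℕ) : ℝ) * (2 * a0) := by
  -- split the sum
  have hcount : ∀ k, ∑ i ∈ range m, (if On c k0 (a0 * 2 ^ i) k then (1 : ℝ) else 0) ≤ 1 := by
    intro k
    rw [← sum_filter, sum_const, nsmul_eq_mul, mul_one]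
    have : ((range m).filter fun i => On c k0 (a0 * 2 ^ i) k).card ≤ 1 := by
      rw [card_le_one]
      intro i hi i' hi'
      rw [mem_filter] at hi hi'
      by_contra hne
      rcases Nat.lt_or_gt_of_ne hne with h | h
      · refine hi.2.unique hi'.2 ?_
        have : (2 : ℝ) ^ (i + 1) ≤ 2 ^ i' := pow_le_pow_right₀ (by norm_num) h
        rw [pow_succ] at this
        nlinarith
      · refine hi'.2.unique hi.2 ?_
        have : (2 : ℝ) ^ (i' + 1) ≤ 2 ^ i := pow_le_pow_right₀ (by norm_num) h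
        rw [pow_succ] at this
        nlinarith
    exact_mod_cast this
  have hsplit : ∀ k, t k = ∑ i ∈ range m, (if On c k0 (a0 * 2 ^ i) k then t k else 0)
      + (if ∀ i ∈ range m, ¬ On c k0 (a0 * 2 ^ i) k then t k else 0) := by
    intro k
    by_cases h : ∀ i ∈ range m, ¬ On c k0 (a0 * 2 ^ i) k
    · rw [if_pos h, sum_eq_zero fun i hi => if_neg (h i hi), zero_add]
    · rw [if_neg h, add_zero]
      push Not at h
      obtain ⟨i, hi, hoi⟩ := h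
      rw [sum_eq_single_of_mem i hi, if_pos hoi]
      intro i' hi' hne
      refine if_neg fun ho => ?_
      rcases Nat.lt_or_gt_of_ne hne with h | h
      · refine ho.unique hoi ?_
        have : (2 : ℝ) ^ (i' + 1) ≤ 2 ^ i := pow_le_pow_right₀ (by norm_num) h
        rw [pow_succ] at this
        nlinarith
      · refine hoi.unique ho ?_
        have : (2 : ℝ) ^ (i + 1) ≤ 2 ^ i' := pow_le_pow_right₀ (by norm_num) h
        rw [pow_succ] at this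
        nlinarith
  have h1 : ∑ k ∈ Ico k0 K, t k = ∑ i ∈ range m, PSum c t k0 K (a0 * 2 ^ i)
      + ∑ k ∈ Ico k0 K, (if ∀ i ∈ range m, ¬ On c k0 (a0 * 2 ^ i) k then t k else 0) := by
    unfold PSum
    rw [sum_comm, ← sum_add_distrib]
    exact sum_congr rfl fun k _ => hsplit k
  -- bound the rest
  have h2 : ‖∑ k ∈ Ico k0 K, (if ∀ i ∈ range m, ¬ On c k0 (a0 * 2 ^ i) k then t k else 0)‖
      ≤ ∑ i ∈ range m, (if Vis c k0 K (a0 * 2 ^ i) then 3 * (a0 * 2 ^ i) else 0)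
        + ∑ k ∈ Ico k0 K, e k + ((K - k0 : ℕ) : ℝ) * (2 * a0) := by
    calc ‖∑ k ∈ Ico k0 K, (if ∀ i ∈ range m, ¬ On c k0 (a0 * 2 ^ i) k then t k else 0)‖
        ≤ ∑ k ∈ Ico k0 K, ‖if ∀ i ∈ range m, ¬ On c k0 (a0 * 2 ^ i) k then t k else 0‖ :=
          norm_sum_le _ _
      _ ≤ ∑ k ∈ Ico k0 K,
            (∑ i ∈ range m, (if Jump c k0 (a0 * 2 ^ i) k then 3 * (a0 * 2 ^ i) else 0) + e k
              + 2 * a0) := by
          refine sum_le_sum fun k hk => ?_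
          split_ifs with h
          · exact step_le ht ha hQ hk h
          · rw [norm_zero]
            have : (0 : ℝ) ≤ ∑ i ∈ range m,
                (if Jump c k0 (a0 * 2 ^ i) k then 3 * (a0 * 2 ^ i) else 0) :=
              sum_nonneg fun i _ => by split_ifs <;> positivity
            have := he k
            linarith
      _ = ∑ i ∈ range m, ∑ k ∈ Ico k0 K,
              (if Jump c k0 (a0 * 2 ^ i) k then 3 * (a0 * 2 ^ i) else 0)
            + ∑ k ∈ Ico k0 K, e k + ((K - k0 : ℕ) : ℝ) * (2 * a0) := by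
          rw [sum_add_distrib, sum_add_distrib, sum_comm, sum_const, nsmul_eq_mul, Nat.card_Ico]
      _ ≤ _ := by
          gcongr with i _
          exact sum_jump_le c k0 K (by positivity)
  have h3 : ∑ i ∈ range m, PEx c e k0 K (a0 * 2 ^ i) ≤ ∑ k ∈ Ico k0 K, e k := by
    unfold PEx
    rw [sum_comm]
    refine sum_le_sum fun k _ => ?_
    calc ∑ i ∈ range m, (if On c k0 (a0 * 2 ^ i) k then e k else 0)
        = (∑ i ∈ range m, (if On c k0 (a0 * 2 ^ i) k then (1 : ℝ) else 0)) * e k := by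
          rw [sum_mul]
          exact sum_congr rfl fun i _ => by split_ifs <;> simp
      _ ≤ 1 * e k := by
          gcongr
          · exact he k
          · exact hcount k
      _ = e k := one_mul _
  have h4 : ∀ i ∈ range m, ‖PSum c t k0 K (a0 * 2 ^ i)‖
      + (if Vis c k0 K (a0 * 2 ^ i) then 3 * (a0 * 2 ^ i) else 0)
      ≤ Port c t e C k0 K (a0 * 2 ^ i) + C * PEx c e k0 K (a0 * 2 ^ i) := by
    intro i _
    unfold Port
    split_ifs with h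
    · have := le_max_left (‖PSum c t k0 K (a0 * 2 ^ i)‖ - C * PEx c e k0 K (a0 * 2 ^ i)) 0
      linarith
    · have hz : PSum c t k0 K (a0 * 2 ^ i) = 0 := by
        unfold PSum
        refine sum_eq_zero fun k hk => if_neg fun ho => h ?_
        exact ho.vis (mem_Ico.1 hk).2.le
      have hz' : 0 ≤ PEx c e k0 K (a0 * 2 ^ i) := by
        unfold PEx
        exact sum_nonneg fun k _ => by split_ifs <;> simp [he k]
      rw [hz, norm_zero]
      have := mul_nonneg hC hz'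
      linarith
  calc ‖∑ k ∈ Ico k0 K, t k‖
      ≤ ∑ i ∈ range m, ‖PSum c t k0 K (a0 * 2 ^ i)‖
        + (∑ i ∈ range m, (if Vis c k0 K (a0 * 2 ^ i) then 3 * (a0 * 2 ^ i) else 0)
        + ∑ k ∈ Ico k0 K, e k + ((K - k0 : ℕ) : ℝ) * (2 * a0)) := by
        rw [h1]
        refine (norm_add_le _ _).trans (add_le_add (norm_sum_le _ _) h2)
    _ = ∑ i ∈ range m, (‖PSum c t k0 K (a0 * 2 ^ i)‖
          + (if Vis c k0 K (a0 * 2 ^ i) then 3 * (a0 * 2 ^ i) else 0))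
        + ∑ k ∈ Ico k0 K, e k + ((K - k0 : ℕ) : ℝ) * (2 * a0) := by
        rw [sum_add_distrib]
        ring
    _ ≤ ∑ i ∈ range m, (Port c t e C k0 K (a0 * 2 ^ i) + C * PEx c e k0 K (a0 * 2 ^ i))
        + ∑ k ∈ Ico k0 K, e k + ((K - k0 : ℕ) : ℝ) * (2 * a0) := by
        have := sum_le_sum h4
        linarith
    _ = ∑ i ∈ range m, Port c t e C k0 K (a0 * 2 ^ i)
        + C * ∑ i ∈ range m, PEx c e k0 K (a0 * 2 ^ i)
        + ∑ k ∈ Ico k0 K, e k + ((K - k0 : ℕ) : ℝ) * (2 * a0) := by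
        rw [sum_add_distrib, mul_sum]
    _ ≤ ∑ i ∈ range m, Port c t e C k0 K (a0 * 2 ^ i)
        + C * ∑ k ∈ Ico k0 K, e k
        + ∑ k ∈ Ico k0 K, e k + ((K - k0 : ℕ) : ℝ) * (2 * a0) := by
        gcongr
    _ = _ := by ring

/-! ## measurability in a parameter -/

section Meas

variable {Ω : Type*} [MeasurableSpace Ω]






end Meas

end Crest.Agent.R100.Lev710
end
end

-- ▼ part R100/Fin_710
section

/-!
# R100 / S0132, helper710: block B13 of doc 1968 (FINAL SUMMATION)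

Sum over the dyadic levels `a i = b / 2 ^ j0 * 2 ^ i` of the averages of the level functions `G i`,
from the moments of order `p / 2` and `2 p` (`p = 2 h`).
-/

set_option autoImplicit false

open Finset MeasureTheory
open scoped ENNReal

noncomputable section

namespace Crest.Agent.R100.Fin710

/-- from one moment to the mean, without any measurability -/
theorem lintegral_le_of_moment {Ω : Type*} [MeasurableSpace Ω] {μ : Measure Ω}
    (hμ : μ Set.univ ≤ 1) {G : Ω → ℝ≥0∞} {q : ℕ} (hq : 1 ≤ q) {τ : ℝ} (hτ : 0 < τ)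
    (h : ∫⁻ ω, G ω ^ q ∂μ ≤ ENNReal.ofReal (τ ^ q)) :
    ∫⁻ ω, G ω ∂μ ≤ ENNReal.ofReal (2 * τ) := by
  have hpt : ∀ ω, G ω ≤ ENNReal.ofReal τ + (ENNReal.ofReal (τ ^ q))⁻¹ * ENNReal.ofReal τ * G ω ^ q := by
    intro ω
    rcases le_or_gt (G ω) (ENNReal.ofReal τ) with hle | hlt
    · exact hle.trans le_self_add
    · refine le_trans ?_ le_add_self
      rcases eq_or_ne (G ω) ⊤ with htop | htop
      · rw [htop, ENNReal.top_pow (by omega)]
        rw [ENNReal.mul_top]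
        refine mul_ne_zero (ENNReal.inv_ne_zero.2 ENNReal.ofReal_ne_top) ?_
        rw [Ne, ENNReal.ofReal_eq_zero, not_le]
        exact hτ
      · lift G ω to NNReal using htop with g hg
        have hg' : τ < (g : ℝ) := by
          have := hlt
          rw [ENNReal.ofReal, ENNReal.coe_lt_coe] at this
          have h2 := Real.lt_toNNReal_iff_coe_lt (r := g) (p := τ)
          by_contra hcon
          push Not at hcon
          have : g ≤ τ.toNNReal := by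
            rw [← NNReal.coe_le_coe, Real.coe_toNNReal _ hτ.le]
            exact hcon
          exact absurd ‹τ.toNNReal < g› (not_lt.2 this)
        have hreal : (g : ℝ) ≤ (τ ^ q)⁻¹ * τ * (g : ℝ) ^ q := by
          obtain ⟨r, rfl⟩ := Nat.exists_eq_add_of_le' hq
          have h1 : 1 ≤ ((g : ℝ) / τ) ^ r := one_le_pow₀ ((one_le_div hτ).2 hg'.le)
          have h2 : (τ ^ (r + 1))⁻¹ * τ * (g : ℝ) ^ (r + 1) = g * ((g : ℝ) / τ) ^ r := by
            rw [div_pow, pow_succ τ, pow_succ (g : ℝ)]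
            field_simp
          rw [h2]
          have : (0 : ℝ) ≤ g := g.2
          nlinarith
        calc (g : ℝ≥0∞) = ENNReal.ofReal (g : ℝ) := (ENNReal.ofReal_coe_nnreal).symm
          _ ≤ ENNReal.ofReal ((τ ^ q)⁻¹ * τ * (g : ℝ) ^ q) := ENNReal.ofReal_le_ofReal hreal
          _ = _ := by
            rw [ENNReal.ofReal_mul (by positivity), ENNReal.ofReal_mul (by positivity),
              ENNReal.ofReal_inv_of_pos (by positivity), ENNReal.ofReal_pow (NNReal.coe_nonneg g),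
              ENNReal.ofReal_coe_nnreal]
  calc ∫⁻ ω, G ω ∂μ
      ≤ ∫⁻ ω, (ENNReal.ofReal τ
          + (ENNReal.ofReal (τ ^ q))⁻¹ * ENNReal.ofReal τ * G ω ^ q) ∂μ := lintegral_mono hpt
    _ = ENNReal.ofReal τ * μ Set.univ
        + (ENNReal.ofReal (τ ^ q))⁻¹ * ENNReal.ofReal τ * ∫⁻ ω, G ω ^ q ∂μ := by
        rw [lintegral_add_left measurable_const, lintegral_const, lintegral_const_mul']
        exact ENNReal.mul_ne_top (ENNReal.inv_ne_top.2 (by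
          rw [Ne, ENNReal.ofReal_eq_zero, not_le]
          positivity)) ENNReal.ofReal_ne_top
    _ ≤ ENNReal.ofReal τ * 1
        + (ENNReal.ofReal (τ ^ q))⁻¹ * ENNReal.ofReal τ * ENNReal.ofReal (τ ^ q) := by
        gcongr
    _ = ENNReal.ofReal (2 * τ) := by
        rw [mul_one, mul_right_comm, ENNReal.inv_mul_cancel, one_mul, two_mul,
          ENNReal.ofReal_add hτ.le hτ.le]
        · rw [Ne, ENNReal.ofReal_eq_zero, not_le]
          positivity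
        · exact ENNReal.ofReal_ne_top

/-- geometric sum with ratio `4/5` and linear weight -/
theorem sum_lin_geom (P : ℝ) (hP : 0 ≤ P) (N : ℕ) :
    ∑ j ∈ range N, (P + j) * (4 / 5 : ℝ) ^ j ≤ 5 * P + 20 := by
  have h : ∀ N : ℕ, ∑ j ∈ range N, (P + j) * (4 / 5 : ℝ) ^ j
      = 5 * P + 20 - (5 * P + 5 * N + 20) * (4 / 5 : ℝ) ^ N := by
    intro N
    induction N with
    | zero => simp
    | succ N ih =>
      rw [sum_range_succ, ih, pow_succ]
      push_cast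
      ring
  rw [h]
  have : 0 ≤ (5 * P + 5 * N + 20) * (4 / 5 : ℝ) ^ N := by positivity
  linarith

theorem sum_half (N : ℕ) : ∑ j ∈ range N, (1 / 2 : ℝ) ^ j ≤ 2 := by
  have h : ∀ N : ℕ, ∑ j ∈ range N, (1 / 2 : ℝ) ^ j = 2 - 2 * (1 / 2 : ℝ) ^ N := by
    intro N
    induction N with
    | zero => simp
    | succ N ih =>
      rw [sum_range_succ, ih, pow_succ]
      ring
  rw [h]
  have : 0 ≤ 2 * (1 / 2 : ℝ) ^ N := by positivity
  linarith

/-- the low levels: `a = b / 2 ^ j`, `j ≥ 1`, exponent `q = 2 p = 4 h` -/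
theorem low_num {b Q A D E0 : ℝ} {κ h : ℕ} (hb : 0 < b) (hbQ : b ≤ Q) (hA : 0 ≤ A) (hD : 1 ≤ D)
    (hκ : 2 * κ ≤ h) (hE0 : 0 ≤ E0) (hE : E0 * (Q / b) ^ κ ≤ 4 ^ (2 * h))
    (hL : Real.log (2 * Q / b) ≤ 2 * h) (j : ℕ) :
    (A * (b / 2 ^ j) * (((4 * h : ℕ) : ℝ) + Real.log (2 * Q / (b / 2 ^ j)))) ^ (4 * h)
      * (E0 * (Q / (b / 2 ^ j)) ^ κ) * (D * b / (b / 2 ^ j)) ^ (2 * h)
      ≤ (A * b * (6 * h + j) * (2 * D) * (4 / 5) ^ j) ^ (4 * h) := by
  have hQ : 0 < Q := hb.trans_le hbQ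
  have hlog : Real.log (2 * Q / (b / 2 ^ j)) = Real.log (2 * Q / b) + j * Real.log 2 := by
    have : 2 * Q / (b / 2 ^ j) = (2 * Q / b) * 2 ^ j := by
      field_simp
    rw [this, Real.log_mul (by positivity) (by positivity), Real.log_pow]
  have hlog2 : Real.log 2 ≤ 1 := by
    have := Real.log_two_lt_d9
    linarith
  have hlog0 : 0 ≤ Real.log (2 * Q / b) := by
    apply Real.log_nonneg
    rw [le_div_iff₀ hb]
    linarith
  have hl1 : Real.log (2 * Q / (b / 2 ^ j)) ≤ 2 * h + j := by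
    rw [hlog]
    have : (j : ℝ) * Real.log 2 ≤ j * 1 := by gcongr
    linarith
  have hl0 : 0 ≤ Real.log (2 * Q / (b / 2 ^ j)) := by
    rw [hlog]
    have : 0 ≤ Real.log 2 := Real.log_nonneg (by norm_num)
    positivity
  have h1 : A * (b / 2 ^ j) * (((4 * h : ℕ) : ℝ) + Real.log (2 * Q / (b / 2 ^ j)))
      ≤ A * b * (6 * h + j) * (1 / 2) ^ j := by
    have : A * (b / 2 ^ j) * (((4 * h : ℕ) : ℝ) + Real.log (2 * Q / (b / 2 ^ j)))
        ≤ A * (b / 2 ^ j) * (((4 * h : ℕ) : ℝ) + (2 * h + j)) := by gcongr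
    refine this.trans (le_of_eq ?_)
    push_cast
    rw [one_div, inv_pow]
    field_simp
    ring
  have h2 : E0 * (Q / (b / 2 ^ j)) ^ κ ≤ 4 ^ (2 * h) * (2 ^ j) ^ κ := by
    have : Q / (b / 2 ^ j) = (Q / b) * 2 ^ j := by field_simp
    rw [this, mul_pow, ← mul_assoc]
    gcongr
  have h3 : D * b / (b / 2 ^ j) = D * 2 ^ j := by field_simp
  have h4 : ((2 : ℝ) ^ j) ^ κ * (2 ^ j) ^ (2 * h) ≤ ((8 / 5 : ℝ) ^ j) ^ (4 * h) := by
    have e1 : ((2 : ℝ) ^ j) ^ κ * (2 ^ j) ^ (2 * h) = (2 ^ j) ^ (κ + 2 * h) := by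
      rw [pow_add]
    rw [e1, ← pow_mul, ← pow_mul, mul_comm j, mul_comm j, pow_mul, pow_mul (8 / 5 : ℝ)]
    refine pow_le_pow_left₀ (by positivity) ?_ j
    -- `2 ^ (κ + 2 h) ≤ (8/5) ^ (4 h)`
    have e2 : (2 : ℝ) ^ (κ + 2 * h) ≤ (8 / 5 : ℝ) ^ (4 * h) := by
      have e3 : ((2 : ℝ) ^ (κ + 2 * h)) ^ 2 ≤ ((8 / 5 : ℝ) ^ (4 * h)) ^ 2 := by
        rw [← pow_mul, ← pow_mul]
        calc (2 : ℝ) ^ ((κ + 2 * h) * 2) ≤ 2 ^ (5 * h) :=
              pow_le_pow_right₀ (by norm_num) (by omega)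
          _ = (2 ^ 5) ^ h := by rw [pow_mul]
          _ ≤ ((8 / 5 : ℝ) ^ 8) ^ h := by
              refine pow_le_pow_left₀ (by positivity) ?_ h
              norm_num
          _ = (8 / 5 : ℝ) ^ (4 * h * 2) := by
              rw [← pow_mul]
              congr 1
              ring
      exact (pow_le_pow_iff_left₀ (by positivity) (by positivity) two_ne_zero).1 e3
    exact e2
  have hnn : 0 ≤ A * (b / 2 ^ j) * (((4 * h : ℕ) : ℝ) + Real.log (2 * Q / (b / 2 ^ j))) := by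
    positivity
  calc (A * (b / 2 ^ j) * (((4 * h : ℕ) : ℝ) + Real.log (2 * Q / (b / 2 ^ j)))) ^ (4 * h)
      * (E0 * (Q / (b / 2 ^ j)) ^ κ) * (D * b / (b / 2 ^ j)) ^ (2 * h)
      ≤ (A * b * (6 * h + j) * (1 / 2) ^ j) ^ (4 * h) * (4 ^ (2 * h) * (2 ^ j) ^ κ)
        * (D * 2 ^ j) ^ (2 * h) := by
        rw [h3]
        gcongr
    _ = (A * b * (6 * h + j) * (1 / 2) ^ j) ^ (4 * h) * (4 ^ (2 * h) * D ^ (2 * h))
        * ((2 ^ j) ^ κ * (2 ^ j) ^ (2 * h)) := by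
        rw [mul_pow D]
        ring
    _ ≤ (A * b * (6 * h + j) * (1 / 2) ^ j) ^ (4 * h) * (2 ^ (4 * h) * D ^ (4 * h))
        * ((8 / 5 : ℝ) ^ j) ^ (4 * h) := by
        have e5 : (4 : ℝ) ^ (2 * h) = 2 ^ (4 * h) := by
          rw [show (4 : ℝ) = 2 ^ 2 by norm_num, ← pow_mul]
          congr 1
          ring
        have e6 : D ^ (2 * h) ≤ D ^ (4 * h) := pow_le_pow_right₀ hD (by omega)
        rw [e5]
        gcongr
    _ = (A * b * (6 * h + j) * (2 * D) * (4 / 5) ^ j) ^ (4 * h) := by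
        rw [← mul_pow, ← mul_pow, ← mul_pow]
        congr 1
        have : ((1 : ℝ) / 2) ^ j * (8 / 5) ^ j = (4 / 5) ^ j := by
          rw [← mul_pow]
          norm_num
        calc A * b * (6 * h + j) * (1 / 2) ^ j * (2 * D) * (8 / 5) ^ j
            = A * b * (6 * h + j) * (2 * D) * ((1 / 2) ^ j * (8 / 5) ^ j) := by ring
          _ = _ := by rw [this]

/-- the high levels: `a = b * 2 ^ j`, exponent `q = p / 2 = h` -/
theorem high_num {b Q A D E0 : ℝ} {κ h : ℕ} (hb : 0 < b) (hbQ : b ≤ Q) (hA : 0 ≤ A) (hD : 1 ≤ D)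
    (hE0 : 0 ≤ E0) (hE : E0 * (Q / b) ^ κ ≤ 4 ^ (2 * h))
    (hL : Real.log (2 * Q / b) ≤ 2 * h) (j : ℕ) (haQ : b * 2 ^ j ≤ Q) :
    (A * (b * 2 ^ j) * ((h : ℝ) + Real.log (2 * Q / (b * 2 ^ j)))) ^ h
      * (E0 * (Q / (b * 2 ^ j)) ^ κ) * (D * b / (b * 2 ^ j)) ^ (2 * h)
      ≤ (A * b * (3 * h) * (16 * D ^ 2) * (1 / 2) ^ j) ^ h := by
  have hQ : 0 < Q := hb.trans_le hbQ
  have h2j : (1 : ℝ) ≤ 2 ^ j := one_le_pow₀ (by norm_num)
  have hl1 : Real.log (2 * Q / (b * 2 ^ j)) ≤ 2 * h := by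
    refine le_trans (Real.log_le_log (by positivity) ?_) hL
    gcongr
    nlinarith
  have hl0 : 0 ≤ Real.log (2 * Q / (b * 2 ^ j)) := by
    apply Real.log_nonneg
    rw [le_div_iff₀ (by positivity)]
    linarith
  have h2 : E0 * (Q / (b * 2 ^ j)) ^ κ ≤ 4 ^ (2 * h) := by
    refine le_trans ?_ hE
    gcongr
    nlinarith
  have h3 : D * b / (b * 2 ^ j) = D * (1 / 2) ^ j := by
    rw [one_div, inv_pow]
    field_simp
  calc (A * (b * 2 ^ j) * ((h : ℝ) + Real.log (2 * Q / (b * 2 ^ j)))) ^ h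
      * (E0 * (Q / (b * 2 ^ j)) ^ κ) * (D * b / (b * 2 ^ j)) ^ (2 * h)
      ≤ (A * (b * 2 ^ j) * ((h : ℝ) + 2 * h)) ^ h * 4 ^ (2 * h) * (D * (1 / 2) ^ j) ^ (2 * h) := by
        rw [h3]
        gcongr
    _ = (A * b * (3 * h) * (16 * D ^ 2) * (1 / 2) ^ j) ^ h := by
        rw [pow_mul (4 : ℝ), pow_mul (D * (1 / 2) ^ j), ← mul_pow, ← mul_pow]
        congr 1
        have : (2 : ℝ) ^ j * ((1 / 2) ^ j * (1 / 2) ^ j) = (1 / 2) ^ j := by
          rw [← mul_assoc, ← mul_pow]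
          norm_num
        calc A * (b * 2 ^ j) * ((h : ℝ) + 2 * h) * 4 ^ 2 * (D * (1 / 2) ^ j) ^ 2
            = A * b * (3 * h) * (16 * D ^ 2) * (2 ^ j * ((1 / 2) ^ j * (1 / 2) ^ j)) := by ring
          _ = _ := by rw [this]

/-- **B13 (FINAL SUMMATION)** -/
theorem final_sum {Ω : Type*} [MeasurableSpace Ω] {μ : Measure Ω} (hμ : μ Set.univ ≤ 1)
    {b Q A D E0 : ℝ} {κ h m j0 : ℕ} (hb : 0 < b) (hbQ : b ≤ Q) (hA : 0 < A) (hD : 1 ≤ D)
    (hh : 1 ≤ h) (hκ : 2 * κ ≤ h) (hE0 : 0 ≤ E0) (hE : E0 * (Q / b) ^ κ ≤ 4 ^ (2 * h))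
    (hL : Real.log (2 * Q / b) ≤ 2 * h) (G : ℕ → Ω → ℝ≥0∞)
    (haQ : ∀ i < m, b / 2 ^ j0 * 2 ^ i ≤ Q)
    (hG : ∀ i < m, ∀ q : ℕ, (q = h ∨ q = 4 * h) →
      ∫⁻ ω, G i ω ^ q ∂μ ≤ ENNReal.ofReal
        ((A * (b / 2 ^ j0 * 2 ^ i) * ((q : ℝ) + Real.log (2 * Q / (b / 2 ^ j0 * 2 ^ i)))) ^ q
          * (E0 * (Q / (b / 2 ^ j0 * 2 ^ i)) ^ κ)
          * (D * b / (b / 2 ^ j0 * 2 ^ i)) ^ (2 * h))) :
    ∑ i ∈ range m, ∫⁻ ω, G i ω ∂μ ≤ ENNReal.ofReal (400 * A * D ^ 2 * (2 * h) * b) := by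
  have hQ : 0 < Q := hb.trans_le hbQ
  have hD0 : 0 < D := by linarith
  have hh0 : (1 : ℝ) ≤ h := by exact_mod_cast hh
  -- individual bounds
  let τ : ℕ → ℝ := fun i =>
    if i < j0 then A * b * (6 * h + (j0 - i : ℕ)) * (2 * D) * (4 / 5) ^ (j0 - i)
    else A * b * (3 * h) * (16 * D ^ 2) * (1 / 2) ^ (i - j0)
  have hτ : ∀ i, 0 < τ i := by
    intro i
    simp only [τ]
    split_ifs <;> positivity
  have hone : ∀ i < m, ∫⁻ ω, G i ω ∂μ ≤ ENNReal.ofReal (2 * τ i) := by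
    intro i hi
    by_cases hij : i < j0
    · have ha : b / 2 ^ j0 * 2 ^ i = b / 2 ^ (j0 - i) := by
        have : (2 : ℝ) ^ j0 = 2 ^ (j0 - i) * 2 ^ i := by
          rw [← pow_add]
          congr 1
          omega
        rw [this]
        field_simp
      have h1 := hG i hi (4 * h) (Or.inr rfl)
      rw [ha] at h1
      refine lintegral_le_of_moment hμ (by omega) (hτ i) (h1.trans (ENNReal.ofReal_le_ofReal ?_))
      have := low_num hb hbQ hA.le hD hκ hE0 hE hL (j0 - i)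
      simp only [τ, if_pos hij]
      exact this
    · push Not at hij
      have ha : b / 2 ^ j0 * 2 ^ i = b * 2 ^ (i - j0) := by
        have : (2 : ℝ) ^ i = 2 ^ (i - j0) * 2 ^ j0 := by
          rw [← pow_add]
          congr 1
          omega
        rw [this]
        field_simp
      have h1 := hG i hi h (Or.inl rfl)
      have h2 := haQ i hi
      rw [ha] at h1 h2
      refine lintegral_le_of_moment hμ hh (hτ i) (h1.trans (ENNReal.ofReal_le_ofReal ?_))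
      have := high_num hb hbQ hA.le hD hE0 hE hL (i - j0) h2
      simp only [τ, if_neg (not_lt.2 hij)]
      exact this
  have hsum : ∑ i ∈ range m, 2 * τ i ≤ 400 * A * D ^ 2 * (2 * h) * b := by
    have hle : ∑ i ∈ range m, 2 * τ i ≤ ∑ i ∈ range (j0 + m), 2 * τ i :=
      sum_le_sum_of_subset_of_nonneg (range_mono (by omega))
        fun i _ _ => mul_nonneg (by norm_num) (hτ i).le
    refine hle.trans ?_
    rw [sum_range_add]
    have hlow : ∑ i ∈ range j0, 2 * τ i ≤ 4 * A * b * D * (50 * h) := by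
      have e1 : ∑ i ∈ range j0, 2 * τ i
          = ∑ i ∈ range j0, 4 * A * b * D * ((6 * h + (j0 - i : ℕ)) * (4 / 5) ^ (j0 - i)) := by
        refine sum_congr rfl fun i hi => ?_
        simp only [τ, if_pos (mem_range.1 hi)]
        ring
      have e2 : ∑ i ∈ range j0, 4 * A * b * D
            * ((6 * h + (j0 - i : ℕ)) * (4 / 5 : ℝ) ^ (j0 - i))
          = ∑ j ∈ range j0, 4 * A * b * D
            * ((6 * h + ((j + 1 : ℕ) : ℝ)) * (4 / 5 : ℝ) ^ (j + 1)) := by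
        rw [← sum_range_reflect]
        refine sum_congr rfl fun j hj => ?_
        have hj' := mem_range.1 hj
        have : j0 - (j0 - 1 - j) = j + 1 := by omega
        rw [this]
      rw [e1, e2, ← mul_sum]
      have e3 : ∑ j ∈ range j0, (6 * (h : ℝ) + ((j + 1 : ℕ) : ℝ)) * (4 / 5 : ℝ) ^ (j + 1)
          ≤ 50 * h := by
        have e4 := sum_lin_geom (6 * h) (by positivity) (j0 + 1)
        rw [sum_range_succ'] at e4
        simp only [pow_zero, mul_one, Nat.cast_zero, add_zero] at e4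
        linarith
      gcongr
    have hhigh : ∑ i ∈ range m, 2 * τ (j0 + i) ≤ 2 * (A * b * (3 * h) * (16 * D ^ 2)) * 2 := by
      have e1 : ∑ i ∈ range m, 2 * τ (j0 + i)
          = 2 * (A * b * (3 * h) * (16 * D ^ 2)) * ∑ i ∈ range m, (1 / 2 : ℝ) ^ i := by
        rw [mul_sum]
        refine sum_congr rfl fun i _ => ?_
        have : ¬ (j0 + i < j0) := by omega
        simp only [τ, if_neg this, Nat.add_sub_cancel_left]
        ring
      rw [e1]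
      have := sum_half m
      gcongr
    have hDD : D ≤ D ^ 2 := by nlinarith
    have hfin : 4 * A * b * D * (50 * h) ≤ 200 * A * D ^ 2 * h * b := by
      have : A * b * h * D ≤ A * b * h * D ^ 2 := by gcongr
      nlinarith
    have e9 : 0 ≤ A * b * h * D ^ 2 := by positivity
    nlinarith
  calc ∑ i ∈ range m, ∫⁻ ω, G i ω ∂μ ≤ ∑ i ∈ range m, ENNReal.ofReal (2 * τ i) :=
        sum_le_sum fun i hi => hone i (mem_range.1 hi)
    _ = ENNReal.ofReal (∑ i ∈ range m, 2 * τ i) := by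
        rw [ENNReal.ofReal_sum_of_nonneg]
        exact fun i _ => mul_nonneg (by norm_num) (hτ i).le
    _ ≤ _ := ENNReal.ofReal_le_ofReal hsum

end Crest.Agent.R100.Fin710
end
end

-- ▼ part R100/UB_711
section

/-!
# R100 / S0132, helper711: upper bound (UB), assembly of B7 (levels), B9 (trees), the tops and the
run maximal functions (structural part).
-/

set_option autoImplicit false

open MeasureTheory Set
open scoped ENNReal

noncomputable section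

namespace Crest.Agent.R100.UB711

open Crest.Agent.R100.Mart933 Crest.Agent.R100.Wide933 Crest.Agent.R100.Hunt933
open Crest.Agent.R100.Run288 Crest.Agent.R100.Tree711 Crest.Agent.R100.Lev710

variable {g : ℝ → ℂ} {κ : ℝ → ℕ} {M : ℝ}

/-! ## mass of the exits -/

theorem lintegral_avN {f : ℝ → ℂ} (hf : Measurable f) (hM : ∀ x, ‖f x‖ ≤ M) (d : ℕ) :
    ∀ (k : ℕ) (j : ℤ), ∫⁻ x in Ivl k j, ENNReal.ofReal (avN f (k + d) (fl (k + d) x)) =
      ∫⁻ x in Ivl k j, ‖f x‖ₑ := by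
  induction d with
  | zero =>
    intro k j
    have h1 : ∫⁻ x in Ivl k j, ENNReal.ofReal (avN f (k + 0) (fl (k + 0) x)) =
        ∫⁻ x in Ivl k j, ENNReal.ofReal (avN f k j) := by
      refine setLIntegral_congr_fun (measurableSet_Ivl _ _) fun x hx => ?_
      simp only [add_zero]
      rw [mem_Ivl.1 hx]
    rw [h1, setLIntegral_const, volume_Ivl, ← ENNReal.ofReal_mul (avN_nonneg _ _ _)]
    have hint : Integrable (fun x => f x) (volume.restrict (Ivl k j)) := intOn k j hf hM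
    have h2 : avN f k j * (1 / 2 ^ k) = ∫ y in Ivl k j, ‖f y‖ := by
      unfold avN
      field_simp
    rw [h2, ofReal_integral_norm_eq_lintegral_enorm hint]
  | succ d ih =>
    intro k j
    rw [lintegral_Ivl, lintegral_Ivl k j (fun x => ‖f x‖ₑ)]
    have e1 : k + (d + 1) = k + 1 + d := by omega
    rw [e1, ih (k + 1), ih (k + 1)]

theorem lintegral_avN' {f : ℝ → ℂ} (hf : Measurable f) (hM : ∀ x, ‖f x‖ ≤ M) {k l : ℕ}
    (h : k ≤ l) (j : ℤ) : ∫⁻ x in Ivl k j, ENNReal.ofReal (avN f l (fl l x)) =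
      ∫⁻ x in Ivl k j, ‖f x‖ₑ := by
  obtain ⟨d, rfl⟩ := Nat.exists_eq_add_of_le h
  exact lintegral_avN hf hM d k j

/-- the mass of the exits below a node is at most the mass of the node -/
theorem lint_XS_le (hg : Measurable g) (hM : ∀ x, ‖g x‖ ≤ M) (hκ : Measurable κ) {Q : ℝ} (k : ℕ)
    (j : ℤ) (m : ℕ) (hQ : avN (Pb g κ k) k j ≤ Q) :
    ∫⁻ x in Ivl k j, ENNReal.ofReal (XS g κ k m x) ≤ ENNReal.ofReal Q * volume (Ivl k j) := by
  have hmz : ∀ l, Measurable fun x => zz g κ l (fl l x) := fun l =>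
    measurable_fl_comp l (zz g κ l)
  calc ∫⁻ x in Ivl k j, ENNReal.ofReal (XS g κ k m x)
      = ∫⁻ x in Ivl k j, ∑ l ∈ Finset.Ico k m, ENNReal.ofReal (zz g κ l (fl l x)) := by
        refine lintegral_congr fun x => ?_
        unfold XS
        rw [ENNReal.ofReal_sum_of_nonneg fun l _ => zz_nonneg _ _ _ _]
    _ = ∑ l ∈ Finset.Ico k m, ∫⁻ x in Ivl k j, ENNReal.ofReal (zz g κ l (fl l x)) :=
        lintegral_finsetSum _ fun l _ => (hmz l).ennreal_ofReal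
    _ = ∑ l ∈ Finset.Ico k m, ∫⁻ x in Ivl k j, ‖Tree711.Ex g κ l x‖ₑ := by
        refine Finset.sum_congr rfl fun l hl => ?_
        exact lintegral_avN' (measurable_Ex hg hκ l) (fun x => (norm_Ex_le g κ l x).trans (hM x))
          (Finset.mem_Ico.1 hl).1 j
    _ = ∫⁻ x in Ivl k j, ∑ l ∈ Finset.Ico k m, ‖Tree711.Ex g κ l x‖ₑ :=
        (lintegral_finsetSum _ fun l _ => (measurable_Ex hg hκ l).enorm).symm
    _ ≤ ∫⁻ x in Ivl k j, ‖Pb g κ k x‖ₑ := by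
        refine lintegral_mono fun x => ?_
        unfold Tree711.Ex Pb
        by_cases h : κ x ∈ Finset.Ico k m
        · rw [Finset.sum_eq_single_of_mem (κ x) h]
          · rw [if_pos rfl, if_pos (Finset.mem_Ico.1 h).1]
          · intro l _ hl
            rw [if_neg (Ne.symm hl), enorm_zero]
        · rw [Finset.sum_eq_zero]
          · exact zero_le
          · intro l hl
            rw [if_neg, enorm_zero]
            rintro rfl
            exact h hl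
    _ = ENNReal.ofReal (avN (Pb g κ k) k j) * volume (Ivl k j) := by
        rw [← lintegral_avN' (measurable_Pb hg hκ k) (fun x => (norm_Pb_le g κ k x).trans (hM x))
          (le_refl k) j, ← setLIntegral_const]
        refine setLIntegral_congr_fun (measurableSet_Ivl _ _) fun x hx => ?_
        show ENNReal.ofReal (avN (Pb g κ k) k (fl k x)) = ENNReal.ofReal (avN (Pb g κ k) k j)
        rw [mem_Ivl.1 hx]
    _ ≤ _ := by gcongr

/-! ## one level -/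

section level

variable {ι : Type*} {T : Finset ι} {kt : ι → ℕ} {jt : ι → ℤ} {wt : ι → ℝ} {Rt : ι → ℝ → ℝ}
  {θ : ℝ → ℝ}

/-- the cost of a level is dominated by `GG` -/
theorem port_le (hg : Measurable g) (hM : ∀ x, ‖g x‖ ≤ M) (hκ : Measurable κ) {R : ℕ}
    (hR : ∀ y, g y ≠ 0 → κ y < R) {k₀ m β : ℕ} {x Y Q a B C₀ : ℝ} (hQ0 : 0 ≤ Q) (ha : 0 < a)
    (hB : 0 ≤ B) (hC₀ : 0 ≤ C₀) (hQ : ∀ l, k₀ ≤ l → l ≤ m → avN (Pb g κ l) l (fl l x) ≤ Q)
    (hβ : 60 * (B * Q) ≤ a * 2 ^ β)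
    (hcov : ∀ k, k₀ ≤ k → k ≤ m → a ≤ ‖bb g κ (Y + θ x) k (fl k x)‖ →
      ∃ t ∈ T, kt t ≤ k ∧ fl (kt t) x = jt t ∧ |Y + θ x - wt t| ≤ B * 2 ^ k)
    (hRt0 : ∀ t ∈ T, 0 ≤ Rt t x)
    (hRt : ∀ t ∈ T, fl (kt t) x = jt t → ∀ k' K', kt t ≤ k' → k' ≤ K' → K' ≤ m →
      (∀ l, k' ≤ l → l ≤ K' → ‖bb g κ (wt t) l (fl l x)‖ ≤ 3 * a) →
      ‖TS g κ (wt t) k' K' x‖ ≤ Rt t x + C₀ * XS g κ k' K' x) :
    ENNReal.ofReal (Port (fun k => ‖bb g κ (Y + θ x) k (fl k x)‖)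
      (fun k => (rad (k + 1) x : ℂ) * dx (aa g κ (Y + θ x)) (bb g κ (Y + θ x)) k x)
      (fun k => zz g κ k (fl k x)) (C₀ + 1) k₀ m a) ≤
      GG T kt jt wt θ (B * 2 ^ (R - 1))
        (fun t x => ENNReal.ofReal ((4 * β + 4) * a + Rt t x)) x Y := by
  classical
  set Z := Y + θ x with hZ
  set c : ℕ → ℝ := fun k => ‖bb g κ Z k (fl k x)‖ with hc
  by_cases hv : Vis c k₀ m a
  swap
  · unfold Port
    rw [if_neg hv, ENNReal.ofReal_zero]
    exact zero_le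
  obtain ⟨hs1, hs2, hs3⟩ := k1_spec hv
  obtain ⟨k2, h1, h2, h3, h4, h5⟩ := PSum_eq_Ico k₀ m a hv
  set k1' := k1 c k₀ m a with hk1'
  unfold Port
  rw [if_pos hv, h4, h5]
  have hTS : ∑ k ∈ Finset.Ico k1' k2, (rad (k + 1) x : ℂ) * dx (aa g κ Z) (bb g κ Z) k x =
      TS g κ Z k1' k2 x := rfl
  have hXS : ∑ k ∈ Finset.Ico k1' k2, zz g κ k (fl k x) = XS g κ k1' k2 x := rfl
  rw [hTS, hXS]
  -- the top
  obtain ⟨t, ht, g1, g2, g3⟩ : ∃ t ∈ T, fl (kt t) x = jt t ∧ |Z - wt t| ≤ B * 2 ^ (R - 1) ∧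
      ‖TS g κ Z k1' k2 x‖ - (C₀ + 1) * XS g κ k1' k2 x ≤ (4 * β + 1) * a + Rt t x := by
    rcases lt_or_ge k1' k2 with hlt | hge
    · exact segment_dom hg hM hκ hR hQ0 ha hB hC₀ hQ hβ hcov hRt0 hRt hs1 hs3 h2 hs2
        (fun l hl1 hl2 => (h3 hlt l (hs1.trans hl1) hl2).le)
    · obtain ⟨t, ht, q1, q2, q3⟩ := hcov k1' hs1 hs3 hs2
      have hkR : k1' ≤ R - 1 := by
        by_contra hcc
        have h0 := bb_eq_zero hR (k := k1') (by omega) Z (fl k1' x)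
        have hs2' : a ≤ ‖bb g κ Z k1' (fl k1' x)‖ := hs2
        rw [h0, norm_zero] at hs2'
        linarith
      refine ⟨t, ht, q2, q3.trans ?_, ?_⟩
      · exact mul_le_mul_of_nonneg_left (pow_le_pow_right₀ (by norm_num) hkR) hB
      · have e0 : Finset.Ico k1' k2 = ∅ := Finset.Ico_eq_empty_of_le hge
        have e1 : TS g κ Z k1' k2 x = 0 := by
          unfold TS; rw [e0]; simp
        have e2 : XS g κ k1' k2 x = 0 := by
          unfold XS; rw [e0]; simp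
        rw [e1, e2, norm_zero]
        have e3 := hRt0 t ht
        have : 0 ≤ (4 * (β : ℝ) + 1) * a := by positivity
        linarith
  refine le_trans (ENNReal.ofReal_le_ofReal ?_) (le_GG ht g1 g2)
  have e3 := hRt0 t ht
  have e4 : 0 ≤ (4 * (β : ℝ) + 1) * a := by positivity
  have e5 : max (‖TS g κ Z k1' k2 x‖ - (C₀ + 1) * XS g κ k1' k2 x) 0 ≤
      (4 * β + 1) * a + Rt t x := max_le g3 (by linarith)
  linarith

end level

/-! ## all levels -/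

section all

variable {θ : ℝ → ℝ}

/-- pointwise bound of the signed sum by the costs of the levels -/
theorem enorm_TS_le (hg : Measurable g) (hM : ∀ x, ‖g x‖ ≤ M) (hκ : Measurable κ) {k₀ m n : ℕ}
    {x Q a₀ C₀ Z : ℝ} (ha : 0 < a₀) (hC₀ : 0 ≤ C₀)
    (hQ : ∀ l, k₀ ≤ l → l ≤ m → avN (Pb g κ l) l (fl l x) ≤ Q) (hn : Q < a₀ * 2 ^ n) :
    ‖TS g κ Z k₀ m x‖ₑ ≤ ∑ i ∈ Finset.range n, ENNReal.ofReal (Port
      (fun k => ‖bb g κ Z k (fl k x)‖)
      (fun k => (rad (k + 1) x : ℂ) * dx (aa g κ Z) (bb g κ Z) k x)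
      (fun k => zz g κ k (fl k x)) (C₀ + 1) k₀ m (a₀ * 2 ^ i)) +
      (ENNReal.ofReal ((C₀ + 2) * XS g κ k₀ m x) +
        ENNReal.ofReal (((m - k₀ : ℕ) : ℝ) * (2 * a₀))) := by
  have h := levels (c := fun k => ‖bb g κ Z k (fl k x)‖)
    (t := fun k => (rad (k + 1) x : ℂ) * dx (aa g κ Z) (bb g κ Z) k x)
    (e := fun k => zz g κ k (fl k x)) (k0 := k₀) (K := m) (m := n) (a0 := a₀) (C := C₀ + 1)
    (fun k => zz_nonneg _ _ _ _) (by positivity)
    (fun k _ _ => by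
      rw [norm_mul, Complex.norm_real, Real.norm_eq_abs, abs_rad, one_mul]
      have := norm_dx_le hg hM hκ Z k x
      linarith) ha
    (fun k h1 h2 => lt_of_le_of_lt ((norm_bb_le g κ Z k _).trans (hQ k h1 h2)) hn)
  have hp : ∀ i ∈ Finset.range n, 0 ≤ Port
      (fun k => ‖bb g κ Z k (fl k x)‖)
      (fun k => (rad (k + 1) x : ℂ) * dx (aa g κ Z) (bb g κ Z) k x)
      (fun k => zz g κ k (fl k x)) (C₀ + 1) k₀ m (a₀ * 2 ^ i) := fun i _ =>
    Port_nonneg _ _ _ _ _ _ (by positivity)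
  have hx := XS_nonneg g κ k₀ m x
  rw [← ofReal_norm, ← ENNReal.ofReal_sum_of_nonneg hp,
    ← ENNReal.ofReal_add (by positivity) (by positivity),
    ← ENNReal.ofReal_add (Finset.sum_nonneg hp) (by positivity)]
  refine ENNReal.ofReal_le_ofReal ?_
  have e1 : TS g κ Z k₀ m x =
    ∑ k ∈ Finset.Ico k₀ m, (rad (k + 1) x : ℂ) * dx (aa g κ Z) (bb g κ Z) k x := rfl
  have e2 : XS g κ k₀ m x = ∑ k ∈ Finset.Ico k₀ m, zz g κ k (fl k x) := rfl
  rw [e1, e2]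
  refine h.trans (le_of_eq ?_)
  ring

/-- **STRUCTURAL UPPER BOUND** -/
theorem ub_struct (hg : Measurable g) (hM : ∀ x, ‖g x‖ ≤ M) (hκ : Measurable κ)
    (hθ : Measurable θ) {R : ℕ} (hR : ∀ y, g y ≠ 0 → κ y < R) {k₀ m n : ℕ} {j₀ : ℤ}
    {Q a₀ C₀ : ℝ} (hQ0 : 0 ≤ Q) (ha : 0 < a₀) (hC₀ : 0 ≤ C₀)
    (hQ : ∀ k, k₀ ≤ k → ∀ j, avN (Pb g κ k) k j ≤ Q) (hn : Q < a₀ * 2 ^ n)
    (T : ℕ → Finset (ℕ × ℤ × ℝ)) (B : ℕ → ℝ) (β : ℕ → ℕ) (Rt : ℕ → ℕ × ℤ × ℝ → ℝ → ℝ)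
    (hRm : ∀ i t, Measurable (Rt i t)) (hB : ∀ i < n, 0 ≤ B i)
    (hβ : ∀ i < n, 60 * (B i * Q) ≤ a₀ * 2 ^ i * 2 ^ β i)
    (hcov : ∀ i < n, ∀ x ∈ Ivl k₀ j₀, ∀ k, k₀ ≤ k → k ≤ m → ∀ ξ, a₀ * 2 ^ i ≤
      ‖bb g κ ξ k (fl k x)‖ → ∃ t ∈ T i, t.1 ≤ k ∧ x ∈ Ivl t.1 t.2.1 ∧
        |ξ - t.2.2| ≤ B i * 2 ^ k)
    (hRt0 : ∀ i < n, ∀ t ∈ T i, ∀ x, 0 ≤ Rt i t x)
    (hRt : ∀ i < n, ∀ t ∈ T i, ∀ x ∈ Ivl t.1 t.2.1, ∀ k' K', t.1 ≤ k' → k' ≤ K' → K' ≤ m →
      (∀ l, k' ≤ l → l ≤ K' → ‖bb g κ t.2.2 l (fl l x)‖ ≤ 3 * (a₀ * 2 ^ i)) →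
      ‖TS g κ t.2.2 k' K' x‖ ≤ Rt i t x + C₀ * XS g κ k' K' x) (Λ : Set ℝ) :
    ∫⁻ x in Ivl k₀ j₀, ∫⁻ Y in Λ, ‖TS g κ (Y + θ x) k₀ m x‖ₑ ≤
      (∑ i ∈ Finset.range n, ∫⁻ x in Ivl k₀ j₀, ∫⁻ Y in Λ,
        GG (T i) (fun t => t.1) (fun t => t.2.1) (fun t => t.2.2) θ (B i * 2 ^ (R - 1))
          (fun t x => ENNReal.ofReal ((4 * β i + 4) * (a₀ * 2 ^ i) + Rt i t x)) x Y) +
      ENNReal.ofReal ((C₀ + 2) * Q + ((m - k₀ : ℕ) : ℝ) * (2 * a₀)) *
        (volume (Ivl k₀ j₀) * volume Λ) := by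
  set G : ℕ → ℝ → ℝ → ℝ≥0∞ := fun i x Y =>
    GG (T i) (fun t => t.1) (fun t => t.2.1) (fun t => t.2.2) θ (B i * 2 ^ (R - 1))
          (fun t x => ENNReal.ofReal ((4 * β i + 4) * (a₀ * 2 ^ i) + Rt i t x)) x Y with hG
  have hGm : ∀ i, Measurable fun p : ℝ × ℝ => G i p.1 p.2 := fun i =>
    measurable_GG hθ fun t => ((hRm i t).const_add _).ennreal_ofReal
  have hGx : ∀ i x, Measurable fun Y => G i x Y := fun i x => (hGm i).comp measurable_prodMk_left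
  have hGi : ∀ i, Measurable fun x => ∫⁻ Y in Λ, G i x Y := fun i =>
    (hGm i).lintegral_prod_right'
  have hmX : Measurable fun x => XS g κ k₀ m x := by
    unfold XS
    exact Finset.measurable_sum _ fun l _ => measurable_fl_comp l (zz g κ l)
  calc ∫⁻ x in Ivl k₀ j₀, ∫⁻ Y in Λ, ‖TS g κ (Y + θ x) k₀ m x‖ₑ
      ≤ ∫⁻ x in Ivl k₀ j₀, ∫⁻ Y in Λ, (∑ i ∈ Finset.range n, G i x Y +
          (ENNReal.ofReal ((C₀ + 2) * XS g κ k₀ m x) +
            ENNReal.ofReal (((m - k₀ : ℕ) : ℝ) * (2 * a₀)))) := by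
        refine setLIntegral_mono' (measurableSet_Ivl _ _) fun x hx => ?_
        refine lintegral_mono fun Y => ?_
        refine (enorm_TS_le hg hM hκ ha hC₀ (fun l h1 _ => hQ l h1 _) hn).trans ?_
        refine add_le_add (Finset.sum_le_sum fun i hi => ?_) le_rfl
        rw [Finset.mem_range] at hi
        refine port_le hg hM hκ hR hQ0 (by positivity) (hB i hi) hC₀
          (fun l h1 _ => hQ l h1 _) (hβ i hi) ?_ (fun t ht => hRt0 i hi t ht x) ?_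
        · intro k h1 h2 h3
          obtain ⟨t, ht, q1, q2, q3⟩ := hcov i hi x hx k h1 h2 _ h3
          exact ⟨t, ht, q1, mem_Ivl.1 q2, q3⟩
        · intro t ht h1
          exact hRt i hi t ht x (mem_Ivl.2 h1)
    _ = ∫⁻ x in Ivl k₀ j₀, ((∑ i ∈ Finset.range n, ∫⁻ Y in Λ, G i x Y) +
          (ENNReal.ofReal ((C₀ + 2) * XS g κ k₀ m x) +
            ENNReal.ofReal (((m - k₀ : ℕ) : ℝ) * (2 * a₀))) * volume Λ) := by
        refine lintegral_congr fun x => ?_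
        rw [lintegral_add_right _ measurable_const, lintegral_finsetSum _ fun i _ => hGx i x,
          setLIntegral_const]
    _ = (∑ i ∈ Finset.range n, ∫⁻ x in Ivl k₀ j₀, ∫⁻ Y in Λ, G i x Y) +
          (∫⁻ x in Ivl k₀ j₀, (ENNReal.ofReal ((C₀ + 2) * XS g κ k₀ m x) +
            ENNReal.ofReal (((m - k₀ : ℕ) : ℝ) * (2 * a₀)))) * volume Λ := by
        have hmm : Measurable fun x => ENNReal.ofReal ((C₀ + 2) * XS g κ k₀ m x) +
            ENNReal.ofReal (((m - k₀ : ℕ) : ℝ) * (2 * a₀)) :=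
          ((hmX.const_mul _).ennreal_ofReal).add_const _
        rw [lintegral_add_right _ (hmm.mul_const _), lintegral_finsetSum _ fun i _ => hGi i,
          lintegral_mul_const _ hmm]
    _ ≤ _ := by
        refine add_le_add le_rfl ?_
        rw [← mul_assoc (ENNReal.ofReal ((C₀ + 2) * Q + ((m - k₀ : ℕ) : ℝ) * (2 * a₀)))]
        refine mul_le_mul_left (le_of_eq_of_le (lintegral_add_right _ measurable_const) ?_) _
        rw [setLIntegral_const, ENNReal.ofReal_add (by positivity) (by positivity), add_mul]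
        refine add_le_add ?_ le_rfl
        have h1 : ∀ x, ENNReal.ofReal ((C₀ + 2) * XS g κ k₀ m x) =
            ENNReal.ofReal (C₀ + 2) * ENNReal.ofReal (XS g κ k₀ m x) := fun x =>
          ENNReal.ofReal_mul (by positivity)
        simp_rw [h1]
        rw [lintegral_const_mul _ hmX.ennreal_ofReal, ENNReal.ofReal_mul (by positivity), mul_assoc]
        refine mul_le_mul_right ?_ _
        exact lint_XS_le hg hM hκ k₀ j₀ m (hQ k₀ le_rfl j₀)

end all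

end Crest.Agent.R100.UB711
end
end

-- ▼ part R100/LevM_710
section

/-!
# R100 / S0132, helper710: moment numerics of one level (between B9 and B13 of doc 1968)
-/

set_option autoImplicit false

open Finset MeasureTheory
open scoped ENNReal

noncomputable section

namespace Crest.Agent.R100.LevM710

/-- choice of `β` with `60 B Q ≤ a 2 ^ β` and `4 β + 4 = O (1 + log (2 Q / a))`, if
`B ≤ c1 (Q / a) ^ e` -/
theorem exists_beta {c1 a Q B : ℝ} {e : ℕ} (ha : 0 < a) (haQ : a ≤ Q) (hc1 : 1 ≤ c1)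
    (hB0 : 0 ≤ B) (hB : B ≤ c1 * (Q / a) ^ e) :
    ∃ β : ℕ, 60 * (B * Q) ≤ a * 2 ^ β ∧
      (4 * (β : ℝ) + 4) ≤ (8 + 6 * Real.log (60 * c1) + 6 * (e + 1)) *
        (1 + Real.log (2 * Q / a)) := by
  have hQ : 0 < Q := ha.trans_le haQ
  have hr : 1 ≤ Q / a := (one_le_div ha).2 haQ
  set r := Q / a with hrdef
  have hX : 0 < 60 * c1 * r ^ (e + 1) := by positivity
  have hX1 : 1 ≤ 60 * c1 * r ^ (e + 1) := by
    have : 1 ≤ r ^ (e + 1) := one_le_pow₀ hr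
    nlinarith
  refine ⟨⌈Real.logb 2 (60 * c1 * r ^ (e + 1))⌉₊, ?_, ?_⟩
  · have h1 : Real.logb 2 (60 * c1 * r ^ (e + 1))
        ≤ ((⌈Real.logb 2 (60 * c1 * r ^ (e + 1))⌉₊ : ℕ) : ℝ) := Nat.le_ceil _
    have h2 : 60 * c1 * r ^ (e + 1)
        ≤ (2 : ℝ) ^ ⌈Real.logb 2 (60 * c1 * r ^ (e + 1))⌉₊ := by
      rw [Real.logb_le_iff_le_rpow (by norm_num) hX, Real.rpow_natCast] at h1
      exact h1
    have h3 : Q = a * r := by
      rw [hrdef]
      field_simp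
    calc 60 * (B * Q) ≤ 60 * (c1 * r ^ e * Q) := by gcongr
      _ = a * (60 * c1 * r ^ (e + 1)) := by
          rw [h3, pow_succ]
          ring
      _ ≤ _ := by gcongr
  · have hlg : Real.log (2 * Q / a) = Real.log 2 + Real.log r := by
      rw [hrdef, ← Real.log_mul (by norm_num) (by positivity)]
      congr 1
      ring
    have hlr : 0 ≤ Real.log r := Real.log_nonneg hr
    have hl2 : 0.69 ≤ Real.log 2 := by
      have := Real.log_two_gt_d9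
      linarith
    have hl60 : 0 ≤ Real.log (60 * c1) := Real.log_nonneg (by linarith)
    have h1 : ((⌈Real.logb 2 (60 * c1 * r ^ (e + 1))⌉₊ : ℕ) : ℝ)
        ≤ Real.logb 2 (60 * c1 * r ^ (e + 1)) + 1 := by
      have := Nat.ceil_lt_add_one (a := Real.logb 2 (60 * c1 * r ^ (e + 1)))
        (Real.logb_nonneg (by norm_num) hX1)
      exact this.le
    have h2 : Real.logb 2 (60 * c1 * r ^ (e + 1))
        = (Real.log (60 * c1) + (e + 1) * Real.log r) / Real.log 2 := by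
      unfold Real.logb
      rw [Real.log_mul (by positivity) (by positivity), Real.log_pow]
      push_cast
      ring
    have h3 : (Real.log (60 * c1) + (e + 1) * Real.log r) / Real.log 2
        ≤ 1.5 * (Real.log (60 * c1) + (e + 1) * Real.log r) := by
      rw [div_le_iff₀ (by linarith)]
      have h4 : 0 ≤ Real.log (60 * c1) + (e + 1) * Real.log r := by positivity
      nlinarith
    rw [hlg]
    have he : (0 : ℝ) ≤ e := Nat.cast_nonneg _
    have h5 : 0 ≤ (e : ℝ) * Real.log r := by positivity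
    have h6 : 0 ≤ Real.log (60 * c1) * Real.log r := by positivity
    have h7 : 0 ≤ Real.log (60 * c1) * Real.log 2 := by positivity
    have h8 : 0 ≤ (e : ℝ) * Real.log 2 := by positivity
    have h9 := h1.trans (add_le_add_left (h2.le.trans h3) 1)
    nlinarith

theorem moment_aux {P : Set ℝ} {R : ℝ → ℝ} {w V K1 : ℝ} {q : ℕ} (hw : 0 ≤ w)
    (hR0 : ∀ x, 0 ≤ R x) (hK1 : 0 ≤ K1)
    (hR : ∫⁻ x in P, ENNReal.ofReal (R x ^ q) ≤ ENNReal.ofReal K1 * ENNReal.ofReal V)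
    (hV : volume P = ENNReal.ofReal V) (hq : 1 ≤ q) :
    ∫⁻ x in P, ENNReal.ofReal (w + R x) ^ q
      ≤ ENNReal.ofReal (2 ^ q * (w ^ q + K1)) * ENNReal.ofReal V := by
  have hpt : ∀ x, ENNReal.ofReal (w + R x) ^ q
      ≤ ENNReal.ofReal (2 ^ q) * (ENNReal.ofReal (w ^ q) + ENNReal.ofReal (R x ^ q)) := by
    intro x
    have h1 : (w + R x) ^ q ≤ 2 ^ q * (w ^ q + R x ^ q) := by
      have h2 := add_pow_le hw (hR0 x) q
      have h3 : (2 : ℝ) ^ (q - 1) ≤ 2 ^ q := pow_le_pow_right₀ (by norm_num) (by omega)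
      have h4 : 0 ≤ w ^ q + R x ^ q := add_nonneg (pow_nonneg hw q) (pow_nonneg (hR0 x) q)
      exact h2.trans (mul_le_mul_of_nonneg_right h3 h4)
    rw [← ENNReal.ofReal_pow (add_nonneg hw (hR0 x)), ← ENNReal.ofReal_add (pow_nonneg hw q)
      (pow_nonneg (hR0 x) q), ← ENNReal.ofReal_mul (by positivity)]
    exact ENNReal.ofReal_le_ofReal h1
  calc ∫⁻ x in P, ENNReal.ofReal (w + R x) ^ q
      ≤ ∫⁻ x in P, ENNReal.ofReal (2 ^ q)
          * (ENNReal.ofReal (w ^ q) + ENNReal.ofReal (R x ^ q)) := lintegral_mono hpt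
    _ = ENNReal.ofReal (2 ^ q) * (ENNReal.ofReal (w ^ q) * volume P
          + ∫⁻ x in P, ENNReal.ofReal (R x ^ q)) := by
        rw [lintegral_const_mul' _ _ ENNReal.ofReal_ne_top, lintegral_add_left measurable_const,
          lintegral_const, Measure.restrict_apply_univ]
    _ ≤ ENNReal.ofReal (2 ^ q) * (ENNReal.ofReal (w ^ q) * ENNReal.ofReal V
          + ENNReal.ofReal K1 * ENNReal.ofReal V) := by
        rw [hV]
        gcongr
    _ = _ := by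
        rw [← add_mul, ← ENNReal.ofReal_add (pow_nonneg hw q) hK1, ← mul_assoc,
          ← ENNReal.ofReal_mul (by positivity)]

/-- **moments of `w a + R`** on one top: `R` = run maximal function (B6), `w = 4 β + 4` -/
theorem level_moment {P : Set ℝ} {R : ℝ → ℝ} {a Q C C3 C4 w V : ℝ} {κ q : ℕ} (ha : 0 < a)
    (haQ : a ≤ Q) (hC : 0 ≤ C) (hC3 : 0 ≤ C3) (hC4 : 0 ≤ C4)
    (hw : 0 ≤ w) (hw' : w ≤ C3 * (1 + Real.log (2 * Q / a)))
    (hR0 : ∀ x, 0 ≤ R x) (hq : 1 ≤ q) (hV : volume P = ENNReal.ofReal V)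
    (hR : ∫⁻ x in P, ENNReal.ofReal (R x ^ q)
      ≤ ENNReal.ofReal ((C * q * a) ^ q * (C4 * (Q / a) ^ κ)) * volume P) :
    ∫⁻ x in P, ENNReal.ofReal (w * a + R x) ^ q
      ≤ ENNReal.ofReal ((2 * (C3 + C) * a * (q + Real.log (2 * Q / a))) ^ q
          * ((1 + C4) * (Q / a) ^ κ)) * volume P := by
  have hQ : 0 < Q := ha.trans_le haQ
  have hr : 1 ≤ Q / a := (one_le_div ha).2 haQ
  have hL : 0 ≤ Real.log (2 * Q / a) := by
    apply Real.log_nonneg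
    rw [le_div_iff₀ ha]
    linarith
  set Lg := Real.log (2 * Q / a)
  have hq1 : (1 : ℝ) ≤ q := by exact_mod_cast hq
  rw [hV] at hR
  have h1 := moment_aux (P := P) (R := R) (w := w * a) (V := V)
    (K1 := (C * q * a) ^ q * (C4 * (Q / a) ^ κ)) (q := q) (by positivity) hR0 (by positivity) hR hV
    hq
  refine h1.trans ?_
  rw [hV]
  refine mul_le_mul_left ?_ _
  refine ENNReal.ofReal_le_ofReal ?_
  have hrk : 1 ≤ (Q / a) ^ κ := one_le_pow₀ hr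
  have h2 : (w * a) ^ q ≤ ((C3 + C) * a * (q + Lg)) ^ q := by
    refine pow_le_pow_left₀ (by positivity) ?_ q
    calc w * a ≤ C3 * (1 + Lg) * a := by gcongr
      _ ≤ (C3 + C) * (q + Lg) * a := by gcongr; linarith
      _ = _ := by ring
  have h3 : (C * q * a) ^ q ≤ ((C3 + C) * a * (q + Lg)) ^ q := by
    refine pow_le_pow_left₀ (by positivity) ?_ q
    calc C * q * a ≤ (C3 + C) * (q + Lg) * a := by gcongr <;> linarith
      _ = _ := by ring
  set Z := ((C3 + C) * a * (q + Lg)) ^ q with hZ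
  have hZ0 : 0 ≤ Z := by positivity
  calc 2 ^ q * ((w * a) ^ q + (C * q * a) ^ q * (C4 * (Q / a) ^ κ))
      ≤ 2 ^ q * (Z * (Q / a) ^ κ + Z * (C4 * (Q / a) ^ κ)) := by
        gcongr
        nlinarith
    _ = (2 ^ q * Z) * ((1 + C4) * (Q / a) ^ κ) := by ring
    _ = _ := by
        rw [hZ, ← mul_pow]
        congr 2
        ring

/-- summed over the tops, with the multiplicity `mu0` -/
theorem level_sum {ι : Type*} {T : Finset ι} {P : ι → Set ℝ} {R : ι → ℝ → ℝ} {I : Set ℝ}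
    {a Q C C3 C4 w S : ℝ} {V : ι → ℝ} {κ q N : ℕ} {μ0 X : ℝ≥0∞} (ha : 0 < a)
    (haQ : a ≤ Q) (hC : 0 ≤ C) (hC3 : 0 ≤ C3) (hC4 : 0 ≤ C4)
    (hw : 0 ≤ w) (hw' : w ≤ C3 * (1 + Real.log (2 * Q / a)))
    (hR0 : ∀ t ∈ T, ∀ x, 0 ≤ R t x) (hq : 1 ≤ q) (hV : ∀ t ∈ T, volume (P t) = ENNReal.ofReal (V t))
    (hV0 : ∀ t ∈ T, 0 ≤ V t) (hS : ∑ t ∈ T, V t ≤ S)
    (hR : ∀ t ∈ T, ∫⁻ x in P t, ENNReal.ofReal (R t x ^ q)
      ≤ ENNReal.ofReal ((C * q * a) ^ q * (C4 * (Q / a) ^ κ)) * volume (P t))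
    (hX : X ≤ (N : ℝ≥0∞) * μ0
      * ∑ t ∈ T, ∫⁻ x in P t ∩ I, ENNReal.ofReal (w * a + R t x) ^ q) :
    X ≤ (N : ℝ≥0∞) * μ0 * (ENNReal.ofReal ((2 * (C3 + C) * a * (q + Real.log (2 * Q / a))) ^ q
          * ((1 + C4) * (Q / a) ^ κ)) * ENNReal.ofReal S) := by
  refine hX.trans ?_
  gcongr
  calc ∑ t ∈ T, ∫⁻ x in P t ∩ I, ENNReal.ofReal (w * a + R t x) ^ q
      ≤ ∑ t ∈ T, ENNReal.ofReal ((2 * (C3 + C) * a * (q + Real.log (2 * Q / a))) ^ q
          * ((1 + C4) * (Q / a) ^ κ)) * ENNReal.ofReal (V t) := by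
        refine sum_le_sum fun t ht => ?_
        rw [← hV t ht]
        refine le_trans (lintegral_mono_set Set.inter_subset_left) ?_
        exact level_moment ha haQ hC hC3 hC4 hw hw' (hR0 t ht) hq (hV t ht) (hR t ht)
    _ = ENNReal.ofReal ((2 * (C3 + C) * a * (q + Real.log (2 * Q / a))) ^ q
          * ((1 + C4) * (Q / a) ^ κ)) * ENNReal.ofReal (∑ t ∈ T, V t) := by
        rw [← mul_sum, ENNReal.ofReal_sum_of_nonneg hV0]
    _ ≤ _ := by
        gcongr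

/-- normal form of one level for `Fin710.final_sum`: `W` = `Lam0`, `lam` = volume of the set of
labels, `ι0` = length of the node, `m0 / ι0` = multiplicity, `E1 (Q/a)^k1 (D0 W / a)^(2h) ι0` =
total length of the tops -/
theorem level_final {a Q b W A' C4 E1 G1 D0 c0 m0 lam ι0 c1 B q' : ℝ} {κ k1 e h q : ℕ} {X μ0 : ℝ≥0∞}
    {N : ℕ} (ha : 0 < a) (haQ : a ≤ Q) (hb : 0 < b) (hW : 0 < W) (hA' : 0 ≤ A') (hC4 : 0 ≤ C4)
    (hE1 : 0 ≤ E1) (hG1 : 0 ≤ G1) (hD0 : 0 ≤ D0) (hc0 : 0 < c0) (hm0 : 0 ≤ m0) (hlam : 0 < lam)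
    (hι0 : 0 < ι0) (hB : B ≤ c1 * (Q / a) ^ e) (hc1 : 1 ≤ c1) (hN : (N : ℝ) ≤ 2 * B + 2)
    (hq' : 0 ≤ q')
    (hpop : (c0 * W) ^ (2 * h) ≤ G1 * (ι0 * lam * b ^ (2 * h)))
    (hμ0 : μ0 ≤ ENNReal.ofReal (m0 / ι0))
    (hX : X ≤ (N : ℝ≥0∞) * μ0 * (ENNReal.ofReal ((A' * a * q') ^ q * ((1 + C4) * (Q / a) ^ κ))
      * ENNReal.ofReal (ι0 * E1 * (Q / a) ^ k1 * (D0 * W / a) ^ (2 * h)))) :
    (ENNReal.ofReal (ι0 * lam))⁻¹ * X ≤ ENNReal.ofReal ((A' * a * q') ^ q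
      * ((4 * c1 * (1 + C4) * E1 * G1 * m0) * (Q / a) ^ (κ + k1 + e))
      * (D0 / c0 * b / a) ^ (2 * h)) := by
  have hQ : 0 < Q := ha.trans_le haQ
  have hr : 1 ≤ Q / a := (one_le_div ha).2 haQ
  have hre : 1 ≤ (Q / a) ^ e := one_le_pow₀ hr
  have hN' : (N : ℝ) ≤ 4 * c1 * (Q / a) ^ e := by nlinarith
  have hX1 : X ≤ ENNReal.ofReal ((4 * c1 * (Q / a) ^ e) * (m0 / ι0)
      * (((A' * a * q') ^ q * ((1 + C4) * (Q / a) ^ κ))
      * (ι0 * E1 * (Q / a) ^ k1 * (D0 * W / a) ^ (2 * h)))) := by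
    refine hX.trans ?_
    rw [ENNReal.ofReal_mul (p := (4 * c1 * (Q / a) ^ e) * (m0 / ι0)) (by positivity),
      ENNReal.ofReal_mul (p := 4 * c1 * (Q / a) ^ e) (by positivity),
      ENNReal.ofReal_mul (p := (A' * a * q') ^ q * ((1 + C4) * (Q / a) ^ κ)) (by positivity)]
    gcongr
    rw [← ENNReal.ofReal_natCast]
    exact ENNReal.ofReal_le_ofReal hN'
  calc (ENNReal.ofReal (ι0 * lam))⁻¹ * X
      ≤ (ENNReal.ofReal (ι0 * lam))⁻¹ * ENNReal.ofReal ((4 * c1 * (Q / a) ^ e) * (m0 / ι0)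
      * (((A' * a * q') ^ q * ((1 + C4) * (Q / a) ^ κ))
      * (ι0 * E1 * (Q / a) ^ k1 * (D0 * W / a) ^ (2 * h)))) := by gcongr
    _ = ENNReal.ofReal ((ι0 * lam)⁻¹ * ((4 * c1 * (Q / a) ^ e) * (m0 / ι0)
      * (((A' * a * q') ^ q * ((1 + C4) * (Q / a) ^ κ))
      * (ι0 * E1 * (Q / a) ^ k1 * (D0 * W / a) ^ (2 * h))))) := by
        rw [← ENNReal.ofReal_inv_of_pos (by positivity), ← ENNReal.ofReal_mul (by positivity)]
    _ ≤ _ := by
        refine ENNReal.ofReal_le_ofReal ?_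
        have hWp : 0 < (c0 * W) ^ (2 * h) := by positivity
        have h1 : (ι0 * lam)⁻¹ ≤ G1 * b ^ (2 * h) / (c0 * W) ^ (2 * h) := by
          rw [le_div_iff₀ hWp, inv_mul_le_iff₀ (by positivity)]
          calc (c0 * W) ^ (2 * h) ≤ G1 * (ι0 * lam * b ^ (2 * h)) := hpop
            _ = _ := by ring
        have h2 : (D0 * W / a) ^ (2 * h) / (c0 * W) ^ (2 * h) * b ^ (2 * h)
            = (D0 / c0 * b / a) ^ (2 * h) := by
          rw [← div_pow, ← mul_pow]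
          congr 1
          field_simp
        calc (ι0 * lam)⁻¹ * ((4 * c1 * (Q / a) ^ e) * (m0 / ι0)
              * (((A' * a * q') ^ q * ((1 + C4) * (Q / a) ^ κ))
              * (ι0 * E1 * (Q / a) ^ k1 * (D0 * W / a) ^ (2 * h))))
            ≤ (G1 * b ^ (2 * h) / (c0 * W) ^ (2 * h)) * ((4 * c1 * (Q / a) ^ e) * (m0 / ι0)
              * (((A' * a * q') ^ q * ((1 + C4) * (Q / a) ^ κ))
              * (ι0 * E1 * (Q / a) ^ k1 * (D0 * W / a) ^ (2 * h)))) := by gcongr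
          _ = (A' * a * q') ^ q * ((4 * c1 * (1 + C4) * E1 * G1 * m0)
              * ((Q / a) ^ κ * (Q / a) ^ k1 * (Q / a) ^ e))
              * ((D0 * W / a) ^ (2 * h) / (c0 * W) ^ (2 * h) * b ^ (2 * h)) := by
              field_simp
          _ = _ := by
              rw [h2, ← pow_add, ← pow_add]

end Crest.Agent.R100.LevM710
end
end

-- ▼ part R100/UB2_711

/-!
# R100 / S0132, helper711: upper bound (UB), final form: moments, product measure, summation over the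
levels.
-/

set_option autoImplicit false

open MeasureTheory Set
open scoped ENNReal

noncomputable section

namespace Crest.Agent.R100.UB711

open Crest.Agent.R100.Mart933 Crest.Agent.R100.Wide933 Crest.Agent.R100.Hunt933
open Crest.Agent.R100.Run288 Crest.Agent.R100.Tree711 Crest.Agent.R100.Lev710

variable {g : ℝ → ℂ} {κ : ℝ → ℕ} {M : ℝ}

/-- the run maximal functions of the tops (block B6 of helper288, abstract form) -/
def RunMax (C₀ C C4 : ℝ) (κR : ℕ) (g : ℝ → ℂ) (κ : ℝ → ℕ) (Q : ℝ) (k₀ m : ℕ) : Prop :=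
  ∀ a : ℝ, 0 < a → a ≤ Q → ∀ (k : ℕ) (j : ℤ) (w : ℝ), k₀ ≤ k →
    ∃ Rt : ℝ → ℝ, Measurable Rt ∧ (∀ x, 0 ≤ Rt x) ∧
      (∀ x ∈ Ivl k j, ∀ k' K', k ≤ k' → k' ≤ K' → K' ≤ m →
        (∀ l, k' ≤ l → l ≤ K' → ‖bb g κ w l (fl l x)‖ ≤ 3 * a) →
        ‖TS g κ w k' K' x‖ ≤ Rt x + C₀ * XS g κ k' K' x) ∧
      ∀ q : ℕ, 1 ≤ q → ∫⁻ x in Ivl k j, ENNReal.ofReal (Rt x ^ q) ≤
        ENNReal.ofReal ((C * q * a) ^ q * (C4 * (Q / a) ^ κR)) * volume (Ivl k j)

theorem exists_levels {Q a₀ : ℝ} (ha : 0 < a₀) :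
    ∃ n : ℕ, Q < a₀ * 2 ^ n ∧ ∀ i < n, a₀ * 2 ^ i ≤ Q := by
  classical
  have hex : ∃ n : ℕ, Q < a₀ * 2 ^ n := by
    obtain ⟨n, hn⟩ := pow_unbounded_of_one_lt (Q / a₀) (by norm_num : (1 : ℝ) < 2)
    refine ⟨n, ?_⟩
    rw [div_lt_iff₀ ha] at hn
    linarith
  exact ⟨Nat.find hex, Nat.find_spec hex, fun i hi => not_lt.1 (Nat.find_min hex hi)⟩

/-- **UPPER BOUND** (assembly of B6, B7, B9, TOPS, B13).  `D`, `E2`, `k1`, `c1`, `e` come from the
tops; `m0` from the multiplicity. -/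
theorem ub_of_run {C₀ C C4 : ℝ} {κR : ℕ} (hC₀ : 0 ≤ C₀) (hC : 0 < C) (hC4 : 0 ≤ C4)
    (hg : Measurable g) (hM : ∀ x, ‖g x‖ ≤ M) (hκ : Measurable κ) {θ : ℝ → ℝ}
    (hθ : Measurable θ) {R : ℕ} (hR : ∀ y, g y ≠ 0 → κ y < R) {k₀ m : ℕ} {j₀ : ℤ} {Q : ℝ}
    (hQ : ∀ k, k₀ ≤ k → ∀ j, avN (Pb g κ k) k j ≤ Q)
    (hrun : RunMax C₀ C C4 κR g κ Q k₀ m)
    {Λ : Set ℝ} {lam : ℝ} (hlam : 0 < lam) (hΛ : volume Λ = ENNReal.ofReal lam) {m0 : ℝ}
    (hm0 : 0 ≤ m0)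
    (hmult : ∀ u : ℝ, volume (Λ ∩ Icc u (u + 2 ^ (R - 1))) ≤ ENNReal.ofReal (m0 * 2 ^ k₀))
    {b D E2 c1 : ℝ} {h k1 e : ℕ} (hb : 0 < b) (hbQ : b ≤ Q) (hD : 1 ≤ D) (hh : 1 ≤ h)
    (hE2 : 0 ≤ E2) (hc1 : 1 ≤ c1) (hκh : 2 * (κR + k1 + e) ≤ h)
    (hE : 4 * c1 * (1 + C4) * E2 * m0 * (Q / b) ^ (κR + k1 + e) ≤ 4 ^ (2 * h))
    (hL : Real.log (2 * Q / b) ≤ 2 * h)
    (htops : ∀ a, 0 < a → a ≤ Q → ∃ (T : Finset (ℕ × ℤ × ℝ)) (B : ℝ), 0 ≤ B ∧
      B ≤ c1 * (Q / a) ^ e ∧ (∀ t ∈ T, k₀ ≤ t.1) ∧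
      (∀ x ∈ Ivl k₀ j₀, ∀ k, k₀ ≤ k → k ≤ m → ∀ ξ, a ≤ ‖bb g κ ξ k (fl k x)‖ →
        ∃ t ∈ T, t.1 ≤ k ∧ x ∈ Ivl t.1 t.2.1 ∧ |ξ - t.2.2| ≤ B * 2 ^ k) ∧
      ∑ t ∈ T, (1 : ℝ) / 2 ^ t.1 ≤
        1 / 2 ^ k₀ * (1 / 2 ^ k₀ * lam) * E2 * (Q / a) ^ k1 * (D * b / a) ^ (2 * h)) :
    ∫⁻ x in Ivl k₀ j₀, ∫⁻ Y in Λ, ‖TS g κ (Y + θ x) k₀ m x‖ₑ ≤
      ENNReal.ofReal (400 * (2 * (8 + 6 * Real.log (60 * c1) + 6 * (e + 1) + C)) * D ^ 2 *
        (2 * h) * b + (C₀ + 2) * Q + b) * (volume (Ivl k₀ j₀) * volume Λ) := by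
  classical
  have hQ0 : 0 < Q := hb.trans_le hbQ
  have hlog : 0 ≤ Real.log (60 * c1) := Real.log_nonneg (by linarith)
  set C3 : ℝ := 8 + 6 * Real.log (60 * c1) + 6 * (e + 1) with hC3
  have hC3' : 0 ≤ C3 := by positivity
  set j0 : ℕ := m + 1 with hj0
  set a₀ : ℝ := b / 2 ^ j0 with ha₀
  have ha₀' : 0 < a₀ := by positivity
  obtain ⟨n, hn1, hn2⟩ := exists_levels (Q := Q) ha₀'
  have hai : ∀ i, 0 < a₀ * 2 ^ i := fun i => by positivity
  -- tops of the levels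
  have H1 : ∀ i, ∃ (T : Finset (ℕ × ℤ × ℝ)) (B : ℝ) (β : ℕ), i < n → (0 ≤ B ∧
      B ≤ c1 * (Q / (a₀ * 2 ^ i)) ^ e ∧ (∀ t ∈ T, k₀ ≤ t.1) ∧
      (∀ x ∈ Ivl k₀ j₀, ∀ k, k₀ ≤ k → k ≤ m → ∀ ξ, a₀ * 2 ^ i ≤ ‖bb g κ ξ k (fl k x)‖ →
        ∃ t ∈ T, t.1 ≤ k ∧ x ∈ Ivl t.1 t.2.1 ∧ |ξ - t.2.2| ≤ B * 2 ^ k) ∧
      ∑ t ∈ T, (1 : ℝ) / 2 ^ t.1 ≤
        1 / 2 ^ k₀ * (1 / 2 ^ k₀ * lam) * E2 * (Q / (a₀ * 2 ^ i)) ^ k1 *
          (D * b / (a₀ * 2 ^ i)) ^ (2 * h)) ∧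
      60 * (B * Q) ≤ a₀ * 2 ^ i * 2 ^ β ∧
      (4 * (β : ℝ) + 4) ≤ C3 * (1 + Real.log (2 * Q / (a₀ * 2 ^ i))) := by
    intro i
    by_cases hi : i < n
    · obtain ⟨T, B, h1, h2, h3, h4, h5⟩ := htops (a₀ * 2 ^ i) (hai i) (hn2 i hi)
      obtain ⟨β, h6, h7⟩ := LevM710.exists_beta (hai i) (hn2 i hi) hc1 h1 h2
      exact ⟨T, B, β, fun _ => ⟨⟨h1, h2, h3, h4, h5⟩, h6, h7⟩⟩
    · exact ⟨∅, 0, 0, fun h => absurd h hi⟩
  choose T B β HT using H1
  -- run maximal functions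
  have H2 : ∀ i (t : ℕ × ℤ × ℝ), ∃ Rt : ℝ → ℝ, Measurable Rt ∧ (∀ x, 0 ≤ Rt x) ∧
      (i < n → k₀ ≤ t.1 → (∀ x ∈ Ivl t.1 t.2.1, ∀ k' K', t.1 ≤ k' → k' ≤ K' → K' ≤ m →
        (∀ l, k' ≤ l → l ≤ K' → ‖bb g κ t.2.2 l (fl l x)‖ ≤ 3 * (a₀ * 2 ^ i)) →
        ‖TS g κ t.2.2 k' K' x‖ ≤ Rt x + C₀ * XS g κ k' K' x) ∧
      ∀ q : ℕ, 1 ≤ q → ∫⁻ x in Ivl t.1 t.2.1, ENNReal.ofReal (Rt x ^ q) ≤
        ENNReal.ofReal ((C * q * (a₀ * 2 ^ i)) ^ q * (C4 * (Q / (a₀ * 2 ^ i)) ^ κR)) *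
          volume (Ivl t.1 t.2.1)) := by
    intro i t
    by_cases hi : i < n ∧ k₀ ≤ t.1
    · obtain ⟨Rt, h1, h2, h3, h4⟩ := hrun (a₀ * 2 ^ i) (hai i) (hn2 i hi.1) t.1 t.2.1 t.2.2 hi.2
      exact ⟨Rt, h1, h2, fun _ _ => ⟨h3, h4⟩⟩
    · exact ⟨fun _ => 0, measurable_const, fun _ => le_rfl, fun h h' => absurd ⟨h, h'⟩ hi⟩
  choose Rt hRm hRt0 hRt using H2
  -- structural bound
  have hstr := ub_struct (Q := Q) (a₀ := a₀) (C₀ := C₀) (j₀ := j₀) (m := m) hg hM hκ hθ hR hQ0.le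
    ha₀' hC₀ hQ hn1 T B β Rt hRm
    (fun i hi => (HT i hi).1.1) (fun i hi => (HT i hi).2.1) (fun i hi => (HT i hi).1.2.2.2.1)
    (fun i _ t _ x => hRt0 i t x)
    (fun i hi t ht => (hRt i t hi ((HT i hi).1.2.2.1 t ht)).1) Λ
  refine hstr.trans ?_
  set G : ℕ → ℝ → ℝ → ℝ≥0∞ := fun i x Y =>
    GG (T i) (fun t => t.1) (fun t => t.2.1) (fun t => t.2.2) θ (B i * 2 ^ (R - 1))
          (fun t x => ENNReal.ofReal ((4 * β i + 4) * (a₀ * 2 ^ i) + Rt i t x)) x Y with hG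
  have hHm : ∀ i t, Measurable fun x =>
      ENNReal.ofReal ((4 * β i + 4) * (a₀ * 2 ^ i) + Rt i t x) := fun i t =>
    ((hRm i t).const_add _).ennreal_ofReal
  have hGm : ∀ i, Measurable fun p : ℝ × ℝ => G i p.1 p.2 := fun i =>
    measurable_GG hθ fun t => hHm i t
  -- the product measure
  set ι0 : ℝ := 1 / 2 ^ k₀ with hι0
  have hι0' : 0 < ι0 := by positivity
  set c : ℝ≥0∞ := ENNReal.ofReal (ι0 * lam) with hc
  have hc0 : c ≠ 0 := by
    rw [hc, Ne, ENNReal.ofReal_eq_zero, not_le]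
    positivity
  have hct : c ≠ ⊤ := ENNReal.ofReal_ne_top
  have hvol : volume (Ivl k₀ j₀) * volume Λ = c := by
    rw [volume_Ivl, hΛ, ← ENNReal.ofReal_mul (by positivity)]
  set μ : Measure (ℝ × ℝ) :=
    c⁻¹ • ((volume.restrict (Ivl k₀ j₀)).prod (volume.restrict Λ)) with hμdef
  have hμ : μ Set.univ ≤ 1 := by
    rw [hμdef, Measure.smul_apply, smul_eq_mul, ← univ_prod_univ, Measure.prod_prod,
      Measure.restrict_apply_univ, Measure.restrict_apply_univ, hvol,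
      ENNReal.inv_mul_cancel hc0 hct]
  have hlin : ∀ F : ℝ × ℝ → ℝ≥0∞, Measurable F → ∫⁻ ω, F ω ∂μ =
      c⁻¹ * ∫⁻ x in Ivl k₀ j₀, ∫⁻ Y in Λ, F (x, Y) := by
    intro F hF
    rw [hμdef, lintegral_smul_measure, lintegral_prod _ hF.aemeasurable, smul_eq_mul]
  -- the moments of one level
  have hmom : ∀ i < n, ∀ q : ℕ, (q = h ∨ q = 4 * h) →
      ∫⁻ ω, G i ω.1 ω.2 ^ q ∂μ ≤ ENNReal.ofReal
        ((2 * (C3 + C) * (b / 2 ^ j0 * 2 ^ i) *
          ((q : ℝ) + Real.log (2 * Q / (b / 2 ^ j0 * 2 ^ i)))) ^ q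
          * ((4 * c1 * (1 + C4) * E2 * m0) * (Q / (b / 2 ^ j0 * 2 ^ i)) ^ (κR + k1 + e))
          * (D * b / (b / 2 ^ j0 * 2 ^ i)) ^ (2 * h)) := by
    intro i hi q hq
    have hq1 : 1 ≤ q := by rcases hq with rfl | rfl <;> omega
    obtain ⟨⟨hB0, hB1, hTk, -, hTs⟩, hβ1, hβ2⟩ := HT i hi
    have haQ := hn2 i hi
    rw [hlin _ ((hGm i).pow_const q)]
    show c⁻¹ * ∫⁻ x in Ivl k₀ j₀, ∫⁻ Y in Λ, G i x Y ^ q ≤ _
    have hX := lint_GG_le (T := T i) (kt := fun t : ℕ × ℤ × ℝ => t.1)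
      (jt := fun t : ℕ × ℤ × ℝ => t.2.1) (wt := fun t : ℕ × ℤ × ℝ => t.2.2) (θ := θ) (Λ := Λ)
      (r := 2 ^ (R - 1)) (B := B i) (by positivity) hmult (hHm i)
      (by omega : q ≠ 0) (I := Ivl k₀ j₀)
    have hX2 := LevM710.level_sum (T := T i) (P := fun t : ℕ × ℤ × ℝ => Ivl t.1 t.2.1)
      (R := Rt i) (I := Ivl k₀ j₀) (a := a₀ * 2 ^ i) (Q := Q) (C := C) (C3 := C3) (C4 := C4)
      (w := 4 * β i + 4)
      (S := ι0 * (ι0 * lam) * E2 * (Q / (a₀ * 2 ^ i)) ^ k1 * (D * b / (a₀ * 2 ^ i)) ^ (2 * h))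
      (V := fun t => 1 / 2 ^ t.1) (κ := κR) (q := q) (hai i) haQ hC.le hC3' hC4 (by positivity) hβ2
      (fun t _ x => hRt0 i t x) hq1 (fun t _ => volume_Ivl _ _) (fun t _ => by positivity) hTs
      (fun t ht => (hRt i t hi (hTk t ht)).2 q hq1) hX
    have hX3 := LevM710.level_final (a := a₀ * 2 ^ i) (Q := Q) (b := b) (W := b)
      (A' := 2 * (C3 + C)) (C4 := C4) (E1 := ι0 * lam * E2) (G1 := (ι0 * lam)⁻¹) (D0 := D) (c0 := 1)
      (m0 := m0) (lam := lam) (ι0 := ι0) (c1 := c1) (B := B i)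
      (q' := (q : ℝ) + Real.log (2 * Q / (a₀ * 2 ^ i))) (κ := κR) (k1 := k1) (e := e) (h := h)
      (q := q) (μ0 := ENNReal.ofReal (m0 * 2 ^ k₀)) (N := ⌈2 * B i⌉₊ + 1)
      (X := ∫⁻ x in Ivl k₀ j₀, ∫⁻ Y in Λ, G i x Y ^ q)
      (hai i) haQ hb hb (by positivity) hC4 (by positivity) (by positivity) (by linarith)
      one_pos hm0 hlam hι0' hB1 hc1
      (by
        push_cast
        have := Nat.ceil_lt_add_one (show 0 ≤ 2 * B i by positivity)
        linarith)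
      (by
        have : 0 ≤ Real.log (2 * Q / (a₀ * 2 ^ i)) := by
          apply Real.log_nonneg
          rw [le_div_iff₀ (hai i)]
          linarith
        positivity)
      (by
        rw [one_mul, ← mul_assoc, inv_mul_cancel₀ (by positivity), one_mul])
      (by
        refine ENNReal.ofReal_le_ofReal (le_of_eq ?_)
        rw [hι0]
        field_simp)
      (by
        refine hX2.trans (le_of_eq ?_)
        congr 3
        ring)
    refine hX3.trans (le_of_eq ?_)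
    congr 1
    have e1 : 4 * c1 * (1 + C4) * (ι0 * lam * E2) * (ι0 * lam)⁻¹ * m0 =
        4 * c1 * (1 + C4) * E2 * m0 := by
      field_simp
    rw [e1, div_one]
  have hfin := Fin710.final_sum (μ := μ) hμ (b := b) (Q := Q) (A := 2 * (C3 + C)) (D := D)
    (E0 := 4 * c1 * (1 + C4) * E2 * m0) (κ := κR + k1 + e) (h := h) (m := n) (j0 := j0) hb hbQ
    (by positivity) hD hh hκh (by positivity) hE hL (fun i ω => G i ω.1 ω.2) hn2 hmom
  have hsum : ∑ i ∈ Finset.range n, ∫⁻ x in Ivl k₀ j₀, ∫⁻ Y in Λ, G i x Y ≤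
      ENNReal.ofReal (400 * (2 * (C3 + C)) * D ^ 2 * (2 * h) * b) * c := by
    have h1 : ∀ i, ∫⁻ x in Ivl k₀ j₀, ∫⁻ Y in Λ, G i x Y = (∫⁻ ω, G i ω.1 ω.2 ∂μ) * c := by
      intro i
      rw [hlin _ (hGm i), mul_comm c⁻¹, mul_assoc, ENNReal.inv_mul_cancel hc0 hct, mul_one]
    simp_rw [h1]
    rw [← Finset.sum_mul]
    exact mul_le_mul_left hfin _
  have hfloor : ((m - k₀ : ℕ) : ℝ) * (2 * a₀) ≤ b := by
    have h1 : ((m - k₀ : ℕ) : ℝ) ≤ m := by exact_mod_cast Nat.sub_le _ _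
    have h2 : (m : ℝ) ≤ 2 ^ m := by exact_mod_cast Nat.lt_two_pow_self.le
    have h3 : ((m - k₀ : ℕ) : ℝ) ≤ 2 ^ m := h1.trans h2
    calc ((m - k₀ : ℕ) : ℝ) * (2 * a₀) ≤ 2 ^ m * (2 * a₀) := by gcongr
      _ = b := by
          rw [ha₀, hj0, pow_succ]
          field_simp
  rw [hvol]
  calc _ ≤ ENNReal.ofReal (400 * (2 * (C3 + C)) * D ^ 2 * (2 * h) * b) * c +
        ENNReal.ofReal ((C₀ + 2) * Q + b) * c := by
        refine add_le_add hsum (mul_le_mul_left (ENNReal.ofReal_le_ofReal ?_) _)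
        linarith
    _ = _ := by
        rw [← add_mul, ← ENNReal.ofReal_add (by positivity) (by positivity)]
        congr 2
        ring

end Crest.Agent.R100.UB711
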