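import Crest.Agent.R100.Core_905
import Crest.Agent.R100.UB2_711
import Crest.Agent.R100.Run2_288_Mg
import Crest.Agent.R100.Wide_933
import Crest.Agent.R100.Gram_801
import Crest.Agent.R100.Select_721_Mg
import Crest.Agent.R100.Tree1_711
import Crest.Agent.R100.Mart_933
import Mathlib.Analysis.Fourier.RiemannLebesgueLemma
import Crest.Agent.R100.Num_801
import Crest.Agent.R100.SH3_701

-- ▼ part R100/UBX_905
section

/-!
# R100 / S0132, helper905: `UBStmt` from the run maximal functions (B6) and the count of the tops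
-/

set_option autoImplicit false

open MeasureTheory Set
open scoped ENNReal

noncomputable section

namespace Crest.Agent.R100.UBX905

open Crest.Agent.R100.Mart933 Crest.Agent.R100.Wide933 Crest.Agent.R100.Id833
open Crest.Agent.R100.Tree711 Crest.Agent.R100.UB711 Crest.Agent.R100.Core905

/-- **RUNS** (B6), literal: the run maximal functions of a population with exits -/
def RunStmt : Prop :=
  ∃ (C₀ C C4 : ℝ) (κR : ℕ), 0 ≤ C₀ ∧ 0 < C ∧ 0 ≤ C4 ∧
    ∀ (g : ℝ → ℂ) (κ : ℝ → ℕ) (M : ℝ) (k0 m : ℕ), Measurable g → (∀ x, ‖g x‖ ≤ M) →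
      Measurable κ → (∀ y, κ y ≤ m) → (∀ k j, avN (Pb g κ k) k j ≤ 2) →
      RunMax C₀ C C4 κR g κ 2 k0 m

/-- **TOPS**, literal: wide tops of a level with the covering property and the count -/
def TopsStmt : Prop :=
  ∃ (c1 E1 : ℝ) (e k1 : ℕ), 1 ≤ c1 ∧ 1 ≤ E1 ∧
    ∀ (g : ℝ → ℂ) (κ : ℝ → ℕ) (M : ℝ) (m k0 : ℕ) (j0 : ℤ) (h : ℕ) (W : ℝ≥0∞),
      Measurable g → (∀ x, ‖g x‖ ≤ M) → Measurable κ → (∀ y, κ y ≤ m) → (∀ y, k0 < κ y) →
      (∀ y, g y ≠ 0 → y ∈ Ivl k0 j0) → (∀ k j, avN (Pb g κ k) k j ≤ 2) →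
      PPH g κ k0 (2 * (h : ℝ)) W → 1 ≤ h → W ≠ ⊤ →
      ∀ a : ℝ, 0 < a → a ≤ 2 → ∃ (T : Finset (ℕ × ℤ × ℝ)) (B : ℝ), 0 ≤ B ∧ B ≤ c1 * (2 / a) ^ e ∧
        (∀ t ∈ T, k0 ≤ t.1) ∧
        (∀ x ∈ Ivl k0 j0, ∀ k, k0 ≤ k → k ≤ m → ∀ ξ, a ≤ ‖bb g κ ξ k (fl k x)‖ →
          ∃ t ∈ T, t.1 ≤ k ∧ x ∈ Ivl t.1 t.2.1 ∧ |ξ - t.2.2| ≤ B * 2 ^ k) ∧
        ENNReal.ofReal (∑ t ∈ T, (1 : ℝ) / 2 ^ t.1) ≤
          ENNReal.ofReal (E1 * (2 / a) ^ k1 * (2 / a) ^ (2 * h) / 2 ^ k0) * W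

theorem ubStmt (hR : RunStmt) (hT : TopsStmt) : UBStmt := by
  obtain ⟨C₀, C, C4, κR, hC₀, hC, hC4, hR⟩ := hR
  obtain ⟨c1, E1, e, k1, hc1, hE1, hT⟩ := hT
  have hlog : 0 ≤ Real.log (60 * c1) := Real.log_nonneg (by linarith)
  set A1 : ℝ := 2 * (8 + 6 * Real.log (60 * c1) + 6 * (e + 1) + C) with hA1
  have hA1' : 0 < A1 := by positivity
  set K0 : ℕ := κR + k1 + e with hK0
  refine ⟨1600 * A1, (C₀ + 2) * 2 + 2, 4 * c1 * (1 + C4) * E1 * 4 ^ K0, 2 * K0, by positivity,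
    by positivity, by positivity, ?_⟩
  intro g κ θ M m k0 j0 R h Λ W b D0 E M1 hg hM hκ hθ hm hgt hsupp hRg hR2 hd hPP hΛm hΛ0 hΛt hb hb2
    hD0 hE hM1 hW hmult hh hKh hnum hlog2
  set lam : ℝ := (volume Λ).toReal with hlam
  have hΛ : volume Λ = ENNReal.ofReal lam := (ENNReal.ofReal_toReal hΛt).symm
  have hlam0 : 0 < lam := ENNReal.toReal_pos hΛ0 hΛt
  have hk0 : (0 : ℝ) < 2 ^ k0 := by positivity
  have hb' : 0 < 1 / b := by positivity
  have hE0 : 0 < E := by linarith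
  have hM10 : 0 < M1 := by linarith
  have hWt : W ≠ ⊤ := by
    refine ne_top_of_le_ne_top ?_ hW
    refine ENNReal.mul_ne_top (ENNReal.mul_ne_top ENNReal.ofReal_ne_top hΛt) ?_
    exact ENNReal.rpow_ne_top_of_nonneg (by positivity) ENNReal.ofReal_ne_top
  have hnum1 : 4 * c1 * (1 + C4) * (E1 * E) * M1 * (2 / b) ^ K0 ≤ 4 ^ (2 * h) := by
    refine le_trans ?_ hnum
    have h2 : (2 / b) ^ K0 ≤ 4 ^ K0 * (1 / b) ^ (2 * K0) := by
      have h3 : (1 : ℝ) ≤ 2 / b := by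
        rw [le_div_iff₀ hb]; linarith
      calc (2 / b) ^ K0 = (2 / b) ^ K0 * 1 ^ K0 := by rw [one_pow, mul_one]
        _ ≤ (2 / b) ^ K0 * (2 / b) ^ K0 := by gcongr
        _ = _ := by
            rw [← mul_pow, pow_mul, ← mul_pow]
            congr 1
            field_simp
            norm_num
    calc 4 * c1 * (1 + C4) * (E1 * E) * M1 * (2 / b) ^ K0
        ≤ 4 * c1 * (1 + C4) * (E1 * E) * M1 * (4 ^ K0 * (1 / b) ^ (2 * K0)) := by gcongr
      _ = _ := by ring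
  have key := ub_of_run (C₀ := C₀) (C := C) (C4 := C4) (κR := κR) hC₀ hC hC4 hg hM hκ hθ hRg
    (k₀ := k0) (m := m) (j₀ := j0) (Q := 2) (fun k _ j => hd k j)
    (hR g κ M k0 m hg hM hκ hm hd) hlam0 hΛ (m0 := M1) (by linarith)
    (fun u => by rw [mul_comm]; exact hmult u) (b := b) (D := 2 * D0) (E2 := E1 * E) (c1 := c1)
    (h := h) (k1 := k1) (e := e) hb hb2 (by linarith) hh (by positivity) hc1 (by omega) hnum1 (by
      have : (2 : ℝ) * 2 / b = 4 / b := by norm_num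
      rw [this]; exact hlog2) ?_
  · refine key.trans ?_
    rw [volume_Ivl, ← mul_assoc, ← ENNReal.ofReal_mul (by positivity)]
    gcongr
    have e1 : (400 * (2 * (8 + 6 * Real.log (60 * c1) + 6 * (e + 1) + C)) * (2 * D0) ^ 2 *
        (2 * h) * b + (C₀ + 2) * 2 + b) * (1 / 2 ^ k0) =
        (1600 * A1 * D0 ^ 2 * (2 * h) * b + ((C₀ + 2) * 2 + b)) / 2 ^ k0 := by
      rw [← hA1]; ring
    rw [e1]
    gcongr
  · intro a ha ha2
    obtain ⟨T, B, hB0, hB1, hk, hcov, hsum⟩ := hT g κ M m k0 j0 h W hg hM hκ hm hgt hsupp hd hPP hh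
      hWt a ha ha2
    refine ⟨T, B, hB0, hB1, hk, hcov, ?_⟩
    have h1 : W ≤ ENNReal.ofReal (E / 2 ^ k0 * lam * (D0 * b) ^ (2 * h)) := by
      refine hW.trans (le_of_eq ?_)
      have e3 : ENNReal.ofReal (D0 * b) ^ (2 * (h : ℝ)) = ENNReal.ofReal ((D0 * b) ^ (2 * h)) := by
        rw [show (2 * (h : ℝ)) = ((2 * h : ℕ) : ℝ) by push_cast; ring, ENNReal.rpow_natCast,
          ENNReal.ofReal_pow (by positivity)]
      rw [hΛ, e3, ← ENNReal.ofReal_mul (by positivity), ← ENNReal.ofReal_mul (by positivity)]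
    have h2 : ENNReal.ofReal (∑ t ∈ T, (1 : ℝ) / 2 ^ t.1) ≤
        ENNReal.ofReal (1 / 2 ^ k0 * (1 / 2 ^ k0 * lam) * (E1 * E) * (2 / a) ^ k1 *
          (2 * D0 * b / a) ^ (2 * h)) := by
      refine hsum.trans ?_
      calc ENNReal.ofReal (E1 * (2 / a) ^ k1 * (2 / a) ^ (2 * h) / 2 ^ k0) * W
          ≤ ENNReal.ofReal (E1 * (2 / a) ^ k1 * (2 / a) ^ (2 * h) / 2 ^ k0) *
            ENNReal.ofReal (E / 2 ^ k0 * lam * (D0 * b) ^ (2 * h)) := by gcongr
        _ = _ := by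
            rw [← ENNReal.ofReal_mul (by positivity)]
            congr 1
            have e2 : (2 * D0 * b / a) ^ (2 * h) = (2 / a) ^ (2 * h) * (D0 * b) ^ (2 * h) := by
              rw [← mul_pow]; congr 1; ring
            rw [e2]
            ring
    rwa [ENNReal.ofReal_le_ofReal_iff (by positivity)] at h2

end Crest.Agent.R100.UBX905
end
end

-- ▼ part R100/RunMax_711
section

/-!
# R100 / S0132, helper711: `RunMax` from `runs_tail` (helper288) and the mass of the exits.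
-/

set_option autoImplicit false

open MeasureTheory Set
open scoped ENNReal

noncomputable section

namespace Crest.Agent.R100.UB711

open Crest.Agent.R100.Mart933 Crest.Agent.R100.Wide933 Crest.Agent.R100.Hunt933
open Crest.Agent.R100.Run288 Crest.Agent.R100.Tree711

variable {g : ℝ → ℂ} {κ : ℝ → ℕ} {M : ℝ}

/-- **B6 instantiated** -/
theorem runMax (hg : Measurable g) (hM : ∀ x, ‖g x‖ ≤ M) (hκ : Measurable κ) {Q : ℝ}
    (hQ : ∀ k j, avN (Pb g κ k) k j ≤ Q) (k₀ m : ℕ) : RunMax 60 600 3602 2 g κ Q k₀ m := by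
  have h := runMax_of_tail (g := g) (κ := κ) (C₀ := 60) (c₁ := 300) (c₂ := 400) (Q := Q) (k₀ := k₀)
    (m := m) (by norm_num) (by norm_num) (fun a ha haQ k j w _ lam hlam => by
      have h1 := runs_tail (m := m) (proc hg hM hκ w) ha haQ
        (fun k j => (norm_bb_le g κ w k j).trans (hQ k j))
        (lint_XS_le hg hM hκ k j m (hQ k j)) hlam
      exact h1)
  have e1 : (2 : ℝ) * 300 = 600 := by norm_num
  have e2 : (2 : ℝ) + 9 * 400 = 3602 := by norm_num
  rw [e1, e2] at h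
  exact h

end Crest.Agent.R100.UB711
end
end

-- ▼ part R100/Stop_871
section

/-!
# R100 / S0132, helper871: stopping antichains

Stopping times `s : ℝ → ℕ` on the dyadic tree (constant on the stopped node), first-hit times of node
predicates, the stopped coefficient `stopc F s w x = coef F w (s x) (fl (s x) x)`, the averaging
identity over the antichain and Jensen's inequality.
-/

set_option autoImplicit false

open MeasureTheory Set
open scoped ENNReal

noncomputable section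

namespace Crest.Agent.R100.Stop871

open Crest.Agent.R100.Mart933 Crest.Agent.R100.Wide933

/-! ## nodes -/

theorem fl_congr {q : ℕ} {x y : ℝ} (h : fl q x = fl q y) : ∀ {k : ℕ}, k ≤ q → fl k x = fl k y := by
  intro k hk
  induction q, hk using Nat.le_induction with
  | base => exact h
  | succ q _ ih =>
    apply ih
    rw [fl_half q x, fl_half q y, h]



/-- a set which depends on the generation `q` node only is measurable -/
theorem measurableSet_of_fl {q : ℕ} {A : Set ℝ} (hA : ∀ x y, fl q x = fl q y → x ∈ A → y ∈ A) :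
    MeasurableSet A := by
  have : A = fl q ⁻¹' (fl q '' A) := by
    ext y
    constructor
    · intro hy; exact ⟨y, hy, rfl⟩
    · rintro ⟨x, hx, hxy⟩
      exact hA x y hxy hx
  rw [this]
  exact measurable_fl q (MeasurableSet.of_discrete)

/-! ## stopping times -/

/-- stopping time with values in the generations -/
def IsStop (s : ℝ → ℕ) : Prop := ∀ x y, fl (s x) y = fl (s x) x → s y = s x

theorem IsStop.eq_iff {s : ℝ → ℕ} (hs : IsStop s) {q : ℕ} {x y : ℝ} (h : fl q x = fl q y) :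
    s x = q ↔ s y = q := by
  constructor
  · rintro rfl
    exact hs x y h.symm
  · rintro rfl
    exact hs y x h

theorem IsStop.le_iff {s : ℝ → ℕ} (hs : IsStop s) {q : ℕ} {x y : ℝ} (h : fl q x = fl q y) :
    s x ≤ q ↔ s y ≤ q := by
  constructor
  · intro hx
    rw [hs x y (fl_congr h.symm hx)]
    exact hx
  · intro hy
    rw [hs y x (fl_congr h hy)]
    exact hy

theorem IsStop.lt_iff {s : ℝ → ℕ} (hs : IsStop s) {q : ℕ} {x y : ℝ} (h : fl q x = fl q y) :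
    q < s x ↔ q < s y := by
  rw [← not_le, ← not_le, hs.le_iff h]

theorem IsStop.measurableSet_eq {s : ℝ → ℕ} (hs : IsStop s) (q : ℕ) :
    MeasurableSet {x | s x = q} :=
  measurableSet_of_fl (q := q) fun _ _ h hx => (hs.eq_iff h).1 hx

theorem IsStop.measurableSet_le {s : ℝ → ℕ} (hs : IsStop s) (q : ℕ) :
    MeasurableSet {x | s x ≤ q} :=
  measurableSet_of_fl (q := q) fun _ _ h hx => (hs.le_iff h).1 hx

theorem IsStop.measurableSet_lt {s : ℝ → ℕ} (hs : IsStop s) (q : ℕ) :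
    MeasurableSet {x | q < s x} :=
  measurableSet_of_fl (q := q) fun _ _ h hx => (hs.lt_iff h).1 hx

theorem IsStop.measurable {s : ℝ → ℕ} (hs : IsStop s) : Measurable s :=
  measurable_to_countable' fun q => hs.measurableSet_eq q

theorem IsStop.min {s s' : ℝ → ℕ} (hs : IsStop s) (hs' : IsStop s') :
    IsStop fun x => min (s x) (s' x) := by
  intro x y h
  rcases le_total (s x) (s' x) with hle | hle
  · simp only [min_eq_left hle] at h ⊢
    have h1 : s y = s x := hs x y h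
    have h2 : s x ≤ s' y := by
      rcases Nat.eq_zero_or_pos (s x) with h0 | h0
      · omega
      · have := (hs'.lt_iff (q := s x - 1) (x := x) (y := y) (fl_congr h.symm (Nat.sub_le _ _))).1
          (by omega)
        omega
    omega
  · simp only [min_eq_right hle] at h ⊢
    have h1 : s' y = s' x := hs' x y h
    have h2 : s' x ≤ s y := by
      rcases Nat.eq_zero_or_pos (s' x) with h0 | h0
      · omega
      · have := (hs.lt_iff (q := s' x - 1) (x := x) (y := y) (fl_congr h.symm (Nat.sub_le _ _))).1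
          (by omega)
        omega
    omega

theorem IsStop.const (m : ℕ) : IsStop fun _ => m := fun _ _ _ => rfl

/-! ## first hits -/

section hit

theorem hit_exists (P : ℕ → ℤ → Prop) (m : ℕ) (x : ℝ) : ∃ k, P k (fl k x) ∨ k = m := ⟨m, Or.inr rfl⟩

open Classical in
/-- the first generation `k ≤ m` with `P k (fl k x)`, or `m` -/
def hit (P : ℕ → ℤ → Prop) (m : ℕ) (x : ℝ) : ℕ := Nat.find (hit_exists P m x)

variable {P : ℕ → ℤ → Prop} {m : ℕ} {x : ℝ}








end hit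

/-! ## the stopped coefficient -/

/-- stopped coefficient -/
def stopc (F : ℝ → ℂ) (s : ℝ → ℕ) (w : ℝ) (x : ℝ) : ℂ := coef F w (s x) (fl (s x) x)

theorem measurable_comp_stop {β : Type*} [MeasurableSpace β] {s : ℝ → ℕ} (hs : Measurable s)
    (g : ℕ → ℤ → β) : Measurable fun x => g (s x) (fl (s x) x) := by
  have h1 : Measurable fun p : ℕ × ℝ => g p.1 (fl p.1 p.2) :=
    measurable_from_prod_countable_right fun k => measurable_fl_comp k (g k)
  exact h1.comp (hs.prodMk measurable_id)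

theorem measurable_stopc (F : ℝ → ℂ) {s : ℝ → ℕ} (hs : Measurable s) (w : ℝ) :
    Measurable (stopc F s w) := measurable_comp_stop hs (coef F w)





/-- saturated set: a union of stopped nodes -/
def Sat (s : ℝ → ℕ) (A : Set ℝ) : Prop := ∀ x y, fl (s x) y = fl (s x) x → (x ∈ A ↔ y ∈ A)

theorem Sat.univ (s : ℝ → ℕ) : Sat s Set.univ := fun _ _ _ => by simp

theorem sat_lt {s : ℝ → ℕ} (hs : IsStop s) (r : ℕ) : Sat s {x | s x < r} := by
  intro x y h
  rw [mem_ofPred_eq, mem_ofPred_eq, hs x y h]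




theorem Sat.inter {s : ℝ → ℕ} {A B : Set ℝ} (hA : Sat s A) (hB : Sat s B) : Sat s (A ∩ B) := by
  intro x y h
  rw [mem_inter_iff, mem_inter_iff, hA x y h, hB x y h]

theorem Sat.mono {s s' : ℝ → ℕ} {A : Set ℝ} (hA : Sat s A) (h : ∀ x, s x ≤ s' x) : Sat s' A := by
  intro x y hxy
  exact hA x y (fl_congr hxy (h x))

theorem Sat.measurableSet {s : ℝ → ℕ} (hs : IsStop s) {A : Set ℝ} (hA : Sat s A) :
    MeasurableSet A := by
  have : A = ⋃ q : ℕ, (A ∩ {x | s x = q}) := by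
    ext x
    simp
  rw [this]
  refine MeasurableSet.iUnion fun q => measurableSet_of_fl (q := q) ?_
  rintro x y h ⟨hx, hq⟩
  rw [mem_ofPred_eq] at hq
  subst hq
  exact ⟨(hA x y h.symm).1 hx, hs x y h.symm⟩

/-- **integral over a union of stopped nodes = integral of the stopped averages** -/
theorem integral_stop_aux {G : ℝ → ℂ} (hG : Measurable G) {M : ℝ} (hM : ∀ x, ‖G x‖ ≤ M)
    {s : ℝ → ℕ} (hs : IsStop s) {A : Set ℝ} (hA : Sat s A) {m : ℕ} :
    ∀ (d k : ℕ) (j : ℤ), m = k + d → (∀ x ∈ Ivl k j, k ≤ s x) → (∀ x ∈ Ivl k j, s x ≤ m) →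
      ∫ x in Ivl k j, A.indicator G x =
        ∫ x in Ivl k j, A.indicator (fun x => (2 : ℂ) ^ (s x) * ∫ y in Ivl (s x) (fl (s x) x), G y) x := by
  have hMA : MeasurableSet A := hA.measurableSet hs
  have hM0 : 0 ≤ M := (norm_nonneg _).trans (hM 0)
  -- the stopped average is bounded and measurable
  have hb : ∀ (k : ℕ) (j : ℤ), ‖(2 : ℂ) ^ k * ∫ y in Ivl k j, G y‖ ≤ M := by
    intro k j
    rw [norm_mul, norm_pow, Complex.norm_ofNat]
    have h1 : ‖∫ y in Ivl k j, G y‖ ≤ M * volume.real (Ivl k j) := by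
      refine norm_setIntegral_le_of_norm_le_const ?_ fun x _ => hM x
      rw [volume_Ivl]; exact ENNReal.ofReal_lt_top
    rw [volume_real_Ivl] at h1
    have h2 : (0 : ℝ) < 2 ^ k := by positivity
    calc (2 : ℝ) ^ k * ‖∫ y in Ivl k j, G y‖ ≤ 2 ^ k * (M * (1 / 2 ^ k)) := by gcongr
      _ = M := by field_simp
  have hmeas : Measurable fun x => (2 : ℂ) ^ (s x) * ∫ y in Ivl (s x) (fl (s x) x), G y :=
    measurable_comp_stop hs.measurable (fun k j => (2 : ℂ) ^ k * ∫ y in Ivl k j, G y)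
  have hi1 : ∀ k j, IntegrableOn (A.indicator G) (Ivl k j) := by
    intro k j
    refine intOn k j (hG.indicator hMA) (M := M) fun x => ?_
    exact (norm_indicator_le_norm_self _ _).trans (hM x)
  have hi2 : ∀ k j, IntegrableOn (A.indicator
      (fun x => (2 : ℂ) ^ (s x) * ∫ y in Ivl (s x) (fl (s x) x), G y)) (Ivl k j) := by
    intro k j
    refine intOn k j (hmeas.indicator hMA) (M := M) fun x => ?_
    exact (norm_indicator_le_norm_self _ _).trans (hb _ _)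
  intro d
  induction d with
  | zero =>
    intro k j hm h1 h2
    have hsx : ∀ x ∈ Ivl k j, s x = k := fun x hx => by
      have := h1 x hx; have := h2 x hx; omega
    have hxj : ∀ x ∈ Ivl k j, fl k x = j := fun x hx => mem_Ivl.1 hx
    have hne : (Ivl k j).Nonempty := by
      refine ⟨(j : ℝ) / 2 ^ k, le_refl _, ?_⟩
      gcongr
      linarith
    obtain ⟨x₀, hx₀⟩ := hne
    have hAll : ∀ x ∈ Ivl k j, (x₀ ∈ A ↔ x ∈ A) := by
      intro x hx
      apply hA x₀ x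
      rw [hsx x₀ hx₀, hxj x hx, hxj x₀ hx₀]
    by_cases hxA : x₀ ∈ A
    · have e1 : ∫ x in Ivl k j, A.indicator G x = ∫ x in Ivl k j, G x :=
        setIntegral_congr_fun (measurableSet_Ivl _ _) fun x hx => by
          simp only [indicator_of_mem ((hAll x hx).1 hxA)]
      have e2 : ∫ x in Ivl k j, A.indicator
          (fun x => (2 : ℂ) ^ (s x) * ∫ y in Ivl (s x) (fl (s x) x), G y) x =
          ∫ _x in Ivl k j, (2 : ℂ) ^ k * ∫ y in Ivl k j, G y :=
        setIntegral_congr_fun (measurableSet_Ivl _ _) fun x hx => by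
          simp only [indicator_of_mem ((hAll x hx).1 hxA)]
          rw [hsx x hx, hxj x hx]
      rw [e1, e2, setIntegral_const, volume_real_Ivl, Complex.real_smul]
      push_cast
      have : (2 : ℂ) ^ k ≠ 0 := pow_ne_zero _ two_ne_zero
      field_simp
    · have hn : ∀ x ∈ Ivl k j, x ∉ A := fun x hx hc => hxA ((hAll x hx).2 hc)
      rw [setIntegral_congr_fun (g := fun _ => (0 : ℂ)) (measurableSet_Ivl _ _) (fun x hx => by
          simp only [indicator_of_notMem (hn x hx)]),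
        setIntegral_congr_fun (g := fun _ => (0 : ℂ)) (f := A.indicator
          (fun x => (2 : ℂ) ^ (s x) * ∫ y in Ivl (s x) (fl (s x) x), G y))
          (measurableSet_Ivl _ _) (fun x hx => by
          simp only [indicator_of_notMem (hn x hx)])]
  | succ d ih =>
    intro k j hm h1 h2
    by_cases hex : ∃ x ∈ Ivl k j, s x = k
    · -- the node itself is stopped
      obtain ⟨x₀, hx₀, hsx₀⟩ := hex
      have hxj : ∀ x ∈ Ivl k j, fl k x = j := fun x hx => mem_Ivl.1 hx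
      have hsx : ∀ x ∈ Ivl k j, s x = k := fun x hx => by
        rw [← hsx₀]
        apply hs x₀ x
        rw [hsx₀, hxj x hx, hxj x₀ hx₀]
      have hAll : ∀ x ∈ Ivl k j, (x₀ ∈ A ↔ x ∈ A) := by
        intro x hx
        apply hA x₀ x
        rw [hsx x₀ hx₀, hxj x hx, hxj x₀ hx₀]
      by_cases hxA : x₀ ∈ A
      · have e1 : ∫ x in Ivl k j, A.indicator G x = ∫ x in Ivl k j, G x :=
          setIntegral_congr_fun (measurableSet_Ivl _ _) fun x hx => by
            simp only [indicator_of_mem ((hAll x hx).1 hxA)]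
        have e2 : ∫ x in Ivl k j, A.indicator
            (fun x => (2 : ℂ) ^ (s x) * ∫ y in Ivl (s x) (fl (s x) x), G y) x =
            ∫ _x in Ivl k j, (2 : ℂ) ^ k * ∫ y in Ivl k j, G y :=
          setIntegral_congr_fun (measurableSet_Ivl _ _) fun x hx => by
            simp only [indicator_of_mem ((hAll x hx).1 hxA)]
            rw [hsx x hx, hxj x hx]
        rw [e1, e2, setIntegral_const, volume_real_Ivl, Complex.real_smul]
        push_cast
        have : (2 : ℂ) ^ k ≠ 0 := pow_ne_zero _ two_ne_zero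
        field_simp
      · have hn : ∀ x ∈ Ivl k j, x ∉ A := fun x hx hc => hxA ((hAll x hx).2 hc)
        rw [setIntegral_congr_fun (g := fun _ => (0 : ℂ)) (measurableSet_Ivl _ _) (fun x hx => by
            simp only [indicator_of_notMem (hn x hx)]),
          setIntegral_congr_fun (g := fun _ => (0 : ℂ)) (f := A.indicator
            (fun x => (2 : ℂ) ^ (s x) * ∫ y in Ivl (s x) (fl (s x) x), G y))
            (measurableSet_Ivl _ _) (fun x hx => by
            simp only [indicator_of_notMem (hn x hx)])]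
    · push Not at hex
      have h1' : ∀ x ∈ Ivl k j, k + 1 ≤ s x := fun x hx => by
        have := h1 x hx; have := hex x hx; omega
      have hsub1 : Ivl (k + 1) (2 * j) ⊆ Ivl k j := by rw [Ivl_split k j]; exact subset_union_left
      have hsub2 : Ivl (k + 1) (2 * j + 1) ⊆ Ivl k j := by
        rw [Ivl_split k j]; exact subset_union_right
      rw [integral_Ivl hi1, integral_Ivl hi2,
        ih (k + 1) (2 * j) (by omega) (fun x hx => h1' x (hsub1 hx)) (fun x hx => h2 x (hsub1 hx)),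
        ih (k + 1) (2 * j + 1) (by omega) (fun x hx => h1' x (hsub2 hx))
          (fun x hx => h2 x (hsub2 hx))]

theorem nonempty_Ivl (k : ℕ) (j : ℤ) : (Ivl k j).Nonempty := by
  refine ⟨(j : ℝ) / 2 ^ k, le_refl _, ?_⟩
  gcongr
  linarith

/-- **the averaging identity**: coefficient of a restriction to a union of stopped nodes -/
theorem coef_ind_stop {F : ℝ → ℂ} (hF : Measurable F) {M : ℝ} (hM : ∀ x, ‖F x‖ ≤ M)
    {s : ℝ → ℕ} (hs : IsStop s) {A : Set ℝ} (hA : Sat s A) {m : ℕ} {k : ℕ} {j : ℤ}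
    (h1 : ∀ x ∈ Ivl k j, k ≤ s x) (h2 : ∀ x ∈ Ivl k j, s x ≤ m) (w : ℝ) :
    coef (A.indicator F) w k j = 2 ^ k * ∫ x in Ivl k j, A.indicator (stopc F s w) x := by
  have hk : k ≤ m := by
    obtain ⟨x, hx⟩ := nonempty_Ivl k j
    exact (h1 x hx).trans (h2 x hx)
  have h := integral_stop_aux (G := fun y => F y * e (-w) y) (hF.mul (measurable_e _)) (M := M)
    (fun x => by rw [norm_mul, norm_e, mul_one]; exact hM x) hs hA (m - k) k j (by omega) h1 h2
  unfold coef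
  congr 1
  rw [show (∫ y in Ivl k j, A.indicator F y * e (-w) y) =
    ∫ y in Ivl k j, A.indicator (fun y => F y * e (-w) y) y by
      congr 1
      ext y
      by_cases hy : y ∈ A
      · rw [indicator_of_mem hy, indicator_of_mem hy]
      · rw [indicator_of_notMem hy, indicator_of_notMem hy, zero_mul], h]
  rfl



/-! ## Jensen -/

/-- power mean inequality on a set -/
theorem lintegral_rpow_le {α : Type*} [MeasurableSpace α] {μ : Measure α} {g : α → ℝ≥0∞}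
    (hg : AEMeasurable g μ) {p : ℝ} (hp : 1 ≤ p) :
    (∫⁻ x, g x ∂μ) ^ p ≤ μ Set.univ ^ (p - 1) * ∫⁻ x, g x ^ p ∂μ := by
  have hp0 : 0 < p := by linarith
  have h := ENNReal.lintegral_mul_norm_pow_le (μ := μ) (f := fun x => g x ^ p)
    (g := fun _ => (1 : ℝ≥0∞)) (hg.pow_const p) aemeasurable_const (p := 1 / p) (q := 1 - 1 / p)
    (by positivity) (by rw [sub_nonneg, div_le_one hp0]; exact hp) (by ring)
  simp only [ENNReal.one_rpow, mul_one, lintegral_const, one_mul] at h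
  have e1 : ∀ x, (g x ^ p) ^ (1 / p) = g x := by
    intro x
    rw [← ENNReal.rpow_mul, mul_one_div_cancel hp0.ne', ENNReal.rpow_one]
  simp only [e1] at h
  calc (∫⁻ x, g x ∂μ) ^ p ≤ ((∫⁻ x, g x ^ p ∂μ) ^ (1 / p) * μ Set.univ ^ (1 - 1 / p)) ^ p := by
        gcongr
    _ = μ Set.univ ^ (p - 1) * ∫⁻ x, g x ^ p ∂μ := by
        rw [ENNReal.mul_rpow_of_nonneg _ _ hp0.le, ← ENNReal.rpow_mul, ← ENNReal.rpow_mul,
          one_div_mul_cancel hp0.ne', ENNReal.rpow_one, mul_comm]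
        congr 2
        field_simp

theorem ofReal_two_pow_mul (k : ℕ) : ENNReal.ofReal (2 ^ k) * ENNReal.ofReal (1 / 2 ^ k) = 1 := by
  rw [← ENNReal.ofReal_mul (by positivity), mul_one_div_cancel (by positivity), ENNReal.ofReal_one]

/-- **Jensen over the stopped antichain** -/
theorem jensen_stop {F : ℝ → ℂ} (hF : Measurable F) {M : ℝ} (hM : ∀ x, ‖F x‖ ≤ M)
    {s : ℝ → ℕ} (hs : IsStop s) {A : Set ℝ} (hA : Sat s A) {m : ℕ} {k : ℕ} {j : ℤ}
    (h1 : ∀ x ∈ Ivl k j, k ≤ s x) (h2 : ∀ x ∈ Ivl k j, s x ≤ m) (w : ℝ) {p : ℝ} (hp : 1 ≤ p) :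
    ‖coef (A.indicator F) w k j‖ₑ ^ p ≤
      ENNReal.ofReal (2 ^ k) * ∫⁻ x in Ivl k j ∩ A, ‖stopc F s w x‖ₑ ^ p := by
  have hMA : MeasurableSet A := hA.measurableSet hs
  have hp0 : 0 ≤ p := by linarith
  have hI : MeasurableSet (Ivl k j) := measurableSet_Ivl k j
  have hm : Measurable (stopc F s w) := measurable_stopc F hs.measurable w
  rw [coef_ind_stop hF hM hs hA h1 h2 w, enorm_mul]
  have e2 : ‖(2 : ℂ) ^ k‖ₑ = ENNReal.ofReal (2 ^ k) := by
    rw [← ofReal_norm, norm_pow, Complex.norm_ofNat]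
  rw [e2]
  have e3 : ‖∫ x in Ivl k j, A.indicator (stopc F s w) x‖ₑ ≤
      ∫⁻ x in Ivl k j, ‖A.indicator (stopc F s w) x‖ₑ := enorm_integral_le_lintegral_enorm _
  have e4 : ∫⁻ x in Ivl k j ∩ A, ‖stopc F s w x‖ₑ ^ p =
      ∫⁻ x in Ivl k j, ‖A.indicator (stopc F s w) x‖ₑ ^ p := by
    rw [inter_comm, ← Measure.restrict_restrict hMA, ← lintegral_indicator hMA]
    congr 1
    ext x
    by_cases hx : x ∈ A
    · rw [indicator_of_mem hx, indicator_of_mem hx]
    · rw [indicator_of_notMem hx, indicator_of_notMem hx, enorm_zero,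
        ENNReal.zero_rpow_of_pos (by linarith)]
  rw [e4]
  have e5 := lintegral_rpow_le (μ := volume.restrict (Ivl k j))
    (g := fun x => ‖A.indicator (stopc F s w) x‖ₑ) (hm.indicator hMA).enorm.aemeasurable hp
  rw [Measure.restrict_apply_univ, volume_Ivl] at e5
  calc (ENNReal.ofReal (2 ^ k) * ‖∫ x in Ivl k j, A.indicator (stopc F s w) x‖ₑ) ^ p
      ≤ (ENNReal.ofReal (2 ^ k) * ∫⁻ x in Ivl k j, ‖A.indicator (stopc F s w) x‖ₑ) ^ p := by
        gcongr
    _ = ENNReal.ofReal (2 ^ k) ^ p * (∫⁻ x in Ivl k j, ‖A.indicator (stopc F s w) x‖ₑ) ^ p :=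
        ENNReal.mul_rpow_of_nonneg _ _ hp0
    _ ≤ ENNReal.ofReal (2 ^ k) ^ p * (ENNReal.ofReal (1 / 2 ^ k) ^ (p - 1) *
        ∫⁻ x in Ivl k j, ‖A.indicator (stopc F s w) x‖ₑ ^ p) := by gcongr
    _ = ENNReal.ofReal (2 ^ k) * ∫⁻ x in Ivl k j, ‖A.indicator (stopc F s w) x‖ₑ ^ p := by
        have h3 : ENNReal.ofReal (2 ^ k) ^ p =
            ENNReal.ofReal (2 ^ k) * ENNReal.ofReal (2 ^ k) ^ (p - 1) := by
          have h4 : ENNReal.ofReal (2 ^ k) ≠ 0 := by
            rw [Ne, ENNReal.ofReal_eq_zero, not_le]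
            positivity
          have h5 := ENNReal.rpow_add 1 (p - 1) h4 ENNReal.ofReal_ne_top
          rw [ENNReal.rpow_one] at h5
          rw [← h5]
          congr 1
          ring
        rw [h3, mul_assoc, ← mul_assoc (ENNReal.ofReal (2 ^ k) ^ (p - 1)),
          ← ENNReal.mul_rpow_of_nonneg _ _ (by linarith : (0 : ℝ) ≤ p - 1), ofReal_two_pow_mul,
          ENNReal.one_rpow, one_mul]


end Crest.Agent.R100.Stop871
end
end

-- ▼ part R100/Pack1_79
section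

/-!
# R100 / S0132, block B11 (helper79): packing of the tiles around one frequency, variable scales,
sharp dyadic cells, real frequencies (doc 1968, section 7).
-/

set_option autoImplicit false

open MeasureTheory Set
open scoped ENNReal ComplexConjugate

noncomputable section

namespace Crest.Agent.R100.Pack79

open Crest.Agent.R100.Mart933 Crest.Agent.R100.Wide933

/-! ## induction over the nodes -/

theorem node_ind {P : ℕ → ℤ → Prop}
    (hs : ∀ k j, P (k + 1) (2 * j) → P (k + 1) (2 * j + 1) → P k j) {l : ℕ}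
    (hl : ∀ j, P l j) {k : ℕ} (hk : k ≤ l) : ∀ j, P k j := by
  induction hk using Nat.decreasingInduction with
  | of_succ k _ ih => exact fun j => hs k j (ih _) (ih _)
  | self => exact hl

theorem norm_node {G : ℝ → ℂ} (hG : ∀ k j, IntegrableOn G (Ivl k j)) {C : ℝ} {l : ℕ}
    (hl : ∀ j, ‖∫ x in Ivl l j, G x‖ ≤ C / 2 ^ l) {k : ℕ} (hk : k ≤ l) (j : ℤ) :
    ‖∫ x in Ivl k j, G x‖ ≤ C / 2 ^ k := by
  refine node_ind (P := fun k j => ‖∫ x in Ivl k j, G x‖ ≤ C / 2 ^ k) ?_ hl hk j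
  intro k j h1 h2
  rw [integral_Ivl hG]
  refine (norm_add_le _ _).trans ((add_le_add h1 h2).trans (le_of_eq ?_))
  rw [pow_succ]
  field_simp
  ring

/-! ## averages -/

/-- average of `u` on the node -/
def av (u : ℝ → ℂ) (k : ℕ) (j : ℤ) : ℂ := (2 : ℂ) ^ k * ∫ y in Ivl k j, u y

/-- conditional expectation -/
def Ek (u : ℝ → ℂ) (k : ℕ) (x : ℝ) : ℂ := av u k (fl k x)

theorem measurable_Ek (u : ℝ → ℂ) (k : ℕ) : Measurable (Ek u k) :=
  measurable_fl_comp k (fun j => av u k j)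

theorem norm_setIntegral_Ivl_le {u : ℝ → ℂ} {Q : ℝ} (hQ : ∀ x, ‖u x‖ ≤ Q) (k : ℕ) (j : ℤ) :
    ‖∫ y in Ivl k j, u y‖ ≤ Q / 2 ^ k := by
  have h := norm_setIntegral_le_of_norm_le_const (μ := volume) (s := Ivl k j) (f := u) (C := Q)
    (by rw [volume_Ivl]; exact ENNReal.ofReal_lt_top) (fun x _ => hQ x)
  refine h.trans (le_of_eq ?_)
  rw [volume_real_Ivl]
  ring

theorem norm_av_le {u : ℝ → ℂ} {Q : ℝ} (hQ : ∀ x, ‖u x‖ ≤ Q) (k : ℕ) (j : ℤ) : ‖av u k j‖ ≤ Q := by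
  unfold av
  rw [norm_mul, norm_pow, Complex.norm_ofNat]
  have := norm_setIntegral_Ivl_le hQ k j
  calc (2 : ℝ) ^ k * ‖∫ y in Ivl k j, u y‖ ≤ 2 ^ k * (Q / 2 ^ k) := by gcongr
    _ = Q := by field_simp

theorem norm_Ek_le {u : ℝ → ℂ} {Q : ℝ} (hQ : ∀ x, ‖u x‖ ≤ Q) (k : ℕ) (x : ℝ) : ‖Ek u k x‖ ≤ Q :=
  norm_av_le hQ _ _

theorem integral_eq_av (u : ℝ → ℂ) (k : ℕ) (j : ℤ) :
    ∫ y in Ivl k j, u y = av u k j / 2 ^ k := by
  unfold av
  field_simp

theorem Ek_eq {u : ℝ → ℂ} {k : ℕ} {j : ℤ} {x : ℝ} (hx : x ∈ Ivl k j) : Ek u k x = av u k j := by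
  unfold Ek
  rw [mem_Ivl.1 hx]

theorem setIntegral_congr_Ivl {E : Type*} [NormedAddCommGroup E] [NormedSpace ℝ E]
    {F G : ℝ → E} {k : ℕ} {j : ℤ} (h : ∀ x ∈ Ivl k j, F x = G x) :
    ∫ x in Ivl k j, F x = ∫ x in Ivl k j, G x :=
  setIntegral_congr_fun (measurableSet_Ivl k j) h

theorem integral_const_Ivl (c : ℂ) (k : ℕ) (j : ℤ) :
    ∫ _ in Ivl k j, c = c / 2 ^ k := by
  rw [setIntegral_const, volume_real_Ivl, Complex.real_smul]
  push_cast
  ring

theorem integral_const_Ivl_real (c : ℝ) (k : ℕ) (j : ℤ) :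
    ∫ _ in Ivl k j, c = c / 2 ^ k := by
  rw [setIntegral_const, volume_real_Ivl, smul_eq_mul]
  ring

section bdd

variable {u : ℝ → ℂ} {Q : ℝ}

theorem intOn' (hu : Measurable u) (hQ : ∀ x, ‖u x‖ ≤ Q) (k : ℕ) (j : ℤ) :
    IntegrableOn u (Ivl k j) := intOn k j hu hQ

theorem intOn_Ek (hQ : ∀ x, ‖u x‖ ≤ Q) (l : ℕ) (k : ℕ) (j : ℤ) :
    IntegrableOn (Ek u l) (Ivl k j) := intOn k j (measurable_Ek u l) (norm_Ek_le hQ l)

theorem integral_Ek (hu : Measurable u) (hQ : ∀ x, ‖u x‖ ≤ Q) {k l : ℕ} (hk : k ≤ l) (j : ℤ) :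
    ∫ x in Ivl k j, Ek u l x = ∫ x in Ivl k j, u x := by
  refine node_ind (P := fun k j => ∫ x in Ivl k j, Ek u l x = ∫ x in Ivl k j, u x) ?_ ?_ hk j
  · intro k j h1 h2
    rw [integral_Ivl (intOn_Ek hQ l), integral_Ivl (intOn' hu hQ), h1, h2]
  · intro j
    rw [setIntegral_congr_Ivl (fun x hx => Ek_eq hx), integral_const_Ivl, integral_eq_av]

theorem integral_norm_Ek_le (hu : Measurable u) (hQ : ∀ x, ‖u x‖ ≤ Q) {k l : ℕ} (hk : k ≤ l)
    (j : ℤ) : ∫ x in Ivl k j, ‖Ek u l x‖ ≤ ∫ x in Ivl k j, ‖u x‖ := by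
  refine node_ind (P := fun k j => ∫ x in Ivl k j, ‖Ek u l x‖ ≤ ∫ x in Ivl k j, ‖u x‖) ?_ ?_ hk j
  · intro k j h1 h2
    rw [integral_Ivl (fun k j => (intOn_Ek hQ l k j).norm),
      integral_Ivl (fun k j => (intOn' hu hQ k j).norm)]
    exact add_le_add h1 h2
  · intro j
    rw [setIntegral_congr_Ivl (G := fun _ => ‖av u l j‖) (fun x hx => by rw [Ek_eq hx]),
      integral_const_Ivl_real]
    have h := norm_integral_le_integral_norm (μ := volume.restrict (Ivl l j)) u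
    rw [integral_eq_av, norm_div, norm_pow, Complex.norm_ofNat] at h
    exact h

/-- Pythagoras -/
theorem integral_sq_sub (hQ : ∀ x, ‖u x‖ ≤ Q) (hu : Measurable u) {k l' l : ℕ}
    (hk : k ≤ l') (hl : l' ≤ l) (j : ℤ) :
    ∫ x in Ivl k j, ‖Ek u l x - Ek u l' x‖ ^ 2 =
      (∫ x in Ivl k j, ‖Ek u l x‖ ^ 2) - ∫ x in Ivl k j, ‖Ek u l' x‖ ^ 2 := by
  have hQ0 : 0 ≤ Q := (norm_nonneg _).trans (hQ 0)
  have i1 : ∀ k j, IntegrableOn (fun x => ‖Ek u l x - Ek u l' x‖ ^ 2) (Ivl k j) := by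
    intro k j
    apply intOn k j (((measurable_Ek u l).sub (measurable_Ek u l')).norm.pow_const 2)
      (M := (Q + Q) ^ 2)
    intro x
    rw [norm_pow, norm_norm]
    have := (norm_sub_le (Ek u l x) (Ek u l' x)).trans
      (add_le_add (norm_Ek_le hQ l x) (norm_Ek_le hQ l' x))
    gcongr
    exact this
  have i2 : ∀ l k j, IntegrableOn (fun x => ‖Ek u l x‖ ^ 2) (Ivl k j) := by
    intro l k j
    apply intOn k j ((measurable_Ek u l).norm.pow_const 2) (M := Q ^ 2)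
    intro x
    rw [norm_pow, norm_norm]
    have := norm_Ek_le hQ l x
    gcongr
  refine node_ind (P := fun k j => ∫ x in Ivl k j, ‖Ek u l x - Ek u l' x‖ ^ 2 =
      (∫ x in Ivl k j, ‖Ek u l x‖ ^ 2) - ∫ x in Ivl k j, ‖Ek u l' x‖ ^ 2) ?_ ?_ hk j
  · intro k j h1 h2
    rw [integral_Ivl i1, integral_Ivl (i2 l), integral_Ivl (i2 l'), h1, h2]
    ring
  · intro j
    set c := av u l' j with hc
    have e1 : ∫ x in Ivl l' j, ‖Ek u l x - Ek u l' x‖ ^ 2 =
        ∫ x in Ivl l' j, (‖Ek u l x‖ ^ 2 - 2 * (conj c * Ek u l x).re + ‖c‖ ^ 2) := by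
      apply setIntegral_congr_Ivl
      intro x hx
      rw [Ek_eq (k := l') hx, ← hc]
      have : ∀ z w : ℂ, ‖z - w‖ ^ 2 = ‖z‖ ^ 2 - 2 * (conj w * z).re + ‖w‖ ^ 2 := by
        intro z w
        rw [← Complex.normSq_eq_norm_sq, ← Complex.normSq_eq_norm_sq, ← Complex.normSq_eq_norm_sq,
          Complex.normSq_sub]
        have : (z * conj w).re = (conj w * z).re := by rw [mul_comm]
        rw [this]; ring
      exact this _ _
    have i3 : IntegrableOn (fun x => (conj c * Ek u l x).re) (Ivl l' j) :=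
      ((intOn_Ek hQ l l' j).const_mul (conj c)).re
    have e2 : ∫ x in Ivl l' j, (conj c * Ek u l x).re = ‖c‖ ^ 2 / 2 ^ l' := by
      have h1 : ∫ x in Ivl l' j, (conj c * Ek u l x).re =
          (∫ x in Ivl l' j, conj c * Ek u l x).re := by
        have := integral_re (𝕜 := ℂ) ((intOn_Ek hQ l l' j).const_mul (conj c))
        simpa using this
      rw [h1, integral_const_mul, integral_Ek hu hQ hl, integral_eq_av, ← hc, mul_div_assoc',
        mul_comm (conj c), Complex.mul_conj, Complex.normSq_eq_norm_sq]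
      have : ((‖c‖ ^ 2 : ℝ) : ℂ) / 2 ^ l' = ((‖c‖ ^ 2 / 2 ^ l' : ℝ) : ℂ) := by push_cast; rfl
      rw [this, Complex.ofReal_re]
    have e3 : ∫ x in Ivl l' j, ‖Ek u l' x‖ ^ 2 = ‖c‖ ^ 2 / 2 ^ l' := by
      rw [setIntegral_congr_Ivl (G := fun _ => ‖c‖ ^ 2) (fun x hx => by rw [Ek_eq hx]),
        integral_const_Ivl_real]
    have hc1 : IntegrableOn (fun _ : ℝ => ‖c‖ ^ 2) (Ivl l' j) :=
      intOn l' j measurable_const (M := ‖c‖ ^ 2) (fun x => by
        rw [norm_pow, norm_norm])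
    have i4 : IntegrableOn (fun x => ‖Ek u l x‖ ^ 2 - 2 * (conj c * Ek u l x).re) (Ivl l' j) :=
      (i2 l l' j).sub (i3.const_mul 2)
    rw [e1, integral_add i4 hc1,
      integral_sub (i2 l l' j) (i3.const_mul 2), integral_const_mul, e2, e3,
      integral_const_Ivl_real]
    ring

end bdd

/-! ## oscillation -/

theorem norm_e_sub (u x y : ℝ) : ‖e u y - e u x‖ ≤ 2 * Real.pi * |u| * |y - x| := by
  have h1 : e u y - e u x = e u x * (Complex.exp (Complex.I * ((2 * Real.pi * (u * (y - x)) : ℝ) : ℂ)) - 1) := by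
    unfold e
    rw [mul_sub, ← Complex.exp_add, mul_one]
    congr 2
    push_cast
    ring
  rw [h1, norm_mul, norm_e, one_mul]
  refine Real.norm_exp_I_mul_ofReal_sub_one_le.trans (le_of_eq ?_)
  rw [Real.norm_eq_abs, abs_mul, abs_mul, abs_mul, abs_of_pos Real.pi_pos, abs_two]
  ring

theorem dist_Ivl {k : ℕ} {j : ℤ} {x y : ℝ} (hx : x ∈ Ivl k j) (hy : y ∈ Ivl k j) :
    |y - x| ≤ 1 / 2 ^ k := by
  unfold Ivl at hx hy
  rw [mem_Ico] at hx hy
  have : ((j : ℝ) + 1) / 2 ^ k = j / 2 ^ k + 1 / 2 ^ k := by ring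
  rw [abs_le]
  constructor <;> linarith [hx.1, hx.2, hy.1, hy.2]

/-- a function of mean zero on a node against a character -/
theorem norm_osc {G : ℝ → ℂ} {l : ℕ} {i : ℤ} (hG : IntegrableOn G (Ivl l i))
    (h0 : ∫ x in Ivl l i, G x = 0) {M : ℝ} (hM : ∫ x in Ivl l i, ‖G x‖ ≤ M) (v : ℝ) :
    ‖∫ x in Ivl l i, G x * e v x‖ ≤ 2 * Real.pi * |v| / 2 ^ l * M := by
  obtain ⟨a, ha⟩ : (Ivl l i).Nonempty := by
    refine ⟨(i : ℝ) / 2 ^ l, ?_⟩
    unfold Ivl
    rw [mem_Ico]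
    refine ⟨le_rfl, ?_⟩
    gcongr
    linarith
  have hGe : IntegrableOn (fun x => G x * e v x) (Ivl l i) := by
    refine Integrable.mono hG ?_ ?_
    · exact hG.aestronglyMeasurable.mul (measurable_e v).aestronglyMeasurable
    · refine Filter.Eventually.of_forall fun x => ?_
      rw [norm_mul, norm_e, mul_one]
  have h1 : ∫ x in Ivl l i, G x * e v x = ∫ x in Ivl l i, G x * (e v x - e v a) := by
    have h2 : (fun x => G x * (e v x - e v a)) = fun x => G x * e v x - G x * e v a := by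
      ext x; ring
    rw [h2, integral_sub hGe (hG.mul_const _), integral_mul_const, h0]
    ring
  rw [h1]
  have h3 : ‖∫ x in Ivl l i, G x * (e v x - e v a)‖ ≤
      ∫ x in Ivl l i, ‖G x‖ * (2 * Real.pi * |v| / 2 ^ l) := by
    refine norm_integral_le_of_norm_le (hG.norm.mul_const _) ?_
    refine (ae_restrict_iff' (measurableSet_Ivl l i)).2 (Filter.Eventually.of_forall fun x hx => ?_)
    rw [norm_mul]
    gcongr
    refine (norm_e_sub v a x).trans ?_
    have := dist_Ivl ha hx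
    have hp := Real.pi_pos
    calc 2 * Real.pi * |v| * |x - a| ≤ 2 * Real.pi * |v| * (1 / 2 ^ l) := by gcongr
      _ = _ := by ring
  refine h3.trans ?_
  rw [integral_mul_const, mul_comm]
  have hp := Real.pi_pos
  gcongr

section osc

variable {u : ℝ → ℂ} {Q : ℝ}

theorem norm_sub_Ek (hu : Measurable u) (hQ : ∀ x, ‖u x‖ ≤ Q) {k l : ℕ} (hk : k ≤ l) (j : ℤ)
    (v : ℝ) :
    ‖∫ x in Ivl k j, (u x - Ek u l x) * e v x‖ ≤ (4 * Real.pi * |v| / 2 ^ l * Q) / 2 ^ k := by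
  have hm : Measurable fun x => u x - Ek u l x := hu.sub (measurable_Ek u l)
  have hb : ∀ x, ‖u x - Ek u l x‖ ≤ 2 * Q := fun x =>
    (norm_sub_le _ _).trans (by linarith [hQ x, norm_Ek_le hQ l x])
  refine norm_node ?_ ?_ hk j
  · intro k j
    refine intOn k j (hm.mul (measurable_e v)) (M := 2 * Q) ?_
    intro x
    rw [norm_mul, norm_e, mul_one]
    exact hb x
  · intro i
    have h0 : ∫ x in Ivl l i, (u x - Ek u l x) = 0 := by
      rw [integral_sub (intOn' hu hQ l i) (intOn_Ek hQ l l i), integral_Ek hu hQ le_rfl, sub_self]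
    have hM : ∫ x in Ivl l i, ‖u x - Ek u l x‖ ≤ 2 * Q / 2 ^ l := by
      rw [← integral_const_Ivl_real]
      refine integral_mono (intOn l i hm hb).norm ?_ hb
      exact intOn l i measurable_const (M := |2 * Q|) (fun x => le_rfl)
    refine (norm_osc (intOn l i hm hb) h0 hM v).trans (le_of_eq ?_)
    ring

theorem norm_Ek_osc (hQ : ∀ x, ‖u x‖ ≤ Q) {k l : ℕ} (hk : k ≤ l) (j : ℤ) {v : ℝ}
    (hv : v ≠ 0) :
    ‖∫ x in Ivl k j, Ek u l x * e v x‖ ≤ (Q * 2 ^ l / (Real.pi * |v|)) / 2 ^ k := by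
  refine norm_node ?_ ?_ hk j
  · intro k j
    refine intOn k j ((measurable_Ek u l).mul (measurable_e v)) (M := Q) ?_
    intro x
    rw [norm_mul, norm_e, mul_one]
    exact norm_Ek_le hQ l x
  · intro i
    rw [setIntegral_congr_Ivl (G := fun x => av u l i * e v x) (fun x hx => by rw [Ek_eq hx]),
      integral_const_mul, norm_mul]
    have h1 := norm_av_le hQ l i
    have h2 := norm_integral_e_le hv l i
    have hQ0 : 0 ≤ Q := (norm_nonneg _).trans (hQ 0)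
    have hp := Real.pi_pos
    have hv' : 0 < |v| := abs_pos.2 hv
    calc ‖av u l i‖ * ‖∫ x in Ivl l i, e v x‖ ≤ Q * (1 / (Real.pi * |v|)) := by gcongr
      _ = _ := by field_simp

end osc

/-! ## the stopping time -/

/-- `f` cut to the region where `s ≥ q` -/
def cut (f : ℝ → ℂ) (s : ℝ → ℕ) (q : ℕ) (y : ℝ) : ℂ := if q ≤ s y then f y else 0

theorem measurable_cut {f : ℝ → ℂ} (hf : Measurable f) {s : ℝ → ℕ} (hs : Measurable s) (q : ℕ) :
    Measurable (cut f s q) :=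
  Measurable.ite (measurableSet_le measurable_const hs) hf measurable_const

theorem norm_cut_le {f : ℝ → ℂ} {Q : ℝ} (hQ : ∀ x, ‖f x‖ ≤ Q) (s : ℝ → ℕ) (q : ℕ) (x : ℝ) :
    ‖cut f s q x‖ ≤ Q := by
  unfold cut
  split_ifs
  · exact hQ x
  · rw [norm_zero]; exact (norm_nonneg _).trans (hQ x)

/-- stopping time -/
def IsStop (s : ℝ → ℕ) : Prop := ∀ z z', fl (s z) z' = fl (s z) z → s z' = s z

/-- stopped expectation -/
def fb (F : ℝ → ℂ) (w : ℝ) (s : ℝ → ℕ) (z : ℝ) : ℂ := coef F w (s z) (fl (s z) z)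

theorem measurable_fb (F : ℝ → ℂ) (w : ℝ) {s : ℝ → ℕ} (hs : Measurable s) :
    Measurable (fb F w s) := by
  have h : Measurable fun p : ℕ × ℝ => coef F w p.1 (fl p.1 p.2) :=
    measurable_from_prod_countable_right fun l => measurable_fl_comp l (fun j => coef F w l j)
  exact h.comp (hs.prodMk measurable_id)

theorem norm_fb_le {F : ℝ → ℂ} {w : ℝ} {s : ℝ → ℕ} {Q : ℝ}
    (hD : ∀ z l, l ≤ s z → avN F l (fl l z) ≤ Q) (z : ℝ) : ‖fb F w s z‖ ≤ Q :=
  (norm_coef_le _ _ _ _).trans (hD z _ le_rfl)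

/-- step 1: replacing `F e_{-w}` by its stopped expectation -/
theorem stop_osc {F : ℝ → ℂ} (hF : Measurable F) {M0 : ℝ} (hM0 : ∀ x, ‖F x‖ ≤ M0)
    {s : ℝ → ℕ} (hs : Measurable s) (hst : IsStop s) {m : ℕ} (hsm : ∀ z, s z ≤ m) {Q : ℝ}
    (hD : ∀ z l, l ≤ s z → avN F l (fl l z) ≤ Q) (w v : ℝ) (q : ℕ) (k : ℕ) (hk : k ≤ m) :
    ∀ j, (∀ z ∈ Ivl k j, k ≤ s z) →
    ‖∫ z in Ivl k j, (cut (fun z => F z * e (-w) z - fb F w s z) s q z) * e v z‖ ≤
      (4 * Real.pi * |v| / 2 ^ q * Q) / 2 ^ k := by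
  have hQ0 : 0 ≤ Q := (avN_nonneg F 0 (fl 0 0)).trans (hD 0 0 (Nat.zero_le _))
  have hp := Real.pi_pos
  have hFe : Measurable fun z => F z * e (-w) z := hF.mul (measurable_e _)
  have hdm : Measurable fun z => F z * e (-w) z - fb F w s z := hFe.sub (measurable_fb F w hs)
  have hdb : ∀ z, ‖F z * e (-w) z - fb F w s z‖ ≤ M0 + Q := by
    intro z
    refine (norm_sub_le _ _).trans (add_le_add ?_ (norm_fb_le hD z))
    rw [norm_mul, norm_e, mul_one]
    exact hM0 z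
  have hint : ∀ k j, IntegrableOn
      (fun z => (cut (fun z => F z * e (-w) z - fb F w s z) s q z) * e v z) (Ivl k j) := by
    intro k j
    refine intOn k j ((measurable_cut hdm hs q).mul (measurable_e v)) (M := M0 + Q) ?_
    intro x
    rw [norm_mul, norm_e, mul_one]
    exact norm_cut_le hdb s q x
  -- the stopping case
  have hstop : ∀ k j, (∀ z ∈ Ivl k j, s z = k) →
      ‖∫ z in Ivl k j, (cut (fun z => F z * e (-w) z - fb F w s z) s q z) * e v z‖ ≤
      (4 * Real.pi * |v| / 2 ^ q * Q) / 2 ^ k := by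
    intro k j hz
    by_cases hq : q ≤ k
    · have e1 : ∫ z in Ivl k j, (cut (fun z => F z * e (-w) z - fb F w s z) s q z) * e v z =
          ∫ z in Ivl k j, (F z * e (-w) z - coef F w k j) * e v z := by
        apply setIntegral_congr_Ivl
        intro z hz'
        have h1 := hz z hz'
        have h2 := mem_Ivl.1 hz'
        simp only [cut, h1, hq, if_true, fb, h2]
      rw [e1]
      obtain ⟨z0, hz0⟩ : (Ivl k j).Nonempty := by
        refine ⟨(j : ℝ) / 2 ^ k, ?_⟩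
        unfold Ivl
        rw [mem_Ico]
        refine ⟨le_rfl, ?_⟩
        gcongr
        linarith
      have hN : avN F k j ≤ Q := by
        have := hD z0 k (hz z0 hz0).ge
        rwa [mem_Ivl.1 hz0] at this
      have iF : IntegrableOn (fun z => F z * e (-w) z) (Ivl k j) := integrable_fe hF hM0 (-w) k j
      have ic : IntegrableOn (fun _ : ℝ => coef F w k j) (Ivl k j) :=
        intOn k j measurable_const (M := ‖coef F w k j‖) (fun _ => le_rfl)
      have h0 : ∫ z in Ivl k j, (F z * e (-w) z - coef F w k j) = 0 := by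
        rw [integral_sub iF ic, integral_const_Ivl]
        unfold coef
        field_simp
        ring
      have hM : ∫ z in Ivl k j, ‖F z * e (-w) z - coef F w k j‖ ≤ 2 * Q / 2 ^ k := by
        calc ∫ z in Ivl k j, ‖F z * e (-w) z - coef F w k j‖
            ≤ ∫ z in Ivl k j, (‖F z‖ + ‖coef F w k j‖) := by
              refine integral_mono (iF.sub ic).norm ?_ ?_
              · exact (intOn k j hF.norm (M := M0) (fun x => by simpa using hM0 x)).add
                  (intOn k j measurable_const (M := ‖coef F w k j‖) (fun _ => by simp))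
              · intro z
                refine (norm_sub_le _ _).trans ?_
                rw [norm_mul, norm_e, mul_one]
          _ = (avN F k j + ‖coef F w k j‖) / 2 ^ k := by
              rw [integral_add (intOn k j hF.norm (M := M0) (fun x => by simpa using hM0 x))
                (intOn k j measurable_const (M := ‖coef F w k j‖) (fun _ => by simp)),
                integral_const_Ivl_real]
              unfold avN
              field_simp
          _ ≤ 2 * Q / 2 ^ k := by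
              gcongr
              linarith [norm_coef_le F w k j]
      refine (norm_osc (iF.sub ic) h0 hM v).trans ?_
      have : (2 : ℝ) ^ q ≤ 2 ^ k := pow_le_pow_right₀ (by norm_num) hq
      calc 2 * Real.pi * |v| / 2 ^ k * (2 * Q / 2 ^ k) = (4 * Real.pi * |v| / 2 ^ k * Q) / 2 ^ k := by ring
        _ ≤ _ := by gcongr
    · have e1 : ∫ z in Ivl k j, (cut (fun z => F z * e (-w) z - fb F w s z) s q z) * e v z = 0 := by
        rw [setIntegral_congr_Ivl (G := fun _ => (0 : ℂ)) (fun z hz' => ?_)]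
        · simp
        · have h1 := hz z hz'
          simp only [cut, h1, hq, if_false, zero_mul]
      rw [e1, norm_zero]
      positivity
  induction hk using Nat.decreasingInduction with
  | self =>
    intro j hz
    exact hstop m j fun z hz' => le_antisymm (hsm z) (hz z hz')
  | of_succ k hk ih =>
    intro j hz
    by_cases hex : ∃ z ∈ Ivl k j, s z = k
    · obtain ⟨z, hz1, hz2⟩ := hex
      refine hstop k j fun z' hz' => ?_
      have := hst z z' (by rw [hz2, mem_Ivl.1 hz', mem_Ivl.1 hz1])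
      rw [this, hz2]
    · push Not at hex
      have hge : ∀ z ∈ Ivl k j, k + 1 ≤ s z := fun z hz' =>
        Nat.lt_of_le_of_ne (hz z hz') (Ne.symm (hex z hz'))
      have h1 := ih (2 * j) fun z hz' => hge z (by rw [Ivl_split]; exact Or.inl hz')
      have h2 := ih (2 * j + 1) fun z hz' => hge z (by rw [Ivl_split]; exact Or.inr hz')
      rw [integral_Ivl hint]
      refine (norm_add_le _ _).trans ((add_le_add h1 h2).trans (le_of_eq ?_))
      rw [pow_succ]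
      field_simp
      ring

/-! ## the energy of the bands around one frequency -/

theorem av_sub {u v : ℝ → ℂ} (k : ℕ) (j : ℤ) (hu : IntegrableOn u (Ivl k j))
    (hv : IntegrableOn v (Ivl k j)) : av (fun x => u x - v x) k j = av u k j - av v k j := by
  unfold av
  rw [integral_sub hu hv, mul_sub]

/-- energy of a conditional expectation on a node -/
def En (u : ℝ → ℂ) (l : ℕ) (k0 : ℕ) (j0 : ℤ) : ℝ := ∫ x in Ivl k0 j0, ‖Ek u l x‖ ^ 2

/-- indicator of the window `a ≤ s < a + d` -/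
def win (s : ℝ → ℕ) (a d : ℕ) (y : ℝ) : ℝ := if a ≤ s y ∧ s y < a + d then 1 else 0

theorem measurable_win {s : ℝ → ℕ} (hs : Measurable s) (a d : ℕ) : Measurable (win s a d) :=
  Measurable.ite ((measurableSet_le measurable_const hs).inter
    (measurableSet_lt hs measurable_const)) measurable_const measurable_const

theorem win_nonneg (s : ℝ → ℕ) (a d : ℕ) (y : ℝ) : 0 ≤ win s a d y := by
  unfold win; split_ifs <;> norm_num

theorem win_le_one (s : ℝ → ℕ) (a d : ℕ) (y : ℝ) : win s a d y ≤ 1 := by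
  unfold win; split_ifs <;> norm_num

theorem intOn_win {s : ℝ → ℕ} (hs : Measurable s) (a d k : ℕ) (j : ℤ) :
    IntegrableOn (win s a d) (Ivl k j) := by
  refine intOn k j (measurable_win hs a d) (M := 1) fun x => ?_
  rw [Real.norm_eq_abs, abs_of_nonneg (win_nonneg s a d x)]
  exact win_le_one s a d x

section energy

variable {f : ℝ → ℂ} {Q : ℝ} {s : ℝ → ℕ}

theorem intOn_sq_Ek {u : ℝ → ℂ} (hQ : ∀ x, ‖u x‖ ≤ Q) (l k : ℕ) (j : ℤ) :
    IntegrableOn (fun x => ‖Ek u l x‖ ^ 2) (Ivl k j) := by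
  apply intOn k j ((measurable_Ek u l).norm.pow_const 2) (M := Q ^ 2)
  intro x
  rw [norm_pow, norm_norm]
  have := norm_Ek_le hQ l x
  gcongr

theorem En_nonneg (u : ℝ → ℂ) (l : ℕ) (k0 : ℕ) (j0 : ℤ) : 0 ≤ En u l k0 j0 :=
  integral_nonneg fun x => by positivity

theorem En_le {u : ℝ → ℂ} (hQ : ∀ x, ‖u x‖ ≤ Q) (l : ℕ) (k0 : ℕ) (j0 : ℤ) :
    En u l k0 j0 ≤ Q ^ 2 / 2 ^ k0 := by
  unfold En
  rw [← integral_const_Ivl_real]
  refine integral_mono (intOn_sq_Ek hQ l k0 j0)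
    (intOn k0 j0 measurable_const (M := |Q ^ 2|) (fun x => le_rfl)) fun x => ?_
  have := norm_Ek_le hQ l x
  change ‖Ek u l x‖ ^ 2 ≤ Q ^ 2
  gcongr

theorem En_diff (hf : Measurable f) (hQ : ∀ x, ‖f x‖ ≤ Q) (hs : Measurable s) {k0 a : ℕ} (d : ℕ)
    (hk : k0 ≤ a) (j0 : ℤ) :
    En (cut f s a) a k0 j0 - En (cut f s (a + d)) a k0 j0 ≤
      2 * Q ^ 2 * ∫ y in Ivl k0 j0, win s a d y := by
  have hQ0 : 0 ≤ Q := (norm_nonneg _).trans (hQ 0)
  set g : ℝ → ℂ := fun x => cut f s a x - cut f s (a + d) x with hg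
  have hgm : Measurable g := (measurable_cut hf hs a).sub (measurable_cut hf hs (a + d))
  have hgb : ∀ x, ‖g x‖ ≤ Q * win s a d x := by
    intro x
    simp only [hg, cut, win]
    by_cases h1 : a ≤ s x
    · by_cases h2 : a + d ≤ s x
      · simp [h1, h2]
        split_ifs <;> linarith
      · have h3 : s x < a + d := not_le.1 h2
        simp only [h1, h2, h3, if_true, if_false, sub_zero, and_self, mul_one]
        exact hQ x
    · have h2 : ¬ (a + d ≤ s x) := fun h => h1 (le_trans (Nat.le_add_right a d) h)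
      simp [h1, h2]
  have hgb' : ∀ x, ‖g x‖ ≤ Q := fun x => (hgb x).trans (by
    have := win_le_one s a d x
    calc Q * win s a d x ≤ Q * 1 := by gcongr
      _ = Q := mul_one _)
  have hEg : ∀ x, Ek g a x = Ek (cut f s a) a x - Ek (cut f s (a + d)) a x := by
    intro x
    unfold Ek
    exact av_sub a _ (intOn' (measurable_cut hf hs a) (norm_cut_le hQ s a) _ _)
      (intOn' (measurable_cut hf hs (a + d)) (norm_cut_le hQ s (a + d)) _ _)
  have h1 : En (cut f s a) a k0 j0 - En (cut f s (a + d)) a k0 j0 ≤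
      ∫ x in Ivl k0 j0, 2 * Q * ‖Ek g a x‖ := by
    unfold En
    rw [← integral_sub (intOn_sq_Ek (norm_cut_le hQ s a) a k0 j0)
      (intOn_sq_Ek (norm_cut_le hQ s (a + d)) a k0 j0)]
    refine integral_mono ((intOn_sq_Ek (norm_cut_le hQ s a) a k0 j0).sub
      (intOn_sq_Ek (norm_cut_le hQ s (a + d)) a k0 j0))
      ((intOn_Ek hgb' a k0 j0).norm.const_mul (2 * Q)) fun x => ?_
    change ‖Ek (cut f s a) a x‖ ^ 2 - ‖Ek (cut f s (a + d)) a x‖ ^ 2 ≤ 2 * Q * ‖Ek g a x‖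
    rw [hEg]
    have e1 := norm_Ek_le (norm_cut_le hQ s a) a x
    have e2 := norm_Ek_le (norm_cut_le hQ s (a + d)) a x
    have e3 := norm_sub_norm_le (Ek (cut f s a) a x) (Ek (cut f s (a + d)) a x)
    have e4 := norm_nonneg (Ek (cut f s a) a x - Ek (cut f s (a + d)) a x)
    have e5 := norm_nonneg (Ek (cut f s a) a x)
    have e6 := norm_nonneg (Ek (cut f s (a + d)) a x)
    nlinarith [mul_le_mul_of_nonneg_right e3 (add_nonneg e5 e6),
      mul_le_mul_of_nonneg_left (add_le_add e1 e2) e4]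
  refine h1.trans ?_
  rw [integral_const_mul]
  have h2 := integral_norm_Ek_le hgm hgb' hk j0
  have h3 : ∫ x in Ivl k0 j0, ‖g x‖ ≤ Q * ∫ x in Ivl k0 j0, win s a d x := by
    rw [← integral_const_mul]
    exact integral_mono (intOn' hgm hgb' k0 j0).norm ((intOn_win hs a d k0 j0).const_mul Q) hgb
  calc 2 * Q * ∫ x in Ivl k0 j0, ‖Ek g a x‖ ≤ 2 * Q * (Q * ∫ x in Ivl k0 j0, win s a d x) := by
        gcongr
        exact h2.trans h3
    _ = _ := by ring

/-- the band `E_{a+2b} - E_a` of the function cut at `a + 2b` -/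
def hh (f : ℝ → ℂ) (s : ℝ → ℕ) (b a : ℕ) (x : ℝ) : ℂ :=
  Ek (cut f s (a + 2 * b)) (a + 2 * b) x - Ek (cut f s (a + 2 * b)) a x

theorem measurable_hh (f : ℝ → ℂ) (s : ℝ → ℕ) (b a : ℕ) : Measurable (hh f s b a) :=
  (measurable_Ek _ _).sub (measurable_Ek _ _)

theorem norm_hh_le (hQ : ∀ x, ‖f x‖ ≤ Q) (b a : ℕ) (x : ℝ) : ‖hh f s b a x‖ ≤ 2 * Q := by
  refine (norm_sub_le _ _).trans ?_
  have e1 := norm_Ek_le (norm_cut_le hQ s (a + 2 * b)) (a + 2 * b) x
  have e2 := norm_Ek_le (norm_cut_le hQ s (a + 2 * b)) a x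
  linarith

theorem telescope {α : ℕ → ℝ} {M : ℝ} (h0 : ∀ a, 0 ≤ α a) (hM : ∀ a, α a ≤ M) (N D : ℕ) :
    ∑ a ∈ Finset.range N, (α (a + D) - α a) ≤ D * M := by
  have h1 := Finset.sum_range_add (fun a => α a) N D
  have h2 := Finset.sum_range_add (fun a => α a) D N
  rw [add_comm D N, h1] at h2
  have h3 : ∑ a ∈ Finset.range N, α (a + D) = ∑ a ∈ Finset.range N, α (D + a) :=
    Finset.sum_congr rfl fun a _ => by rw [add_comm]
  rw [Finset.sum_sub_distrib, h3]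
  have h4 : ∑ a ∈ Finset.range D, α (N + a) ≤ D * M := by
    calc ∑ a ∈ Finset.range D, α (N + a) ≤ ∑ _a ∈ Finset.range D, M :=
          Finset.sum_le_sum fun a _ => hM _
      _ = D * M := by simp
  have h5 : 0 ≤ ∑ a ∈ Finset.range D, α a := Finset.sum_nonneg fun a _ => h0 a
  linarith

theorem sum_win (s : ℝ → ℕ) (k0 d N : ℕ) (y : ℝ) :
    ∑ a ∈ Finset.range N, win s (k0 + a) d y ≤ d := by
  unfold win
  rw [← Finset.sum_filter, Finset.sum_const, nsmul_eq_mul, mul_one]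
  have : ((Finset.range N).filter fun a => k0 + a ≤ s y ∧ s y < k0 + a + d) ⊆
      Finset.Ico (s y + 1 - k0 - d) (s y + 1 - k0) := by
    intro a ha
    rw [Finset.mem_filter] at ha
    rw [Finset.mem_Ico]
    omega
  have h2 := Finset.card_le_card this
  rw [Nat.card_Ico] at h2
  have h3 : s y + 1 - k0 - (s y + 1 - k0 - d) ≤ d := by omega
  exact_mod_cast h2.trans h3

/-- **energy of all bands** -/
theorem energy (hf : Measurable f) (hQ : ∀ x, ‖f x‖ ≤ Q) (hs : Measurable s) (b k0 N : ℕ)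
    (j0 : ℤ) :
    ∑ a ∈ Finset.range N, ∫ x in Ivl k0 j0, ‖hh f s b (k0 + a) x‖ ^ 2 ≤
      6 * b * Q ^ 2 / 2 ^ k0 := by
  have hQ0 : 0 ≤ Q := (norm_nonneg _).trans (hQ 0)
  set α : ℕ → ℝ := fun a => En (cut f s (k0 + a)) (k0 + a) k0 j0 with hα
  have h1 : ∀ a ∈ Finset.range N, ∫ x in Ivl k0 j0, ‖hh f s b (k0 + a) x‖ ^ 2 ≤
      (α (a + 2 * b) - α a) + 2 * Q ^ 2 * ∫ y in Ivl k0 j0, win s (k0 + a) (2 * b) y := by
    intro a _
    unfold hh
    rw [integral_sq_sub (norm_cut_le hQ s (k0 + a + 2 * b)) (measurable_cut hf hs _)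
      (Nat.le_add_right k0 a) (Nat.le_add_right _ _)]
    have := En_diff hf hQ hs (2 * b) (Nat.le_add_right k0 a) j0
    simp only [hα, En] at this ⊢
    rw [show k0 + (a + 2 * b) = k0 + a + 2 * b by ring]
    linarith
  refine (Finset.sum_le_sum h1).trans ?_
  rw [Finset.sum_add_distrib, ← Finset.mul_sum]
  have h2 := telescope (α := α) (M := Q ^ 2 / 2 ^ k0) (fun a => En_nonneg _ _ _ _)
    (fun a => En_le (norm_cut_le hQ s (k0 + a)) _ _ _) N (2 * b)
  have h3 : ∑ a ∈ Finset.range N, ∫ y in Ivl k0 j0, win s (k0 + a) (2 * b) y ≤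
      2 * b / 2 ^ k0 := by
    rw [← integral_finsetSum _ fun a _ => intOn_win hs _ _ _ _, ← integral_const_Ivl_real]
    refine integral_mono (integrable_finsetSum _ fun a _ => intOn_win hs _ _ _ _)
      (intOn k0 j0 measurable_const (M := |2 * (b : ℝ)|) (fun x => le_rfl)) fun y => ?_
    have := sum_win s k0 (2 * b) N y
    push_cast at this
    exact this
  have h4 : 2 * Q ^ 2 * ∑ a ∈ Finset.range N, ∫ y in Ivl k0 j0, win s (k0 + a) (2 * b) y ≤
      2 * Q ^ 2 * (2 * b / 2 ^ k0) := by gcongr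
  push_cast at h2
  calc _ ≤ 2 * (b : ℝ) * (Q ^ 2 / 2 ^ k0) + 2 * Q ^ 2 * (2 * b / 2 ^ k0) := add_le_add h2 h4
    _ = _ := by ring

end energy

/-! ## one tile -/

/-- a tile at distance `≈ 2^{a+b}` from `w1` sees only the band `a` -/
theorem tile {F : ℝ → ℂ} (hF : Measurable F) {M0 : ℝ} (hM0 : ∀ x, ‖F x‖ ≤ M0)
    {s : ℝ → ℕ} (hs : Measurable s) (hst : IsStop s) {m : ℕ} (hsm : ∀ z, s z ≤ m) {Q : ℝ}
    (hD : ∀ z l, l ≤ s z → avN F l (fl l z) ≤ Q) (w w1 : ℝ) (a b k : ℕ) (j : ℤ)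
    (hk : ∀ z ∈ Ivl k j, k ≤ s z) (hka : k ≤ a) (h1 : |w - w1| ≤ 2 ^ (a + b))
    (h2 : 2 ^ (a + b) ≤ 2 * |w - w1|) :
    ‖(∫ z in Ivl k j, cut F s (a + 2 * b) z * e (-w) z) -
      ∫ z in Ivl k j, hh (fb F w1 s) s b a z * e (-(w - w1)) z‖ ≤ 26 * Q / 2 ^ b / 2 ^ k := by
  have hp := Real.pi_pos
  have hQ0 : 0 ≤ Q := (avN_nonneg F 0 (fl 0 0)).trans (hD 0 0 (Nat.zero_le _))
  set v : ℝ := -(w - w1) with hv
  have hav : |v| = |w - w1| := by rw [hv, abs_neg]
  have hpow : (0 : ℝ) < 2 ^ (a + b) := by positivity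
  have hv0 : v ≠ 0 := by
    intro h
    rw [h, abs_zero] at hav
    rw [← hav] at h2
    linarith
  have hkm : k ≤ m := by
    have hne : ((j : ℝ) / 2 ^ k) ∈ Ivl k j := by
      unfold Ivl
      rw [mem_Ico]
      refine ⟨le_rfl, ?_⟩
      gcongr
      linarith
    exact (hk _ hne).trans (hsm _)
  set u : ℝ → ℂ := cut (fb F w1 s) s (a + 2 * b) with hu
  have hum : Measurable u := measurable_cut (measurable_fb F w1 hs) hs _
  have huQ : ∀ x, ‖u x‖ ≤ Q := norm_cut_le (norm_fb_le hD) s _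
  have e1 := stop_osc hF hM0 hs hst hsm hD w1 v (a + 2 * b) k hkm j hk
  have e2 := norm_sub_Ek hum huQ (show k ≤ a + 2 * b by omega) j v
  have e3 := norm_Ek_osc huQ hka j hv0
  have i1 : IntegrableOn (fun z => cut (fun z => F z * e (-w1) z - fb F w1 s z) s (a + 2 * b) z *
      e v z) (Ivl k j) := by
    refine intOn k j ((measurable_cut ((hF.mul (measurable_e _)).sub (measurable_fb F w1 hs)) hs
      _).mul (measurable_e v)) (M := M0 + Q) ?_
    intro x
    rw [norm_mul, norm_e, mul_one]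
    refine norm_cut_le (fun z => ?_) s _ x
    refine (norm_sub_le _ _).trans (add_le_add ?_ (norm_fb_le hD z))
    rw [norm_mul, norm_e, mul_one]
    exact hM0 z
  have i2 : IntegrableOn (fun z => (u z - Ek u (a + 2 * b) z) * e v z) (Ivl k j) := by
    refine intOn k j ((hum.sub (measurable_Ek _ _)).mul (measurable_e v)) (M := 2 * Q) ?_
    intro x
    rw [norm_mul, norm_e, mul_one]
    exact (norm_sub_le _ _).trans (by linarith [huQ x, norm_Ek_le huQ (a + 2 * b) x])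
  have i3 : IntegrableOn (fun z => Ek u a z * e v z) (Ivl k j) := by
    refine intOn k j ((measurable_Ek _ _).mul (measurable_e v)) (M := Q) ?_
    intro x
    rw [norm_mul, norm_e, mul_one]
    exact norm_Ek_le huQ _ x
  have i4 : IntegrableOn (fun z => hh (fb F w1 s) s b a z * e v z) (Ivl k j) := by
    refine intOn k j ((measurable_hh _ _ _ _).mul (measurable_e v)) (M := 2 * Q) ?_
    intro x
    rw [norm_mul, norm_e, mul_one]
    exact norm_hh_le (norm_fb_le hD) _ _ _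
  have i5 : IntegrableOn (fun z => cut F s (a + 2 * b) z * e (-w) z) (Ivl k j) := by
    refine intOn k j ((measurable_cut hF hs _).mul (measurable_e _)) (M := M0) ?_
    intro x
    rw [norm_mul, norm_e, mul_one]
    exact norm_cut_le hM0 _ _ _
  have key : (∫ z in Ivl k j, cut F s (a + 2 * b) z * e (-w) z) -
      ∫ z in Ivl k j, hh (fb F w1 s) s b a z * e v z =
      (∫ z in Ivl k j, cut (fun z => F z * e (-w1) z - fb F w1 s z) s (a + 2 * b) z * e v z) +
      (∫ z in Ivl k j, (u z - Ek u (a + 2 * b) z) * e v z) + ∫ z in Ivl k j, Ek u a z * e v z := by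
    have i12 : IntegrableOn (fun z => cut (fun z => F z * e (-w1) z - fb F w1 s z) s (a + 2 * b) z *
        e v z + (u z - Ek u (a + 2 * b) z) * e v z) (Ivl k j) := i1.add i2
    rw [← integral_sub i5 i4, ← integral_add i1 i2, ← integral_add i12 i3]
    congr 1
    ext z
    have e4 : e (-w) z = e (-w1) z * e v z := by
      rw [← e_add, hv]
      congr 1
      ring
    simp only [hh, ← hu]
    rw [e4]
    have e5 : cut (fun z => F z * e (-w1) z - fb F w1 s z) s (a + 2 * b) z =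
        cut F s (a + 2 * b) z * e (-w1) z - u z := by
      simp only [hu, cut]
      split_ifs <;> simp
    rw [e5]
    ring
  rw [key]
  refine (norm_add₃_le).trans ((add_le_add (add_le_add e1 e2) e3).trans ?_)
  rw [← add_div, ← add_div]
  have hb1 : 4 * Real.pi * |v| / 2 ^ (a + 2 * b) * Q ≤ 4 * Real.pi * Q / 2 ^ b := by
    rw [hav]
    have : (2 : ℝ) ^ (a + 2 * b) = 2 ^ (a + b) * 2 ^ b := by rw [← pow_add]; congr 1; omega
    rw [this]
    calc 4 * Real.pi * |w - w1| / (2 ^ (a + b) * 2 ^ b) * Q ≤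
          4 * Real.pi * 2 ^ (a + b) / (2 ^ (a + b) * 2 ^ b) * Q := by gcongr
      _ = _ := by field_simp
  have hb2 : Q * 2 ^ a / (Real.pi * |v|) ≤ 2 / Real.pi * Q / 2 ^ b := by
    rw [hav]
    have h3 : (2 : ℝ) ^ (a + b) / 2 ≤ |w - w1| := by linarith
    calc Q * 2 ^ a / (Real.pi * |w - w1|) ≤ Q * 2 ^ a / (Real.pi * (2 ^ (a + b) / 2)) := by gcongr
      _ = _ := by rw [pow_add]; field_simp
  have hpi : 8 * Real.pi + 2 / Real.pi ≤ 26 := by
    have h3 := Real.pi_lt_d2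
    have h4 := Real.pi_gt_three
    have : 2 / Real.pi ≤ 2 / 3 := by gcongr
    linarith
  gcongr
  calc 4 * Real.pi * |v| / 2 ^ (a + 2 * b) * Q + 4 * Real.pi * |v| / 2 ^ (a + 2 * b) * Q +
        Q * 2 ^ a / (Real.pi * |v|)
      ≤ 4 * Real.pi * Q / 2 ^ b + 4 * Real.pi * Q / 2 ^ b + 2 / Real.pi * Q / 2 ^ b := by
        linarith
    _ = (8 * Real.pi + 2 / Real.pi) * (Q / 2 ^ b) := by ring
    _ ≤ 26 * (Q / 2 ^ b) := by gcongr
    _ = _ := by ring

/-! ## nested nodes -/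

/-- `Ivl k j` is contained in `Ivl k' j'` -/
def Sub (k : ℕ) (j : ℤ) (k' : ℕ) (j' : ℤ) : Prop := k' ≤ k ∧ j / 2 ^ (k - k') = j'

theorem fl_add (k d : ℕ) (x : ℝ) : fl k x = fl (k + d) x / 2 ^ d := by
  induction d with
  | zero => simp
  | succ d ih =>
    rw [ih, fl_half (k + d) x, Int.ediv_ediv_of_nonneg (by norm_num), pow_succ',
      add_assoc]

theorem fl_le {k' k : ℕ} (h : k' ≤ k) (x : ℝ) : fl k' x = fl k x / 2 ^ (k - k') := by
  obtain ⟨d, rfl⟩ := Nat.exists_eq_add_of_le h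
  rw [fl_add k' d x, Nat.add_sub_cancel_left]

theorem Sub.subset {k k' : ℕ} {j j' : ℤ} (h : Sub k j k' j') : Ivl k j ⊆ Ivl k' j' := by
  intro x hx
  rw [mem_Ivl] at hx ⊢
  rw [fl_le h.1, hx, h.2]

theorem sub_of_mem {k k' : ℕ} {j j' : ℤ} {x : ℝ} (h : k' ≤ k) (hx : x ∈ Ivl k j)
    (hx' : x ∈ Ivl k' j') : Sub k j k' j' := by
  rw [mem_Ivl] at hx hx'
  refine ⟨h, ?_⟩
  rw [← hx, ← fl_le h, hx']


/-! ## Gram mass of a separated family of small depth -/

section gram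

variable {ι : Type*} (k : ι → ℕ) (j : ι → ℤ) (δ : ι → ℝ)

/-- the packet of a tile -/
def pk (t : ι) (y : ℝ) : ℂ := (Ivl (k t) (j t)).indicator (e (δ t)) y

theorem measurable_pk (t : ι) : Measurable (pk k j δ t) :=
  (measurable_e _).indicator (measurableSet_Ivl _ _)

theorem norm_pk_le (t : ι) (y : ℝ) : ‖pk k j δ t y‖ ≤ 1 := by
  unfold pk
  by_cases hy : y ∈ Ivl (k t) (j t)
  · rw [Set.indicator_of_mem hy, norm_e]
  · rw [Set.indicator_of_notMem hy, norm_zero]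
    exact zero_le_one

/-- product of two packets when the first node is inside the second -/
theorem pk_mul {t t' : ι} (h : Sub (k t) (j t) (k t') (j t')) (y : ℝ) :
    conj (pk k j δ t y) * pk k j δ t' y =
      (Ivl (k t) (j t)).indicator (e (δ t' - δ t)) y := by
  unfold pk
  by_cases hy : y ∈ Ivl (k t) (j t)
  · rw [Set.indicator_of_mem hy, Set.indicator_of_mem (h.subset hy), Set.indicator_of_mem hy,
      conj_e, ← e_add]
    congr 1
    ring
  · rw [Set.indicator_of_notMem hy, Set.indicator_of_notMem hy]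
    simp

variable {k j δ}

theorem integral_indicator_Ivl {k0 : ℕ} {j0 : ℤ} {k1 : ℕ} {j1 : ℤ} (h : Sub k1 j1 k0 j0)
    (f : ℝ → ℂ) :
    ∫ y in Ivl k0 j0, (Ivl k1 j1).indicator f y = ∫ y in Ivl k1 j1, f y := by
  rw [setIntegral_indicator (measurableSet_Ivl _ _), Set.inter_eq_right.2 h.subset]

open Classical in
/-- total Gram mass -/
theorem gram {S : Finset ι} {B : ℝ} {D : ℕ} (hB : 0 < B) (hDB : (D : ℝ) ≤ B) {k0 : ℕ} {j0 : ℤ}
    (h0 : ∀ t ∈ S, Sub (k t) (j t) k0 j0)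
    (sep : ∀ t ∈ S, ∀ t' ∈ S, t ≠ t' → Sub (k t) (j t) (k t') (j t') →
      B * 2 ^ (k t) < |δ t - δ t'|)
    (dep : ∀ t ∈ S, (S.filter fun t' => Sub (k t) (j t) (k t') (j t')).card ≤ D) :
    ∑ t ∈ S, ∑ t' ∈ S, ‖∫ y in Ivl k0 j0, conj (pk k j δ t y) * pk k j δ t' y‖ ≤
      2 * ∑ t ∈ S, 1 / (2 : ℝ) ^ (k t) := by
  have hp := Real.pi_pos
  set w : ι → ℝ := fun t => 1 / (2 : ℝ) ^ (k t) with hw
  have hw0 : ∀ t, 0 < w t := fun t => by positivity
  set g : ι → ι → ℝ := fun t t' => if Sub (k t) (j t) (k t') (j t') then w t / (Real.pi * B) else 0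
    with hg
  have hg0 : ∀ t t', 0 ≤ g t t' := by
    intro t t'
    simp only [hg]
    split_ifs
    · have := hw0 t; positivity
    · exact le_rfl
  have hnest : ∀ t ∈ S, ∀ t' ∈ S, t ≠ t' → Sub (k t) (j t) (k t') (j t') →
      ‖∫ y in Ivl k0 j0, conj (pk k j δ t y) * pk k j δ t' y‖ ≤ g t t' := by
    intro t ht t' ht' hne hsub
    have h1 := sep t ht t' ht' hne hsub
    have h2 : δ t' - δ t ≠ 0 := by
      intro h
      rw [abs_sub_comm, h, abs_zero] at h1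
      have : 0 < B * 2 ^ (k t) := by positivity
      linarith
    simp only [pk_mul k j δ hsub]
    rw [integral_indicator_Ivl (h0 t ht)]
    refine (norm_integral_e_le h2 _ _).trans ?_
    simp only [hg, if_pos hsub]
    rw [abs_sub_comm] at h1
    have h3 : 0 < B * 2 ^ (k t) := by positivity
    calc 1 / (Real.pi * |δ t' - δ t|) ≤ 1 / (Real.pi * (B * 2 ^ (k t))) := by gcongr
      _ = w t / (Real.pi * B) := by simp only [hw]; field_simp
  have hpair : ∀ t ∈ S, ∀ t' ∈ S, ‖∫ y in Ivl k0 j0, conj (pk k j δ t y) * pk k j δ t' y‖ ≤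
      (if t = t' then w t else 0) + (g t t' + g t' t) := by
    intro t ht t' ht'
    by_cases hne : t = t'
    · subst hne
      rw [if_pos rfl]
      have hs : Sub (k t) (j t) (k t) (j t) := ⟨le_rfl, by simp⟩
      simp only [pk_mul k j δ hs]
      rw [integral_indicator_Ivl (h0 t ht)]
      have h1 : ‖∫ y in Ivl (k t) (j t), e (δ t - δ t) y‖ ≤ 1 / 2 ^ (k t) :=
        norm_setIntegral_Ivl_le (fun x => (norm_e _ _).le) _ _
      have := hg0 t t
      simp only [hw]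
      linarith
    · rw [if_neg hne, zero_add]
      by_cases hs : Sub (k t) (j t) (k t') (j t')
      · have := hnest t ht t' ht' hne hs
        linarith [hg0 t' t]
      · by_cases hs' : Sub (k t') (j t') (k t) (j t)
        · have h1 := hnest t' ht' t ht (Ne.symm hne) hs'
          have h2 : ∫ y in Ivl k0 j0, conj (pk k j δ t y) * pk k j δ t' y =
              conj (∫ y in Ivl k0 j0, conj (pk k j δ t' y) * pk k j δ t y) := by
            rw [← integral_conj]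
            congr 1
            ext y
            rw [map_mul, Complex.conj_conj, mul_comm]
          rw [h2, RCLike.norm_conj]
          linarith [hg0 t t']
        · have h2 : ∀ y, conj (pk k j δ t y) * pk k j δ t' y = 0 := by
            intro y
            unfold pk
            by_cases hy : y ∈ Ivl (k t) (j t)
            · by_cases hy' : y ∈ Ivl (k t') (j t')
              · exfalso
                rcases le_total (k t') (k t) with h | h
                · exact hs (sub_of_mem h hy hy')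
                · exact hs' (sub_of_mem h hy' hy)
              · rw [Set.indicator_of_notMem hy', mul_zero]
            · rw [Set.indicator_of_notMem hy, map_zero, zero_mul]
          simp only [h2, integral_zero, norm_zero]
          linarith [hg0 t t', hg0 t' t]
  have hrow : ∑ t ∈ S, ∑ t' ∈ S, g t t' ≤ 1 / Real.pi * ∑ t ∈ S, w t := by
    rw [Finset.mul_sum]
    refine Finset.sum_le_sum fun t ht => ?_
    simp only [hg]
    rw [← Finset.sum_filter, Finset.sum_const, nsmul_eq_mul]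
    have h1 : ((S.filter fun t' => Sub (k t) (j t) (k t') (j t')).card : ℝ) ≤ B :=
      le_trans (by exact_mod_cast dep t ht) hDB
    have h2 := hw0 t
    calc _ ≤ B * (w t / (Real.pi * B)) := by gcongr
      _ = _ := by field_simp
  have hsw : ∑ t ∈ S, ∑ t' ∈ S, g t' t = ∑ t ∈ S, ∑ t' ∈ S, g t t' := Finset.sum_comm
  calc _ ≤ ∑ t ∈ S, ∑ t' ∈ S, ((if t = t' then w t else 0) + (g t t' + g t' t)) :=
        Finset.sum_le_sum fun t ht => Finset.sum_le_sum fun t' ht' => hpair t ht t' ht'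
    _ = ∑ t ∈ S, w t + 2 * ∑ t ∈ S, ∑ t' ∈ S, g t t' := by
        simp only [Finset.sum_add_distrib]
        rw [hsw]
        have : ∑ t ∈ S, ∑ t' ∈ S, (if t = t' then w t else 0) = ∑ t ∈ S, w t := by
          refine Finset.sum_congr rfl fun t ht => ?_
          rw [Finset.sum_ite_eq S t]
          simp [ht]
        rw [this]; ring
    _ ≤ ∑ t ∈ S, w t + 2 * (1 / Real.pi * ∑ t ∈ S, w t) := by gcongr
    _ ≤ 2 * ∑ t ∈ S, w t := by
        have h3 : 0 ≤ ∑ t ∈ S, w t := Finset.sum_nonneg fun t _ => (hw0 t).le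
        have h4 : 2 * (1 / Real.pi) ≤ 1 := by
          rw [mul_one_div, div_le_one hp]
          linarith [Real.pi_gt_three]
        nlinarith

end gram

/-! ## the packing theorem -/

section pack

variable {ι : Type*} (k : ι → ℕ) (j : ι → ℤ) (w : ι → ℝ) (r : ι → ℕ) (b : ℕ)

/-- the family around `T'`: `q + b < r T`, where `2^{q-1} < |w T - w T'| ≤ 2^q` -/
def Fam (T' T : ι) : Prop :=
  Sub (k T) (j T) (k T') (j T') ∧ |w T - w T'| * 2 ^ (b + 1) ≤ 2 ^ (r T)

variable {k j w r b}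

open Classical in
/-- **HYP PACK**: packing of the subfamilies of depth `≤ D` of the family around one tile. -/
theorem pack {F : ℝ → ℂ} (hF : Measurable F) {M0 : ℝ} (hM0 : ∀ x, ‖F x‖ ≤ M0)
    {s : ℝ → ℕ} (hs : Measurable s) (hst : IsStop s) {m : ℕ} (hsm : ∀ z, s z ≤ m) {Q : ℝ}
    (hD : ∀ z l, l ≤ s z → avN F l (fl l z) ≤ Q) {c : ℝ} (hc : 0 < c) {B : ℝ} {D : ℕ}
    (hQb : 52 * Q ≤ c * 2 ^ b) (hBb : (2 : ℝ) ^ b ≤ B) (hDB : (D : ℝ) ≤ B) {T : Finset ι}
    (sep : ∀ t ∈ T, ∀ t' ∈ T, t ≠ t' → Sub (k t) (j t) (k t') (j t') →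
      B * 2 ^ (k t) < |w t - w t'|)
    (hvy : ∀ t ∈ T, ∀ q < r t, c ≤ ‖coef (cut F s q) (w t) (k t) (j t)‖)
    {T1 : ι} (hT1 : T1 ∈ T) {k' : ℕ} {j' : ℤ} (_hk' : Sub k' j' (k T1) (j T1))
    {S : Finset ι} (hST : S ⊆ T)
    (hS : ∀ t ∈ S, t ≠ T1 ∧ Fam k j w r b T1 t ∧ Sub (k t) (j t) k' j')
    (dep : ∀ t ∈ S, (S.filter fun t' => Sub (k t) (j t) (k t') (j t')).card ≤ D) :
    ∑ t ∈ S, 1 / (2 : ℝ) ^ (k t) ≤ 48 * b * Q ^ 2 / c ^ 2 * (1 / 2 ^ k') := by
  have hQ0 : 0 ≤ Q := (avN_nonneg F 0 (fl 0 0)).trans (hD 0 0 (Nat.zero_le _))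
  have hB : 0 < B := lt_of_lt_of_le (by positivity) hBb
  -- the band of a tile
  have hband : ∀ t ∈ S, ∃ a : ℕ, |w t - w T1| ≤ 2 ^ (a + b) ∧ 2 ^ (a + b) ≤ 2 * |w t - w T1| ∧
      k t ≤ a ∧ a + 2 * b < r t := by
    intro t ht
    obtain ⟨h1, ⟨h2, h3⟩, h4⟩ := hS t ht
    have h5 : B * 2 ^ (k t) < |w t - w T1| := sep t (hST ht) T1 hT1 h1 h2
    have hex : ∃ q : ℕ, |w t - w T1| ≤ 2 ^ q := by
      obtain ⟨q, hq⟩ := pow_unbounded_of_one_lt |w t - w T1| (one_lt_two)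
      exact ⟨q, hq.le⟩
    set q := Nat.find hex with hq
    have hq1 : |w t - w T1| ≤ 2 ^ q := Nat.find_spec hex
    have hbk : b + k t < q := by
      have : (2 : ℝ) ^ (b + k t) < 2 ^ q := by
        calc (2 : ℝ) ^ (b + k t) = 2 ^ b * 2 ^ k t := pow_add _ _ _
          _ ≤ B * 2 ^ k t := by gcongr
          _ < |w t - w T1| := h5
          _ ≤ 2 ^ q := hq1
      exact (pow_lt_pow_iff_right₀ one_lt_two).1 this
    have hq2 : (2 : ℝ) ^ (q - 1) < |w t - w T1| := by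
      have := Nat.find_min hex (m := q - 1) (by omega)
      exact not_le.1 this
    refine ⟨q - b, ?_, ?_, ?_, ?_⟩
    · rw [Nat.sub_add_cancel (by omega)]
      exact hq1
    · rw [Nat.sub_add_cancel (by omega)]
      have : (2 : ℝ) ^ q = 2 * 2 ^ (q - 1) := by
        rw [← pow_succ', Nat.sub_add_cancel (by omega)]
      rw [this]
      linarith
    · omega
    · have h6 : (2 : ℝ) ^ (q - 1 + (b + 1)) < 2 ^ (r t) := by
        rw [pow_add]
        refine lt_of_lt_of_le ?_ h3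
        gcongr
      have := (pow_lt_pow_iff_right₀ one_lt_two).1 h6
      omega
  choose! a ha1 ha2 ha3 ha4 using hband
  have hkk : ∀ t ∈ S, k' ≤ a t := fun t ht => ((hS t ht).2.2.1).trans (ha3 t ht)
  -- the tiles are above the stopping line
  have habove : ∀ t ∈ S, ∀ z ∈ Ivl (k t) (j t), k t ≤ s z := by
    intro t ht z hz
    by_contra hcon
    have hcon' : s z < k t := not_le.1 hcon
    have h1 := hvy t (hST ht) (a t + 2 * b) (ha4 t ht)
    have h2 : coef (cut F s (a t + 2 * b)) (w t) (k t) (j t) = 0 := by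
      unfold coef
      have : ∫ y in Ivl (k t) (j t), cut F s (a t + 2 * b) y * e (-w t) y = 0 := by
        rw [setIntegral_congr_Ivl (G := fun _ => (0 : ℂ)) (fun z' hz' => ?_)]
        · simp
        · have h3 : s z' = s z := by
            apply hst
            rw [fl_le hcon'.le z', fl_le hcon'.le z, mem_Ivl.1 hz, mem_Ivl.1 hz']
          have h4 := ha3 t ht
          have : ¬ (a t + 2 * b ≤ s z') := by omega
          simp [cut, this]
      rw [this, mul_zero]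
    rw [h2, norm_zero] at h1
    linarith
  -- one band
  have hone : ∀ i : ℕ, ∑ t ∈ S.filter (fun t => a t = k' + i), 1 / (2 : ℝ) ^ (k t) ≤
      8 / c ^ 2 * ∫ x in Ivl k' j', ‖hh (fb F (w T1) s) s b (k' + i) x‖ ^ 2 := by
    intro i
    set Si := S.filter (fun t => a t = k' + i) with hSi
    have hsub : ∀ t ∈ Si, t ∈ S ∧ a t = k' + i := fun t ht => by
      rw [hSi, Finset.mem_filter] at ht; exact ht
    set δ : ι → ℝ := fun t => w t - w T1 with hδ
    set h := hh (fb F (w T1) s) s b (k' + i) with hh'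
    have hhm : Measurable h := measurable_hh _ _ _ _
    have hhb : ∀ x, ‖h x‖ ≤ 2 * Q := norm_hh_le (norm_fb_le hD) _ _
    have hgram := gram (k := k) (j := j) (δ := δ) (S := Si) (D := D) hB hDB (k0 := k') (j0 := j')
      (fun t ht => (hS t (hsub t ht).1).2.2)
      (fun t ht t' ht' hne hs' => by
        have := sep t (hST (hsub t ht).1) t' (hST (hsub t' ht').1) hne hs'
        simpa [hδ] using this)
      (fun t ht => by
        refine le_trans (Finset.card_le_card ?_) (dep t (hsub t ht).1)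
        intro t' ht'
        rw [Finset.mem_filter] at ht' ⊢
        exact ⟨(hsub t' ht'.1).1, ht'.2⟩)
    have hbes := Crest.Agent.R100.Gram801.bessel_of_gram (μ := volume.restrict (Ivl k' j')) Si
      (fun t => pk k j δ t) (fun t => 1 / (2 : ℝ) ^ (k t)) (K := 2) (fun t _ => by positivity)
      (fun t _ => (measurable_pk k j δ t).aestronglyMeasurable)
      (fun t _ t' _ => by
        refine intOn k' j' ?_ (M := 1) fun x => ?_
        · exact (Complex.continuous_conj.measurable.comp (measurable_pk k j δ t)).mul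
            (measurable_pk k j δ t')
        · rw [norm_mul, RCLike.norm_conj]
          exact mul_le_one₀ (norm_pk_le k j δ t x) (norm_nonneg _) (norm_pk_le k j δ t' x))
      (by norm_num) hgram (f := h) hhm.aestronglyMeasurable
      (by
        refine intOn k' j' (hhm.norm.pow_const 2) (M := (2 * Q) ^ 2) fun x => ?_
        rw [norm_pow, norm_norm]
        have := hhb x
        gcongr)
      (δ := c / 2) (by positivity)
      (by
        intro t ht
        obtain ⟨htS, hat⟩ := hsub t ht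
        have h1 := hvy t (hST htS) (a t + 2 * b) (ha4 t htS)
        have h2 := tile hF hM0 hs hst hsm hD (w t) (w T1) (a t) b (k t) (j t) (habove t htS)
          (ha3 t htS) (ha1 t htS) (ha2 t htS)
        have h3 : ∫ y in Ivl k' j', conj (pk k j δ t y) * h y =
            ∫ z in Ivl (k t) (j t), h z * e (-(w t - w T1)) z := by
          rw [← integral_indicator_Ivl (hS t htS).2.2]
          congr 1
          ext y
          unfold pk
          by_cases hy : y ∈ Ivl (k t) (j t)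
          · rw [Set.indicator_of_mem hy, Set.indicator_of_mem hy, conj_e, mul_comm]
          · rw [Set.indicator_of_notMem hy, Set.indicator_of_notMem hy]
            simp
        rw [h3]
        rw [hat, ← hh'] at h2
        rw [hat] at h1
        have h4 : c / 2 ^ (k t) ≤ ‖∫ z in Ivl (k t) (j t), cut F s (k' + i + 2 * b) z *
            e (-w t) z‖ := by
          unfold coef at h1
          rw [norm_mul, norm_pow, Complex.norm_ofNat] at h1
          rw [div_le_iff₀ (by positivity)]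
          linarith
        have h5 := norm_sub_norm_le (∫ z in Ivl (k t) (j t), cut F s (k' + i + 2 * b) z *
            e (-w t) z) (∫ z in Ivl (k t) (j t), h z * e (-(w t - w T1)) z)
        have h6 : 26 * Q / 2 ^ b / 2 ^ k t ≤ c / 2 / 2 ^ (k t) := by
          have h8 : 26 * Q / 2 ^ b ≤ c / 2 := by
            rw [div_le_iff₀ (by positivity)]
            linarith
          exact div_le_div_of_nonneg_right h8 (by positivity)
        have h7 : c / 2 ^ (k t) - c / 2 / 2 ^ (k t) = c / 2 * (1 / 2 ^ k t) := by ring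
        linarith)
    calc _ ≤ 2 / (c / 2) ^ 2 * ∫ x in Ivl k' j', ‖h x‖ ^ 2 := hbes
      _ = _ := by field_simp; ring
  -- sum over the bands
  obtain ⟨N, hN⟩ : ∃ N : ℕ, ∀ t ∈ S, a t < k' + N := by
    refine ⟨(S.sup a) + 1, fun t ht => ?_⟩
    have := Finset.le_sup (f := a) ht
    omega
  have hpart : ∑ t ∈ S, 1 / (2 : ℝ) ^ (k t) =
      ∑ i ∈ Finset.range N, ∑ t ∈ S.filter (fun t => a t = k' + i), 1 / (2 : ℝ) ^ (k t) := by
    have h1 := Finset.sum_fiberwise_of_maps_to (s := S) (t := Finset.range N)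
      (g := fun t => a t - k') (fun t ht => by
        rw [Finset.mem_range]
        have := hN t ht
        have := hkk t ht
        omega) (fun t => 1 / (2 : ℝ) ^ (k t))
    rw [← h1]
    refine Finset.sum_congr rfl fun i _ => ?_
    refine Finset.sum_congr ?_ fun _ _ => rfl
    ext t
    rw [Finset.mem_filter, Finset.mem_filter]
    refine ⟨fun h => ⟨h.1, ?_⟩, fun h => ⟨h.1, ?_⟩⟩
    · have := hkk t h.1
      have := h.2
      omega
    · have := h.2
      omega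
  rw [hpart]
  calc _ ≤ ∑ i ∈ Finset.range N, 8 / c ^ 2 *
        ∫ x in Ivl k' j', ‖hh (fb F (w T1) s) s b (k' + i) x‖ ^ 2 :=
        Finset.sum_le_sum fun i _ => hone i
    _ = 8 / c ^ 2 * ∑ i ∈ Finset.range N,
        ∫ x in Ivl k' j', ‖hh (fb F (w T1) s) s b (k' + i) x‖ ^ 2 := by rw [Finset.mul_sum]
    _ ≤ 8 / c ^ 2 * (6 * b * Q ^ 2 / 2 ^ k') := by
        have := energy (f := fb F (w T1) s) (s := s) (measurable_fb F (w T1) hs) (norm_fb_le hD) hs
          b k' N j'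
        gcongr
    _ = _ := by ring

end pack

end Crest.Agent.R100.Pack79
end
end

-- ▼ part R100/Grid2_279
section

/-!
# R100 / S0132, helper279: block B10, second part (tops of one grid index, Jensen, sum over the grid)
-/

set_option autoImplicit false

open MeasureTheory Set
open scoped ENNReal

noncomputable section

namespace Crest.Agent.R100.Grid279

open Crest.Agent.R100.Mart933 Crest.Agent.R100.Wide933 Crest.Agent.R100.Id833
open Crest.Agent.R100.Tree711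
open Crest.Agent.R100.Sel721 (Sub Fam select fl_sub mem_of_Sub)

/-! ## additivity of coefficients -/

theorem coef_add_on {f f₁ f₂ : ℝ → ℂ} (h₁ : Measurable f₁) (h₂ : Measurable f₂) {M : ℝ}
    (hM₁ : ∀ x, ‖f₁ x‖ ≤ M) (hM₂ : ∀ x, ‖f₂ x‖ ≤ M) {k : ℕ} {j : ℤ}
    (h : ∀ y ∈ Ivl k j, f y = f₁ y + f₂ y) (w : ℝ) :
    coef f w k j = coef f₁ w k j + coef f₂ w k j := by
  unfold coef
  rw [← mul_add, ← integral_add (integrable_fe h₁ hM₁ (-w) k j) (integrable_fe h₂ hM₂ (-w) k j)]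
  congr 1
  refine setIntegral_congr_fun (measurableSet_Ivl _ _) fun y hy => ?_
  simp only [h y hy]
  ring

theorem coef_congr_on {f f₁ : ℝ → ℂ} {k : ℕ} {j : ℤ} (h : ∀ y ∈ Ivl k j, f y = f₁ y) (w : ℝ) :
    coef f w k j = coef f₁ w k j := by
  unfold coef
  congr 1
  refine setIntegral_congr_fun (measurableSet_Ivl _ _) fun y hy => ?_
  simp only [h y hy]

theorem cut_eq_Pb (g : ℝ → ℂ) (κ : ℝ → ℕ) (k : ℕ) : cut g κ k = Pb g κ k := by
  ext y
  unfold cut Pb
  by_cases h : k ≤ κ y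
  · simp only [h, if_true]
  · simp only [h, if_false]


section one

variable {g : ℝ → ℂ} {κ s : ℝ → ℕ} {M : ℝ} {m : ℕ}

/-- the coefficient of the population alive at the grid -/
theorem coef_Fs_ge (hg : Measurable g) (hM : ∀ x, ‖g x‖ ≤ M) (hκ : Measurable κ)
    (hs : IsStop s m) {k₀ k : ℕ} {j : ℤ} {δ a : ℝ} {w : ℝ} (hk : k₀ ≤ k)
    (hks : ∀ x ∈ Ivl k j, k ≤ s x)
    (hδ : ∀ x ∈ Ivl k j, XX g κ k₀ (s x) x ≤ XX g κ k₀ k x + δ)
    (ha : a ≤ ‖coef (cut g κ k) w k j‖) : a - δ ≤ ‖coef (Fs g κ s) w k j‖ := by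
  have h1 : coef (cut g κ k) w k j = coef (Fs g κ s) w k j + coef (Lo g κ s k) w k j := by
    refine coef_add_on (measurable_Fs hg hκ hs.measurable) (measurable_Lo hg hκ hs.measurable k)
      (fun x => (norm_Fs_le g κ s x).trans (hM x)) (fun x => (norm_Lo_le g κ s k x).trans (hM x))
      (fun y hy => ?_) w
    have h2 := hks y hy
    unfold cut Fs Lo
    by_cases h3 : s y ≤ κ y
    · rw [if_pos (h2.trans h3), if_pos h3, if_neg (fun hc => absurd hc.2 (not_lt.2 h3)), add_zero]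
    · rw [if_neg h3, zero_add]
      push Not at h3
      by_cases h4 : k ≤ κ y
      · rw [if_pos h4, if_pos ⟨h4, h3⟩]
      · rw [if_neg h4, if_neg (fun hc => h4 hc.1)]
  have h2 : ‖coef (Lo g κ s k) w k j‖ ≤ δ :=
    (norm_coef_le _ _ _ _).trans (avN_Lo_le hg hM hκ hs hk hks hδ)
  rw [h1] at ha
  have := norm_add_le (coef (Fs g κ s) w k j) (coef (Lo g κ s k) w k j)
  linarith

/-- first `q` for which the part of `F` with `q ≤ s` has a coefficient `< c` -/
def rr (F : ℝ → ℂ) (s : ℝ → ℕ) (c w : ℝ) (k : ℕ) (j : ℤ) : ℕ :=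
  sInf {q | ‖coef (fun y => if q ≤ s y then F y else 0) w k j‖ < c}

theorem rr_of_lt {F : ℝ → ℂ} {c w : ℝ} {k : ℕ} {j : ℤ} {q : ℕ} (h : q < rr F s c w k j) :
    c ≤ ‖coef (fun y => if q ≤ s y then F y else 0) w k j‖ := by
  by_contra hc
  push Not at hc
  have : rr F s c w k j ≤ q := Nat.sInf_le hc
  omega

theorem rr_spec (hs : IsStop s m) {F : ℝ → ℂ} {c w : ℝ} (hc : 0 < c) (k : ℕ) (j : ℤ) :
    ‖coef (fun y => if rr F s c w k j ≤ s y then F y else 0) w k j‖ < c := by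
  have h : (m + 1) ∈ {q | ‖coef (fun y => if q ≤ s y then F y else 0) w k j‖ < c} := by
    change ‖coef (fun y => if m + 1 ≤ s y then F y else 0) w k j‖ < c
    have e1 : (fun y => if m + 1 ≤ s y then F y else 0) = fun _ => 0 := by
      ext y
      rw [if_neg]
      have := hs.le y
      omega
    rw [e1]
    unfold coef
    simpa using hc
  exact Nat.sInf_mem ⟨m + 1, h⟩

/-- a top of coefficient `≥ c₁` has coefficient `≥ c₁ - c` on the part `s < r` -/
theorem coef_lt_ge {F : ℝ → ℂ} (hF : Measurable F) (hM : ∀ x, ‖F x‖ ≤ M) (hs : IsStop s m)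
    {c c₁ w : ℝ} (hc : 0 < c) {k : ℕ} {j : ℤ} (h : c₁ ≤ ‖coef F w k j‖) :
    c₁ - c ≤ ‖coef ({x | s x < rr F s c w k j}.indicator F) w k j‖ := by
  have hsm := hs.measurable
  have h0 : 0 ≤ M := (norm_nonneg _).trans (hM 0)
  have h1 := rr_spec hs (F := F) (c := c) (w := w) hc k j
  set r := rr F s c w k j with hr
  have h2 : coef F w k j = coef ({x | s x < r}.indicator F) w k j +
      coef (fun y => if r ≤ s y then F y else 0) w k j := by
    refine coef_add_on (M := M) (hF.indicator (measurableSet_lt hsm measurable_const))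
      (Measurable.ite (measurableSet_le measurable_const hsm) hF measurable_const) (fun x => ?_)
      (fun x => ?_) (fun y _ => ?_) w
    · exact (norm_indicator_le_norm_self _ _).trans (hM x)
    · change ‖if r ≤ s x then F x else 0‖ ≤ M
      split_ifs
      · exact hM x
      · rw [norm_zero]; exact h0
    · by_cases hy : s y < r
      · rw [indicator_of_mem (show y ∈ {x | s x < r} from hy), if_neg (not_le.2 hy), add_zero]
      · rw [indicator_of_notMem (show y ∉ {x | s x < r} from hy), if_pos (not_lt.1 hy), zero_add]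
  rw [h2] at h
  have := norm_add_le (coef ({x | s x < r}.indicator F) w k j)
    (coef (fun y => if r ≤ s y then F y else 0) w k j)
  linarith

theorem isStop871 (hs : IsStop s m) : Stop871.IsStop s := fun x y h => hs.stop x y h.symm

/-- on the exit node the population is the population alive there -/
theorem stopc_Fs (hs : IsStop s m) (w x : ℝ) :
    Stop871.stopc (Fs g κ s) s w x = coef (cut g κ (s x)) w (s x) (fl (s x) x) := by
  unfold Stop871.stopc
  refine coef_congr_on (fun y hy => ?_) w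
  have h1 : s y = s x := hs.stop x y (mem_Ivl.1 hy).symm
  unfold Fs cut
  rw [h1]

/-- **(J)** -/
theorem jensen (hg : Measurable g) (hM : ∀ x, ‖g x‖ ≤ M) (hκ : Measurable κ)
    (hs : IsStop s m) {k : ℕ} {j : ℤ} (hks : ∀ x ∈ Ivl k j, k ≤ s x) {c c₁ w : ℝ}
    (hc : 0 < c) (hcc : c ≤ c₁) (h : c₁ ≤ ‖coef (Fs g κ s) w k j‖) {p : ℝ} (hp : 1 ≤ p) :
    ENNReal.ofReal ((c₁ - c) ^ p / 2 ^ k) ≤
      ∫⁻ x in {x | fl k x = j ∧ s x < rr (Fs g κ s) s c w k j},
        ‖coef (cut g κ (s x)) w (s x) (fl (s x) x)‖ₑ ^ p := by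
  have hF := measurable_Fs hg hκ hs.measurable
  have hFM : ∀ x, ‖Fs g κ s x‖ ≤ M := fun x => (norm_Fs_le g κ s x).trans (hM x)
  have h1 := coef_lt_ge hF hFM hs hc h
  set r := rr (Fs g κ s) s c w k j with hr
  have h2 := Stop871.jensen_stop hF hFM (isStop871 hs) (Stop871.sat_lt (isStop871 hs) r)
    (k := k) (j := j) hks (fun x _ => hs.le x) w hp
  have e1 : Ivl k j ∩ {x | s x < r} = {x | fl k x = j ∧ s x < r} := by
    ext x
    simp only [mem_inter_iff, mem_Ivl, mem_ofPred_eq]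
  simp_rw [stopc_Fs hs, e1] at h2
  have h3 : ENNReal.ofReal ((c₁ - c) ^ p) ≤
      ‖coef ({x | s x < r}.indicator (Fs g κ s)) w k j‖ₑ ^ p := by
    rw [← ENNReal.ofReal_rpow_of_nonneg (by linarith) (by linarith), ← ofReal_norm]
    gcongr
  have h4 := h3.trans h2
  rw [div_eq_mul_one_div, ENNReal.ofReal_mul (by
    exact Real.rpow_nonneg (by linarith) _)]
  calc ENNReal.ofReal ((c₁ - c) ^ p) * ENNReal.ofReal (1 / 2 ^ k)
      ≤ (ENNReal.ofReal (2 ^ k) * ∫⁻ x in {x | fl k x = j ∧ s x < r},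
          ‖coef (cut g κ (s x)) w (s x) (fl (s x) x)‖ₑ ^ p) * ENNReal.ofReal (1 / 2 ^ k) := by
        gcongr
    _ = _ := by
        rw [mul_comm, ← mul_assoc, mul_comm (ENNReal.ofReal (1 / 2 ^ k)),
          Stop871.ofReal_two_pow_mul, one_mul]

end one

/-! ## cells -/

/-- cells of length `2^(l-b)` split into `2^b` families with distinct cells of length `2^l` -/
theorem sum_cells {ι : Type*} (S : Finset ι) (Y : ι → ℝ) (l b : ℕ) (C : ι → ℝ≥0∞) {W : ℝ≥0∞}
    (hW : ∀ S' ⊆ S, (∀ t ∈ S', ∀ t' ∈ S', t ≠ t' → ⌊Y t / 2 ^ l⌋ ≠ ⌊Y t' / 2 ^ l⌋) →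
      ∑ t ∈ S', C t ≤ W)
    (hd : ∀ t ∈ S, ∀ t' ∈ S, t ≠ t' → ⌊Y t * 2 ^ b / 2 ^ l⌋ ≠ ⌊Y t' * 2 ^ b / 2 ^ l⌋) :
    ∑ t ∈ S, C t ≤ 2 ^ b * W := by
  classical
  have hb : (0 : ℤ) < 2 ^ b := by positivity
  have hq : ∀ y : ℝ, ⌊y * 2 ^ b / 2 ^ l⌋ / (2 ^ b : ℤ) = ⌊y / 2 ^ l⌋ := by
    intro y
    have h1 := Int.floor_div_natCast (y * 2 ^ b / 2 ^ l) (2 ^ b)
    push_cast at h1
    rw [← h1]
    congr 1
    have : (2 : ℝ) ^ b ≠ 0 := by positivity
    field_simp
  let ρ : ι → ℕ := fun t => (⌊Y t * 2 ^ b / 2 ^ l⌋ % (2 ^ b : ℤ)).toNat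
  have hρ : ∀ t ∈ S, ρ t ∈ Finset.range (2 ^ b) := by
    intro t _
    rw [Finset.mem_range]
    have h1 := Int.emod_nonneg ⌊Y t * 2 ^ b / 2 ^ l⌋ hb.ne'
    have h2 := Int.emod_lt_of_pos ⌊Y t * 2 ^ b / 2 ^ l⌋ hb
    change (⌊Y t * 2 ^ b / 2 ^ l⌋ % (2 ^ b : ℤ)).toNat < 2 ^ b
    zify
    rw [Int.toNat_of_nonneg h1]
    exact h2
  rw [← Finset.sum_fiberwise_of_maps_to hρ]
  calc ∑ i ∈ Finset.range (2 ^ b), ∑ t ∈ S with ρ t = i, C t
      ≤ ∑ _i ∈ Finset.range (2 ^ b), W := by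
        refine Finset.sum_le_sum fun i _ => hW _ (Finset.filter_subset _ _) ?_
        intro t ht t' ht' htt hc
        rw [Finset.mem_filter] at ht ht'
        apply hd t ht.1 t' ht'.1 htt
        have h1 : ⌊Y t * 2 ^ b / 2 ^ l⌋ % (2 ^ b : ℤ) = ⌊Y t' * 2 ^ b / 2 ^ l⌋ % (2 ^ b : ℤ) := by
          have h2 : ρ t = ρ t' := ht.2.trans ht'.2.symm
          have a1 := Int.emod_nonneg ⌊Y t * 2 ^ b / 2 ^ l⌋ hb.ne'
          have a2 := Int.emod_nonneg ⌊Y t' * 2 ^ b / 2 ^ l⌋ hb.ne'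
          have h3 : ((ρ t : ℕ) : ℤ) = (ρ t' : ℕ) := by rw [h2]
          change (((⌊Y t * 2 ^ b / 2 ^ l⌋ % (2 ^ b : ℤ)).toNat : ℕ) : ℤ) =
            (((⌊Y t' * 2 ^ b / 2 ^ l⌋ % (2 ^ b : ℤ)).toNat : ℕ) : ℤ) at h3
          rwa [Int.toNat_of_nonneg a1, Int.toNat_of_nonneg a2] at h3
        have h4 : ⌊Y t * 2 ^ b / 2 ^ l⌋ / (2 ^ b : ℤ) = ⌊Y t' * 2 ^ b / 2 ^ l⌋ / (2 ^ b : ℤ) := by
          rw [hq, hq, hc]
        rw [← Int.emod_add_mul_ediv ⌊Y t * 2 ^ b / 2 ^ l⌋ (2 ^ b),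
          ← Int.emod_add_mul_ediv ⌊Y t' * 2 ^ b / 2 ^ l⌋ (2 ^ b), h1, h4]
    _ = 2 ^ b * W := by
        rw [Finset.sum_const, Finset.card_range, nsmul_eq_mul]
        push_cast
        rfl

/-- families indexed by their cell -/
theorem sum_of_cells {ι : Type*} (S : Finset ι) (Y : ι → ℝ) (l : ℕ) (G : ℝ → ℝ≥0∞) {W : ℝ≥0∞}
    (hW : ∀ (I : Finset ℤ) (Z : ℤ → ℝ),
      (∀ i ∈ I, (i : ℝ) * 2 ^ l ≤ Z i ∧ Z i < ((i : ℝ) + 1) * 2 ^ l) → ∑ i ∈ I, G (Z i) ≤ W)
    (hd : ∀ t ∈ S, ∀ t' ∈ S, t ≠ t' → ⌊Y t / 2 ^ l⌋ ≠ ⌊Y t' / 2 ^ l⌋) :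
    ∑ t ∈ S, G (Y t) ≤ W := by
  classical
  let f : ι → ℤ := fun t => ⌊Y t / 2 ^ l⌋
  let Z : ℤ → ℝ := fun i => if h : ∃ t ∈ S, f t = i then Y h.choose else 0
  have hZ : ∀ t ∈ S, Z (f t) = Y t := by
    intro t ht
    have hex : ∃ t' ∈ S, f t' = f t := ⟨t, ht, rfl⟩
    change (if h : ∃ t' ∈ S, f t' = f t then Y h.choose else 0) = Y t
    rw [dif_pos hex]
    congr 1
    by_contra hne
    exact hd _ hex.choose_spec.1 t ht hne hex.choose_spec.2
  have hinj : Set.InjOn f S := by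
    intro t ht t' ht' h
    by_contra hne
    exact hd t ht t' ht' hne h
  have h1 := hW (S.image f) Z (by
    intro i hi
    obtain ⟨t, ht, rfl⟩ := Finset.mem_image.1 hi
    rw [hZ t ht]
    have h2 : (0 : ℝ) < 2 ^ l := by positivity
    have a1 := Int.floor_le (Y t / 2 ^ l)
    have a2 := Int.lt_floor_add_one (Y t / 2 ^ l)
    rw [le_div_iff₀ h2] at a1
    rw [div_lt_iff₀ h2] at a2
    exact ⟨a1, a2⟩)
  rw [Finset.sum_image hinj] at h1
  rw [Finset.sum_congr rfl fun t ht => by rw [← hZ t ht]]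
  exact h1

/-! ## total mass of the exits -/

section total

variable {g : ℝ → ℂ} {κ : ℝ → ℕ} {M Q a : ℝ} {k₀ m : ℕ} {j₀ : ℤ}

theorem measurable_XX (k : ℕ) : Measurable (XX g κ k₀ k) := by
  have e : XX g κ k₀ k = fun x => (fun j : ℤ => XX g κ k₀ k ((j : ℝ) / 2 ^ k)) (fl k x) := by
    ext x
    exact XX_congr' (by rw [IsStop.fl_rep])
  rw [e]
  exact measurable_fl_comp k (fun j : ℤ => XX g κ k₀ k ((j : ℝ) / 2 ^ k))

open Classical in
theorem integral_XX_le (hg : Measurable g) (hM : ∀ x, ‖g x‖ ≤ M) (hκ : Measurable κ)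
    (hQ : avN (cut g κ k₀) k₀ j₀ ≤ Q) (k : ℕ) :
    IntegrableOn (XX g κ k₀ k) (Ivl k₀ j₀) ∧
    ∫ x in Ivl k₀ j₀, XX g κ k₀ k x ≤ Q * (1 / 2 ^ k₀) := by
  have hint : ∀ i, ∀ (k : ℕ) (j : ℤ), IntegrableOn (fun y => ‖exq g κ i y‖) (Ivl k j) := fun i k j =>
    intOn k j (measurable_exq hg hκ i).norm (M := M) fun x => by
      simpa using (norm_exq_le g κ i x).trans (hM x)
  have h1 : ∀ i, k₀ ≤ i → IntegrableOn (fun x => xe g κ i x) (Ivl k₀ j₀) ∧
      ∫ x in Ivl k₀ j₀, xe g κ i x = ∫ x in Ivl k₀ j₀, ‖exq g κ i x‖ := by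
    intro i hi
    have h := avg_node' (h := fun y => ‖exq g κ i y‖) (hint i) (fun _ : ℤ => (1 : ℝ)) hi j₀
    simp only [one_smul] at h
    exact ⟨h.2.1, h.2.2⟩
  have h2 : IntegrableOn (XX g κ k₀ k) (Ivl k₀ j₀) := by
    unfold XX
    exact integrable_finsetSum _ fun i hi => (h1 i (Finset.mem_Ico.1 hi).1).1
  refine ⟨h2, ?_⟩
  have h3 : ∫ x in Ivl k₀ j₀, XX g κ k₀ k x =
      ∫ x in Ivl k₀ j₀, ∑ i ∈ Finset.Ico k₀ k, ‖exq g κ i x‖ := by
    unfold XX
    rw [integral_finsetSum _ fun i hi => (h1 i (Finset.mem_Ico.1 hi).1).1,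
      integral_finsetSum _ fun i _ => hint i k₀ j₀]
    exact Finset.sum_congr rfl fun i hi => (h1 i (Finset.mem_Ico.1 hi).1).2
  have h4 : ∀ y, ∑ i ∈ Finset.Ico k₀ k, ‖exq g κ i y‖ ≤ ‖cut g κ k₀ y‖ := by
    intro y
    unfold exq cut
    by_cases h : κ y ∈ Finset.Ico k₀ k
    · rw [Finset.sum_eq_single_of_mem (κ y) h
        (fun i _ hi => by rw [if_neg (Ne.symm hi), norm_zero]), if_pos rfl,
        if_pos (Finset.mem_Ico.1 h).1]
    · rw [Finset.sum_eq_zero]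
      · exact norm_nonneg _
      · intro i hi
        rw [if_neg, norm_zero]
        rintro rfl
        exact h hi
  have h5 : ∫ x in Ivl k₀ j₀, ∑ i ∈ Finset.Ico k₀ k, ‖exq g κ i x‖ ≤
      ∫ x in Ivl k₀ j₀, ‖cut g κ k₀ x‖ := by
    refine setIntegral_mono_on (integrable_finsetSum _ fun i _ => hint i k₀ j₀) ?_
      (measurableSet_Ivl _ _) fun y _ => h4 y
    exact intOn k₀ j₀ (measurable_cut hg hκ k₀).norm (M := M) fun x => by
      simpa using (norm_cut_le g κ k₀ x).trans (hM x)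
  rw [h3]
  refine h5.trans ?_
  unfold avN at hQ
  have h6 : (0 : ℝ) < 2 ^ k₀ := by positivity
  rw [mul_one_div, le_div_iff₀ h6, mul_comm]
  exact hQ

/-- total measure of the levels of the grid -/
theorem sum_volume_le (hg : Measurable g) (hM : ∀ x, ‖g x‖ ≤ M) (hκ : Measurable κ)
    (ha : 0 < a) (hQ : avN (cut g κ k₀) k₀ j₀ ≤ Q) (k : ℕ) (A : Finset ℕ) :
    ∑ i ∈ A, volume {x | fl k₀ x = j₀ ∧ (i : ℝ) * (a / 10) ≤ XX g κ k₀ k x} ≤
      ENNReal.ofReal ((1 + 10 * Q / a) / 2 ^ k₀) := by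
  classical
  have hX := integral_XX_le hg hM hκ hQ k
  have hmX := measurable_XX (g := g) (κ := κ) (k₀ := k₀) k
  have hms : ∀ i : ℕ, MeasurableSet {x | (i : ℝ) * (a / 10) ≤ XX g κ k₀ k x} := fun i =>
    measurableSet_le measurable_const hmX
  have e1 : ∀ i : ℕ, volume {x | fl k₀ x = j₀ ∧ (i : ℝ) * (a / 10) ≤ XX g κ k₀ k x} =
      ∫⁻ x in Ivl k₀ j₀, {x | (i : ℝ) * (a / 10) ≤ XX g κ k₀ k x}.indicator 1 x := by
    intro i
    rw [lintegral_indicator_one (hms i), Measure.restrict_apply (hms i)]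
    congr 1
    ext x
    simp only [mem_inter_iff, mem_Ivl, mem_ofPred_eq]
    exact and_comm
  simp_rw [e1]
  rw [← lintegral_finsetSum _ fun i _ => measurable_one.indicator (hms i)]
  have h2 : ∀ x, ∑ i ∈ A, {x | (i : ℝ) * (a / 10) ≤ XX g κ k₀ k x}.indicator (1 : ℝ → ℝ≥0∞) x ≤
      ENNReal.ofReal (1 + 10 / a * XX g κ k₀ k x) := by
    intro x
    have h3 : ∑ i ∈ A, {x | (i : ℝ) * (a / 10) ≤ XX g κ k₀ k x}.indicator (1 : ℝ → ℝ≥0∞) x =
        ((A.filter fun i : ℕ => (i : ℝ) * (a / 10) ≤ XX g κ k₀ k x).card : ℝ≥0∞) := by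
      rw [Finset.card_filter]
      push_cast
      refine Finset.sum_congr rfl fun i _ => ?_
      by_cases h : (i : ℝ) * (a / 10) ≤ XX g κ k₀ k x
      · rw [indicator_of_mem (show x ∈ {x | (i : ℝ) * (a / 10) ≤ XX g κ k₀ k x} from h), if_pos h]
        rfl
      · rw [indicator_of_notMem (show x ∉ {x | (i : ℝ) * (a / 10) ≤ XX g κ k₀ k x} from h),
          if_neg h]
    rw [h3]
    have hX0 := XX_nonneg (g := g) (κ := κ) (k₀ := k₀) k x
    have h4 : (A.filter fun i : ℕ => (i : ℝ) * (a / 10) ≤ XX g κ k₀ k x) ⊆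
        Finset.range (⌊10 / a * XX g κ k₀ k x⌋₊ + 1) := by
      intro i hi
      have h5 := (Finset.mem_filter.1 hi).2
      rw [Finset.mem_range, Nat.lt_succ_iff, Nat.le_floor_iff (by positivity)]
      rw [div_mul_eq_mul_div, le_div_iff₀ ha]
      linarith
    have h6 := Finset.card_le_card h4
    rw [Finset.card_range] at h6
    have h7 := Nat.floor_le (show 0 ≤ 10 / a * XX g κ k₀ k x by positivity)
    have h8 : ((A.filter fun i : ℕ => (i : ℝ) * (a / 10) ≤ XX g κ k₀ k x).card : ℝ) ≤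
        1 + 10 / a * XX g κ k₀ k x := by
      have : ((A.filter fun i : ℕ => (i : ℝ) * (a / 10) ≤ XX g κ k₀ k x).card : ℝ) ≤
          ((⌊10 / a * XX g κ k₀ k x⌋₊ + 1 : ℕ) : ℝ) := by exact_mod_cast h6
      push_cast at this
      linarith
    rw [← ENNReal.ofReal_natCast]
    exact ENNReal.ofReal_le_ofReal h8
  refine (lintegral_mono h2).trans ?_
  have hc : IntegrableOn (fun _ : ℝ => (1 : ℝ)) (Ivl k₀ j₀) := by
    refine integrableOn_const ?_
    rw [volume_Ivl]; exact ENNReal.ofReal_ne_top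
  have hL := ofReal_integral_eq_lintegral_ofReal (μ := volume.restrict (Ivl k₀ j₀))
    (f := fun x => 1 + 10 / a * XX g κ k₀ k x) (hc.add (hX.1.const_mul (10 / a)))
    (Filter.Eventually.of_forall fun x => by
      have hX0 := XX_nonneg (g := g) (κ := κ) (k₀ := k₀) k x
      change 0 ≤ 1 + 10 / a * XX g κ k₀ k x
      positivity)
  rw [← hL]
  apply ENNReal.ofReal_le_ofReal
  rw [integral_add hc (hX.1.const_mul (10 / a)), integral_const_mul, setIntegral_const,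
    volume_real_Ivl]
  have h9 : (0 : ℝ) < 2 ^ k₀ := by positivity
  have h10 : 10 / a * ∫ x in Ivl k₀ j₀, XX g κ k₀ k x ≤ 10 / a * (Q * (1 / 2 ^ k₀)) := by
    gcongr
    exact hX.2
  have h11 : (1 + 10 * Q / a) / 2 ^ k₀ = 1 / 2 ^ k₀ * 1 + 10 / a * (Q * (1 / 2 ^ k₀)) := by
    field_simp
  rw [h11]
  simp only [smul_eq_mul]
  linarith

end total

/-! ## one grid index -/

section index

variable {g : ℝ → ℂ} {κ : ℝ → ℕ} {M Q a : ℝ} {k₀ m : ℕ} {j₀ : ℤ}

/-- the stopping time of the grid index `i` -/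
def si (g : ℝ → ℂ) (κ : ℝ → ℕ) (k₀ m : ℕ) (a : ℝ) (i : ℕ) : ℝ → ℕ :=
  sg g κ k₀ m (((i : ℝ) + 1) * (a / 10))

/-- the population alive at the stopping time of index `i` -/
def Fi (g : ℝ → ℂ) (κ : ℝ → ℕ) (k₀ m : ℕ) (a : ℝ) (i : ℕ) : ℝ → ℂ := Fs g κ (si g κ k₀ m a i)

/-- the critical generation of the top `(k, j, w)` -/
def ri (g : ℝ → ℂ) (κ : ℝ → ℕ) (k₀ m : ℕ) (a : ℝ) (i : ℕ) (w : ℝ) (k : ℕ) (j : ℤ) : ℕ :=
  rr (Fi g κ k₀ m a i) (si g κ k₀ m a i) (a / 4) w k j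

/-- the grid index of a node -/
def idx (g : ℝ → ℂ) (κ : ℝ → ℕ) (k₀ : ℕ) (a : ℝ) (k : ℕ) (j : ℤ) : ℕ :=
  ⌊XX g κ k₀ k ((j : ℝ) / 2 ^ k) / (a / 10)⌋₊

theorem isStop_si (i : ℕ) : IsStop (si g κ k₀ m a i) m := isStop_sg

theorem measurable_Fi (hg : Measurable g) (hκ : Measurable κ) (i : ℕ) :
    Measurable (Fi g κ k₀ m a i) := measurable_Fs hg hκ (isStop_si i).measurable

theorem norm_Fi_le (hM : ∀ x, ‖g x‖ ≤ M) (i : ℕ) (x : ℝ) : ‖Fi g κ k₀ m a i x‖ ≤ M :=
  (norm_Fs_le g κ _ x).trans (hM x)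

theorem le_XX_of_idx (ha : 0 < a) {k : ℕ} {j : ℤ} {x : ℝ} (hx : fl k x = j) :
    (idx g κ k₀ a k j : ℝ) * (a / 10) ≤ XX g κ k₀ k x := by
  have e1 : XX g κ k₀ k x = XX g κ k₀ k ((j : ℝ) / 2 ^ k) :=
    XX_congr' (by rw [IsStop.fl_rep, hx])
  have h0 := XX_nonneg (g := g) (κ := κ) (k₀ := k₀) k ((j : ℝ) / 2 ^ k)
  have h1 := Nat.floor_le (show 0 ≤ XX g κ k₀ k ((j : ℝ) / 2 ^ k) / (a / 10) by positivity)
  rw [le_div_iff₀ (by positivity)] at h1
  rw [e1]
  exact h1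

theorem XX_lt_of_idx (ha : 0 < a) {k : ℕ} {j : ℤ} {x : ℝ} (hx : fl k x = j) :
    XX g κ k₀ k x < ((idx g κ k₀ a k j : ℝ) + 1) * (a / 10) := by
  have e1 : XX g κ k₀ k x = XX g κ k₀ k ((j : ℝ) / 2 ^ k) :=
    XX_congr' (by rw [IsStop.fl_rep, hx])
  have h1 := Nat.lt_floor_add_one (XX g κ k₀ k ((j : ℝ) / 2 ^ k) / (a / 10))
  rw [div_lt_iff₀ (by positivity)] at h1
  rw [e1]
  exact h1

theorem le_si (ha : 0 < a) {k : ℕ} {j : ℤ} (hkm : k ≤ m) {x : ℝ} (hx : fl k x = j) :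
    k ≤ si g κ k₀ m a (idx g κ k₀ a k j) x :=
  le_sg_of_lt hkm (XX_lt_of_idx ha hx)

/-- a top of index `i` keeps `9a/10` in the population alive at the grid -/
theorem coef_Fi_ge (hg : Measurable g) (hM : ∀ x, ‖g x‖ ≤ M) (hκ : Measurable κ) (ha : 0 < a)
    {k : ℕ} {j : ℤ} {w : ℝ} (hk : k₀ ≤ k) (hkm : k ≤ m) (h : a ≤ ‖bb g κ w k j‖) :
    a - a / 10 ≤ ‖coef (Fi g κ k₀ m a (idx g κ k₀ a k j)) w k j‖ := by
  refine coef_Fs_ge hg hM hκ (isStop_si _) hk (fun x hx => le_si ha hkm (mem_Ivl.1 hx))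
    (fun x hx => ?_) ?_
  · have h1 := le_XX_of_idx (g := g) (κ := κ) (k₀ := k₀) ha (mem_Ivl.1 hx)
    have h2 := XX_sg_lt (g := g) (κ := κ) (k₀ := k₀) (m := m)
      (τ := ((idx g κ k₀ a k j : ℝ) + 1) * (a / 10)) (by positivity) x
    unfold si
    linarith
  · rw [cut_eq_Pb]; exact h

/-- (HVY) of Pack1_79 -/
theorem ri_heavy {i : ℕ} {w : ℝ} {k : ℕ} {j : ℤ} {q : ℕ} (h : q < ri g κ k₀ m a i w k j) :
    a / 4 ≤ ‖coef (fun y => if q ≤ si g κ k₀ m a i y then Fi g κ k₀ m a i y else 0) w k j‖ :=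
  rr_of_lt h

/-- (D) of Pack1_79, inside the node -/
theorem avN_Fi_le (hg : Measurable g) (hM : ∀ x, ‖g x‖ ≤ M) (hκ : Measurable κ) {i l : ℕ} {x : ℝ}
    (hQ : avN (Pb g κ l) l (fl l x) ≤ Q) (hl : l ≤ si g κ k₀ m a i x) :
    avN (Fi g κ k₀ m a i) l (fl l x) ≤ Q := by
  rw [← cut_eq_Pb] at hQ
  exact (avN_Fs_le hg hM hκ (isStop_si i) hl).trans hQ

/-- (J) for a top -/
theorem jensen_top (hg : Measurable g) (hM : ∀ x, ‖g x‖ ≤ M) (hκ : Measurable κ) (ha : 0 < a)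
    {k : ℕ} {j : ℤ} {w : ℝ} (hk : k₀ ≤ k) (hkm : k ≤ m) (h : a ≤ ‖bb g κ w k j‖) {p : ℝ}
    (hp : 1 ≤ p) {i : ℕ} (hi : idx g κ k₀ a k j = i) :
    ENNReal.ofReal ((a / 2) ^ p / 2 ^ k) ≤
      ∫⁻ x in {x | fl k x = j ∧ si g κ k₀ m a i x < ri g κ k₀ m a i w k j},
        ‖bb g κ w (si g κ k₀ m a i x) (fl (si g κ k₀ m a i x) x)‖ₑ ^ p := by
  subst hi
  have h1 := coef_Fi_ge (m := m) hg hM hκ ha hk hkm h
  have h2 := jensen hg hM hκ (isStop_si (g := g) (κ := κ) (k₀ := k₀) (m := m) (a := a)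
    (idx g κ k₀ a k j)) (fun x hx => le_si ha hkm (mem_Ivl.1 hx)) (c := a / 4) (by positivity)
    (by linarith) h1 hp
  simp_rw [cut_eq_Pb] at h2
  refine le_trans (ENNReal.ofReal_le_ofReal ?_) h2
  have h3 : (a / 2) ^ p ≤ (a - a / 10 - a / 4) ^ p := by
    apply Real.rpow_le_rpow (by positivity) (by linarith) (by linarith)
  gcongr

end index

/-! ## all the tops -/

section tops

variable {g : ℝ → ℂ} {κ : ℝ → ℕ} {M Q a : ℝ} {k₀ m : ℕ} {j₀ : ℤ}
variable {ι : Type*} {k : ι → ℕ} {j : ι → ℤ} {w : ι → ℝ} {T : Finset ι} {b D : ℕ} {M' p : ℝ}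
variable {W : ℝ≥0∞}

open Classical in
/-- **B10**: total measure of the tops of level `a`, from the packing of the families -/
theorem tops_of_pack (hg : Measurable g) (hM : ∀ x, ‖g x‖ ≤ M) (hκ : Measurable κ)
    (hk₀m : k₀ ≤ m) (ha : 0 < a) (hQ : avN (Pb g κ k₀) k₀ j₀ ≤ Q)
    (hT : ∀ t ∈ T, k₀ ≤ k t ∧ k t ≤ m ∧ Sub (k t) (j t) k₀ j₀ ∧ a ≤ ‖bb g κ (w t) (k t) (j t)‖)
    (hp : 1 ≤ p)
    (hW : ∀ l, k₀ ≤ l → ∀ (jj : ℤ) (I : Finset ℤ) (Y : ℤ → ℝ),
      (∀ i ∈ I, (i : ℝ) * 2 ^ l ≤ Y i ∧ Y i < ((i : ℝ) + 1) * 2 ^ l) →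
      ∑ i ∈ I, ‖coef (Pb g κ l) (Y i) l jj‖ₑ ^ p ≤ W)
    (hD : 1 ≤ D) (hMD : 2 * M' ≤ D)
    (pack : ∀ i : ℕ, ∀ t1 ∈ T.filter (fun t => idx g κ k₀ a (k t) (j t) = i), ∀ (k' : ℕ) (j' : ℤ),
      Sub k' j' (k t1) (j t1) → ∀ S ⊆ T.filter (fun t => idx g κ k₀ a (k t) (j t) = i),
      (∀ t ∈ S, t ≠ t1 ∧ Fam k j w (fun t => ri g κ k₀ m a i (w t) (k t) (j t)) b t1 t ∧
        Sub (k t) (j t) k' j') →
      (∀ t ∈ S, (S.filter fun t' => Sub (k t) (j t) (k t') (j t')).card ≤ D) →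
      ∑ t ∈ S, (1 : ℝ) / 2 ^ k t ≤ M' * (1 / 2 ^ k')) :
    ENNReal.ofReal ((a / 2) ^ p * ∑ t ∈ T, 1 / 2 ^ k t) ≤
      ENNReal.ofReal (1 + 2 * M') * (2 ^ b * W) * ENNReal.ofReal ((1 + 10 * Q / a) / 2 ^ k₀) := by
  have hone : ∀ i : ℕ,
      ENNReal.ofReal ((a / 2) ^ p *
        ∑ t ∈ T.filter (fun t => idx g κ k₀ a (k t) (j t) = i), 1 / 2 ^ k t) ≤
      ENNReal.ofReal (1 + 2 * M') * (2 ^ b * W) *
        volume {x | fl k₀ x = j₀ ∧ (i : ℝ) * (a / 10) ≤ XX g κ k₀ (m + 1) x} := by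
    intro i
    have hmX := measurable_XX (g := g) (κ := κ) (k₀ := k₀) (m + 1)
    have hE : MeasurableSet {x | fl k₀ x = j₀ ∧ (i : ℝ) * (a / 10) ≤ XX g κ k₀ (m + 1) x} :=
      ((measurable_fl k₀) (measurableSet_singleton j₀)).inter
        (measurableSet_le measurable_const hmX)
    have h := select (s := si g κ k₀ m a i)
      (T := T.filter (fun t => idx g κ k₀ a (k t) (j t) = i)) (k := k) (j := j) (w := w)
      (r := fun t => ri g κ k₀ m a i (w t) (k t) (j t)) (b := b) (A := (a / 2) ^ p)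
      hD hMD (by positivity) (isStop_si i).measurable (pack i)
      (C := fun t x => ‖bb g κ (w t) (si g κ k₀ m a i x) (fl (si g κ k₀ m a i x) x)‖ₑ ^ p)
      (fun t _ => by
        have h1 : Measurable fun x => bb g κ (w t) (si g κ k₀ m a i x)
            (fl (si g κ k₀ m a i x) x) := by
          have h2 := measurable_Ch (g := g) (κ := κ)
            (isStop_si (g := g) (κ := κ) (k₀ := k₀) (m := m) (a := a) i) (w t)
          unfold Ch at h2
          simp_rw [cut_eq_Pb] at h2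
          exact h2
        exact h1.enorm.pow_const p)
      (fun t ht => by
        obtain ⟨ht1, ht2⟩ := Finset.mem_filter.1 ht
        obtain ⟨h1, h2, h3, h4⟩ := hT t ht1
        exact jensen_top hg hM hκ ha h1 h2 h4 hp ht2)
      (Q := {x | fl k₀ x = j₀ ∧ (i : ℝ) * (a / 10) ≤ XX g κ k₀ (m + 1) x}.indicator
        fun _ => 2 ^ b * W)
      (fun x S hS h1 h2 => by
        rcases S.eq_empty_or_nonempty with hS0 | ⟨t, ht⟩
        · rw [hS0, Finset.sum_empty]; exact bot_le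
        · obtain ⟨ht1, ht2⟩ := Finset.mem_filter.1 (hS ht)
          obtain ⟨a1, a2, a3, a4⟩ := hT t ht1
          have hx : fl (k t) x = j t := (h1 t ht).1
          have hxE : x ∈ {x | fl k₀ x = j₀ ∧ (i : ℝ) * (a / 10) ≤ XX g κ k₀ (m + 1) x} := by
            refine ⟨mem_of_Sub a3 hx, ?_⟩
            have h3 := le_XX_of_idx (g := g) (κ := κ) (k₀ := k₀) ha hx
            rw [ht2] at h3
            exact h3.trans (XX_mono (by omega) x)
          rw [indicator_of_mem hxE]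
          refine sum_cells S w (si g κ k₀ m a i x) b _ (fun S' _ h4 => ?_) h2
          have hsk : k₀ ≤ si g κ k₀ m a i x := le_sg hk₀m x
          exact sum_of_cells S' w (si g κ k₀ m a i x)
            (fun y => ‖bb g κ y (si g κ k₀ m a i x) (fl (si g κ k₀ m a i x) x)‖ₑ ^ p)
            (fun I Z hZ => hW _ hsk _ I Z hZ) h4)
    refine h.trans (le_of_eq ?_)
    rw [lintegral_indicator hE, setLIntegral_const, mul_assoc (ENNReal.ofReal (1 + 2 * M'))]
  let f : ι → ℕ := fun t => idx g κ k₀ a (k t) (j t)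
  have hsum : ∑ t ∈ T, (1 : ℝ) / 2 ^ k t =
      ∑ i ∈ T.image f, ∑ t ∈ T.filter (fun t => idx g κ k₀ a (k t) (j t) = i), 1 / 2 ^ k t :=
    (Finset.sum_fiberwise_of_maps_to (fun t ht => Finset.mem_image_of_mem f ht) _).symm
  rw [hsum, Finset.mul_sum, ENNReal.ofReal_sum_of_nonneg (fun i _ => by positivity)]
  calc ∑ i ∈ T.image f, ENNReal.ofReal ((a / 2) ^ p *
        ∑ t ∈ T.filter (fun t => idx g κ k₀ a (k t) (j t) = i), 1 / 2 ^ k t)
      ≤ ∑ i ∈ T.image f, ENNReal.ofReal (1 + 2 * M') * (2 ^ b * W) *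
        volume {x | fl k₀ x = j₀ ∧ (i : ℝ) * (a / 10) ≤ XX g κ k₀ (m + 1) x} :=
        Finset.sum_le_sum fun i _ => hone i
    _ = ENNReal.ofReal (1 + 2 * M') * (2 ^ b * W) * ∑ i ∈ T.image f,
        volume {x | fl k₀ x = j₀ ∧ (i : ℝ) * (a / 10) ≤ XX g κ k₀ (m + 1) x} := by
        rw [Finset.mul_sum]
    _ ≤ _ := by
        gcongr
        exact sum_volume_le hg hM hκ ha (by rw [cut_eq_Pb]; exact hQ) (m + 1) _

/-- densities of a function supported in a node -/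
theorem avN_coarse_le {F : ℝ → ℂ} (hF : Measurable F) (hM : ∀ x, ‖F x‖ ≤ M)
    (hsupp : ∀ y, fl k₀ y ≠ j₀ → F y = 0) (hQ : avN F k₀ j₀ ≤ Q) {l : ℕ} (hl : l ≤ k₀) (jj : ℤ) :
    avN F l jj ≤ Q := by
  have hint : ∀ (k : ℕ) (j : ℤ), IntegrableOn (fun y => ‖F y‖) (Ivl k j) := fun k j =>
    intOn k j hF.norm (M := M) fun x => by simpa using hM x
  have h1 : ∫ y in Ivl l jj, ‖F y‖ ≤ ∫ y in Ivl k₀ j₀, ‖F y‖ := by
    have e1 : ∫ y in Ivl l jj, ‖F y‖ = ∫ y in Ivl l jj ∩ Ivl k₀ j₀, ‖F y‖ := by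
      refine (setIntegral_eq_of_subset_of_forall_sdiff_eq_zero (f := fun y => ‖F y‖)
        (measurableSet_Ivl l jj) inter_subset_left fun y hy => ?_)
      have : fl k₀ y ≠ j₀ := fun hc => hy.2 ⟨hy.1, mem_Ivl.2 hc⟩
      rw [hsupp y this, norm_zero]
    rw [e1]
    exact setIntegral_mono_set (hint k₀ j₀) (Filter.Eventually.of_forall fun y => norm_nonneg _)
      (inter_subset_right.eventuallyLE)
  refine le_trans ?_ hQ
  unfold avN
  have h2 : (2 : ℝ) ^ l ≤ 2 ^ k₀ := pow_le_pow_right₀ (by norm_num) hl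
  exact mul_le_mul h2 h1 (integral_nonneg fun y => norm_nonneg _) (by positivity)

/-- **B10 + B11 + B12'**: total measure of the tops of level `a` -/
theorem tops (hg : Measurable g) (hM : ∀ x, ‖g x‖ ≤ M) (hκ : Measurable κ)
    (hsupp : ∀ y, fl k₀ y ≠ j₀ → g y = 0) (hk₀m : k₀ ≤ m) (ha : 0 < a)
    (hQ : ∀ l, k₀ ≤ l → ∀ jj : ℤ, avN (Pb g κ l) l jj ≤ Q)
    (hT : ∀ t ∈ T, k₀ ≤ k t ∧ k t ≤ m ∧ Sub (k t) (j t) k₀ j₀ ∧ a ≤ ‖bb g κ (w t) (k t) (j t)‖)
    (hp : 1 ≤ p)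
    (hW : ∀ l, k₀ ≤ l → ∀ (jj : ℤ) (I : Finset ℤ) (Y : ℤ → ℝ),
      (∀ i ∈ I, (i : ℝ) * 2 ^ l ≤ Y i ∧ Y i < ((i : ℝ) + 1) * 2 ^ l) →
      ∑ i ∈ I, ‖coef (Pb g κ l) (Y i) l jj‖ₑ ^ p ≤ W)
    {B : ℝ} (hQb : 52 * Q ≤ a / 4 * 2 ^ b) (hBb : (2 : ℝ) ^ b ≤ B) (hDB : (D : ℝ) ≤ B)
    (sep : ∀ t ∈ T, ∀ t' ∈ T, t ≠ t' → Sub (k t) (j t) (k t') (j t') →
      B * 2 ^ (k t) < |w t - w t'|)
    (hD : 1 ≤ D) (hMD : 2 * (48 * b * Q ^ 2 / (a / 4) ^ 2) ≤ D) :
    ENNReal.ofReal ((a / 2) ^ p * ∑ t ∈ T, 1 / 2 ^ k t) ≤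
      ENNReal.ofReal (1 + 2 * (48 * b * Q ^ 2 / (a / 4) ^ 2)) * (2 ^ b * W) *
        ENNReal.ofReal ((1 + 10 * Q / a) / 2 ^ k₀) := by
  classical
  refine tops_of_pack hg hM hκ hk₀m ha (hQ k₀ le_rfl j₀) hT hp hW hD hMD ?_
  intro i t1 ht1 k' j' hk' S hS h1 h2
  have hst : Pack79.IsStop (si g κ k₀ m a i) := fun z z' h => (isStop_si i).stop z z' h.symm
  have hF := measurable_Fi (m := m) (k₀ := k₀) (a := a) hg hκ i
  have hFM := norm_Fi_le (κ := κ) (m := m) (k₀ := k₀) (a := a) hM i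
  have hsF : ∀ y, fl k₀ y ≠ j₀ → Fi g κ k₀ m a i y = 0 := by
    intro y hy
    unfold Fi Fs
    rw [hsupp y hy, ite_self]
  have hroot : avN (Fi g κ k₀ m a i) k₀ j₀ ≤ Q := by
    have h3 := avN_Fi_le (g := g) (κ := κ) (M := M) (Q := Q) (a := a) (k₀ := k₀) (m := m) hg hM hκ
      (i := i) (l := k₀) (x := (j₀ : ℝ) / 2 ^ k₀) (hQ k₀ le_rfl _) (le_sg hk₀m _)
    rwa [IsStop.fl_rep] at h3
  refine Pack79.pack (s := si g κ k₀ m a i) hF hFM (isStop_si i).measurable hst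
    (fun z => (isStop_si i).le z) (Q := Q) (fun z l hl => ?_) (c := a / 4) (by positivity)
    (B := B) (D := D) hQb hBb hDB
    (T := T.filter (fun t => idx g κ k₀ a (k t) (j t) = i))
    (fun t ht t' ht' hne hsub => sep t (Finset.mem_filter.1 ht).1 t' (Finset.mem_filter.1 ht').1
      hne hsub) (r := fun t => ri g κ k₀ m a i (w t) (k t) (j t))
    (fun t _ q hq => ri_heavy hq) ht1 hk' hS h1 h2
  rcases le_total l k₀ with hlk | hlk
  · exact avN_coarse_le hF hFM hsF hroot hlk _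
  · exact avN_Fi_le hg hM hκ (hQ l hlk _) hl

end tops

end Crest.Agent.R100.Grid279
end
end

-- ▼ part R100/Greedy_496
section

/-!
# R100 / S0132, helper496: block B8 of doc 1968, greedy selection of the tops (real labels)

`H k j ξ` : the label `ξ` is heavy at the dyadic node `Ivl k j`. Each set `{ξ | H k j ξ}` is bounded.
Greedily from the root down we choose finitely many tops `(k, j, w)` such that
* (SEP) two different tops with a common point `x`: `B * 2 ^ (larger generation) < |w - w'|`;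
* (COV) every heavy `(node, ξ)` has a top at an ancestor node within `B * 2 ^ k` of `ξ`.
-/

set_option autoImplicit false

open MeasureTheory Set

noncomputable section

namespace Crest.Agent.R100.Greedy496

open Crest.Agent.R100.Mart933

/-! ## maximal separated finite subsets of a bounded set -/

theorem card_sep_le {C : Set ℝ} {M s : ℝ} (hs : 0 < s) (hM : ∀ θ ∈ C, |θ| ≤ M) {N : Finset ℝ}
    (hN : ∀ θ ∈ N, θ ∈ C) (hsep : ∀ θ ∈ N, ∀ θ' ∈ N, θ ≠ θ' → s < |θ' - θ|) :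
    N.card ≤ (⌊M / s⌋ - ⌊-M / s⌋ + 1).toNat := by
  classical
  have hmap : ∀ θ ∈ N, ⌊θ / s⌋ ∈ Finset.Icc ⌊-M / s⌋ ⌊M / s⌋ := by
    intro θ hθ
    have h := abs_le.mp (hM θ (hN θ hθ))
    rw [Finset.mem_Icc]
    exact ⟨Int.floor_le_floor (by gcongr; exact h.1), Int.floor_le_floor (by gcongr; exact h.2)⟩
  have hinj : Set.InjOn (fun θ : ℝ => ⌊θ / s⌋) (N : Set ℝ) := by
    intro θ hθ θ' hθ' heq
    by_contra hne
    have h1 := hsep θ hθ θ' hθ' hne
    have heq' : ⌊θ / s⌋ = ⌊θ' / s⌋ := heq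
    have h2 := Int.abs_sub_lt_one_of_floor_eq_floor heq'
    rw [← sub_div, abs_div, abs_of_pos hs, div_lt_one hs, abs_sub_comm] at h2
    linarith
  have := Finset.card_le_card_of_injOn (fun θ : ℝ => ⌊θ / s⌋) hmap hinj
  rw [Int.card_Icc] at this
  refine this.trans (le_of_eq ?_)
  congr 1
  ring

/-- a maximal `s`-separated finite subset of a bounded set -/
theorem exists_net (C : Set ℝ) (hC : Bornology.IsBounded C) {s : ℝ} (hs : 0 < s) :
    ∃ N : Finset ℝ, (∀ θ ∈ N, θ ∈ C) ∧ (∀ θ ∈ N, ∀ θ' ∈ N, θ ≠ θ' → s < |θ' - θ|) ∧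
      ∀ θ ∈ C, ∃ θ' ∈ N, |θ - θ'| ≤ s := by
  classical
  obtain ⟨M, hM⟩ := hC.exists_norm_le
  set P : ℕ → Prop := fun c => ∃ N : Finset ℝ, N.card = c ∧ (∀ θ ∈ N, θ ∈ C) ∧
    ∀ θ ∈ N, ∀ θ' ∈ N, θ ≠ θ' → s < |θ' - θ| with hP
  set b : ℕ := (⌊M / s⌋ - ⌊-M / s⌋ + 1).toNat with hb
  have hP0 : P 0 := ⟨∅, by simp⟩
  have hbd : ∀ c, P c → c ≤ b := by
    rintro c ⟨N, rfl, h1, h2⟩
    exact card_sep_le hs (fun θ hθ => hM θ hθ) h1 h2
  have hm := Nat.findGreatest_spec (P := P) (Nat.zero_le b) hP0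
  obtain ⟨N, hc, h1, h2⟩ := hm
  refine ⟨N, h1, h2, ?_⟩
  intro θ hθ
  by_contra hcon
  push Not at hcon
  have hnot : θ ∉ N := by
    intro h
    have := hcon θ h
    rw [sub_self, abs_zero] at this
    linarith
  have hP1 : P (N.card + 1) := by
    refine ⟨insert θ N, Finset.card_insert_of_notMem hnot, ?_, ?_⟩
    · intro a ha
      rcases Finset.mem_insert.mp ha with rfl | ha
      · exact hθ
      · exact h1 a ha
    · intro a ha a' ha' hne
      rcases Finset.mem_insert.mp ha with h | h <;>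
        rcases Finset.mem_insert.mp ha' with h' | h'
      · exact absurd (h.trans h'.symm) hne
      · rw [h, abs_sub_comm]; exact hcon a' h'
      · rw [h']; exact hcon a h
      · exact h2 a h a' h' hne
  have h3 := Nat.le_findGreatest (hbd _ hP1) hP1
  rw [← hc] at h3
  omega

open Classical in
/-- the chosen net of a set (empty if the set is unbounded) -/
def net (C : Set ℝ) (s : ℝ) : Finset ℝ :=
  if h : Bornology.IsBounded C ∧ 0 < s then Classical.choose (exists_net C h.1 h.2) else ∅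

theorem net_spec {C : Set ℝ} {s : ℝ} (hC : Bornology.IsBounded C) (hs : 0 < s) :
    (∀ θ ∈ net C s, θ ∈ C) ∧ (∀ θ ∈ net C s, ∀ θ' ∈ net C s, θ ≠ θ' → s < |θ' - θ|) ∧
      ∀ θ ∈ C, ∃ θ' ∈ net C s, |θ - θ'| ≤ s := by
  unfold net
  rw [dif_pos ⟨hC, hs⟩]
  exact Classical.choose_spec (exists_net C hC hs)

/-! ## selection -/

/-- candidates at a node: heavy labels far from the frequencies in `A` -/
def cnd (H : ℕ → ℤ → ℝ → Prop) (B : ℝ) (k : ℕ) (j : ℤ) (A : Finset ℝ) : Set ℝ :=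
  {θ | H k j θ ∧ ∀ θ' ∈ A, B * 2 ^ k < |θ - θ'|}

open Classical in
/-- `up d j`: frequencies of the tops above (or at) the node `Ivl (k0 + d) j`, selection started at
generation `k0` -/
def up (H : ℕ → ℤ → ℝ → Prop) (B : ℝ) (k0 : ℕ) : ℕ → ℤ → Finset ℝ
  | 0, j => net (cnd H B k0 j ∅) (B * 2 ^ k0)
  | d + 1, j => up H B k0 d (j / 2) ∪
      net (cnd H B (k0 + (d + 1)) j (up H B k0 d (j / 2))) (B * 2 ^ (k0 + (d + 1)))

/-- frequencies of the tops strictly above a node -/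
def par (H : ℕ → ℤ → ℝ → Prop) (B : ℝ) (k0 : ℕ) : ℕ → ℤ → Finset ℝ
  | 0, _ => ∅
  | d + 1, j => up H B k0 d (j / 2)

/-- frequencies of the tops at a node -/
def nw (H : ℕ → ℤ → ℝ → Prop) (B : ℝ) (k0 d : ℕ) (j : ℤ) : Finset ℝ :=
  net (cnd H B (k0 + d) j (par H B k0 d j)) (B * 2 ^ (k0 + d))

variable {H : ℕ → ℤ → ℝ → Prop} {B : ℝ} {k0 : ℕ}

open Classical in
theorem up_eq (d : ℕ) (j : ℤ) : up H B k0 d j = par H B k0 d j ∪ nw H B k0 d j := by
  cases d with
  | zero => simp [up, par, nw]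
  | succ d => rfl

theorem bdd_cnd (hH : ∀ k j, Bornology.IsBounded {ξ | H k j ξ}) (k : ℕ) (j : ℤ) (A : Finset ℝ) :
    Bornology.IsBounded (cnd H B k j A) :=
  (hH k j).subset fun _ h => h.1

theorem mem_nw (hH : ∀ k j, Bornology.IsBounded {ξ | H k j ξ}) (hB : 0 < B) {d : ℕ} {j : ℤ} {θ : ℝ}
    (h : θ ∈ nw H B k0 d j) :
    H (k0 + d) j θ ∧ ∀ θ' ∈ par H B k0 d j, B * 2 ^ (k0 + d) < |θ - θ'| :=
  (net_spec (bdd_cnd hH _ _ _) (by positivity)).1 θ h

theorem sep_nw (hH : ∀ k j, Bornology.IsBounded {ξ | H k j ξ}) (hB : 0 < B) (d : ℕ) (j : ℤ) :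
    ∀ θ ∈ nw H B k0 d j, ∀ θ' ∈ nw H B k0 d j, θ ≠ θ' → B * 2 ^ (k0 + d) < |θ' - θ| :=
  (net_spec (bdd_cnd hH _ _ _) (by positivity)).2.1

/-- covering -/
theorem exhaust (hH : ∀ k j, Bornology.IsBounded {ξ | H k j ξ}) (hB : 0 < B) {d : ℕ} {j : ℤ}
    {θ : ℝ} (hθ : H (k0 + d) j θ) : ∃ θ' ∈ up H B k0 d j, |θ - θ'| ≤ B * 2 ^ (k0 + d) := by
  classical
  by_cases hA : ∀ θ' ∈ par H B k0 d j, B * 2 ^ (k0 + d) < |θ - θ'|
  · obtain ⟨θ', h1, h2⟩ := (net_spec (bdd_cnd (B := B) hH (k0 + d) j (par H B k0 d j))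
      (s := B * 2 ^ (k0 + d)) (by positivity)).2.2 θ ⟨hθ, hA⟩
    refine ⟨θ', ?_, h2⟩
    rw [up_eq, Finset.mem_union]
    exact Or.inr h1
  · push Not at hA
    obtain ⟨θ', h1, h2⟩ := hA
    refine ⟨θ', ?_, h2⟩
    rw [up_eq, Finset.mem_union]
    exact Or.inl h1

theorem up_mono_fl {d e : ℕ} (h : d ≤ e) (x : ℝ) :
    up H B k0 d (fl (k0 + d) x) ⊆ up H B k0 e (fl (k0 + e) x) := by
  classical
  induction e, h using Nat.le_induction with
  | base => exact subset_rfl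
  | succ e _ ih =>
    refine ih.trans ?_
    rw [fl_half (k0 + e) x, up_eq (e + 1)]
    exact Finset.subset_union_left

/-- every element of `up` comes from a top at some ancestor -/
theorem exists_nw {d : ℕ} {x : ℝ} {θ : ℝ} (h : θ ∈ up H B k0 d (fl (k0 + d) x)) :
    ∃ e ≤ d, θ ∈ nw H B k0 e (fl (k0 + e) x) := by
  classical
  induction d with
  | zero =>
    rw [up_eq, Finset.mem_union] at h
    rcases h with h | h
    · simp [par] at h
    · exact ⟨0, le_rfl, h⟩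
  | succ d ih =>
    rw [up_eq, Finset.mem_union] at h
    rcases h with h | h
    · simp only [par] at h
      have e1 : fl (k0 + (d + 1)) x / 2 = fl (k0 + d) x := (fl_half (k0 + d) x).symm
      rw [e1] at h
      obtain ⟨l, hl, h'⟩ := ih h
      exact ⟨l, by omega, h'⟩
    · exact ⟨d + 1, le_rfl, h⟩

theorem nw_sub_up {d : ℕ} {x : ℝ} : nw H B k0 d (fl (k0 + d) x) ⊆ up H B k0 d (fl (k0 + d) x) := by
  classical
  rw [up_eq]
  exact Finset.subset_union_right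

/-- **(SEP)** two tops above a common point -/
theorem sep (hH : ∀ k j, Bornology.IsBounded {ξ | H k j ξ}) (hB : 0 < B) {d e : ℕ} (hde : d ≤ e)
    {x w w' : ℝ} (hw : w ∈ nw H B k0 d (fl (k0 + d) x)) (hw' : w' ∈ nw H B k0 e (fl (k0 + e) x))
    (hne : (d, w) ≠ (e, w')) : B * 2 ^ (k0 + e) < |w - w'| := by
  rcases eq_or_lt_of_le hde with rfl | hlt
  · have hww : w ≠ w' := fun h => hne (by rw [h])
    rw [abs_sub_comm]
    exact sep_nw hH hB d _ w hw w' hw' hww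
  · obtain ⟨e', rfl⟩ : ∃ e', e = e' + 1 := ⟨e - 1, by omega⟩
    have h1 := (mem_nw hH hB hw').2 w (by
      simp only [par]
      have e1 : fl (k0 + (e' + 1)) x / 2 = fl (k0 + e') x := (fl_half (k0 + e') x).symm
      rw [e1]
      exact up_mono_fl (by omega) x (nw_sub_up hw))
    rw [abs_sub_comm]
    exact h1

/-! ## descendants of a node -/

/-- indices of the descendants, `d` generations below, of the node with index `j0` -/
def desc (j0 : ℤ) (d : ℕ) : Finset ℤ := Finset.Ico (j0 * 2 ^ d) ((j0 + 1) * 2 ^ d)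

theorem fl_div_pow (k d : ℕ) (x : ℝ) : fl (k + d) x / 2 ^ d = fl k x := by
  induction d with
  | zero => simp
  | succ d ih =>
    rw [← ih, fl_half (k + d) x, pow_succ, mul_comm (2 ^ d) (2 : ℤ),
      ← Int.ediv_ediv_of_nonneg (by norm_num)]
    rfl

theorem mem_desc {k d : ℕ} {j0 : ℤ} {x : ℝ} : fl (k + d) x ∈ desc j0 d ↔ x ∈ Ivl k j0 := by
  rw [mem_Ivl, ← fl_div_pow k d x, desc, Finset.mem_Ico]
  have h2 : (0 : ℤ) < 2 ^ d := by positivity
  constructor
  · rintro ⟨h1, h3⟩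
    apply le_antisymm
    · exact Int.lt_add_one_iff.mp ((Int.ediv_lt_iff_lt_mul h2).mpr h3)
    · exact (Int.le_ediv_iff_mul_le h2).mpr h1
  · intro h
    rw [← h]
    exact ⟨(Int.ediv_mul_le _ h2.ne'), Int.lt_ediv_add_one_mul_self _ h2⟩

/-! ## final statement -/

/-- **Greedy tops** (block B8 of doc 1968). A top is a triple `(k, j, w)`. -/
theorem greedy (H : ℕ → ℤ → ℝ → Prop) (hH : ∀ k j, Bornology.IsBounded {ξ | H k j ξ}) (B : ℝ)
    (hB : 0 < B) (k0 K : ℕ) (j0 : ℤ) :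
    ∃ TT : Finset (ℕ × ℤ × ℝ),
      (∀ T ∈ TT, k0 ≤ T.1 ∧ T.1 ≤ K ∧ Ivl T.1 T.2.1 ⊆ Ivl k0 j0 ∧ H T.1 T.2.1 T.2.2) ∧
      (∀ T ∈ TT, ∀ T' ∈ TT, T ≠ T' → T.1 ≤ T'.1 → ∀ x, x ∈ Ivl T.1 T.2.1 → x ∈ Ivl T'.1 T'.2.1 →
        B * 2 ^ T'.1 < |T.2.2 - T'.2.2|) ∧
      (∀ x ∈ Ivl k0 j0, ∀ k, k0 ≤ k → k ≤ K → ∀ ξ, H k (fl k x) ξ →
        ∃ T ∈ TT, T.1 ≤ k ∧ x ∈ Ivl T.1 T.2.1 ∧ |ξ - T.2.2| ≤ B * 2 ^ k) := by
  classical
  set TT : Finset (ℕ × ℤ × ℝ) := (Finset.range (K + 1 - k0)).biUnion fun d =>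
    (desc j0 d).biUnion fun j => (nw H B k0 d j).image fun w => (k0 + d, j, w) with hTT
  have hmem : ∀ T : ℕ × ℤ × ℝ, T ∈ TT ↔ ∃ d, d < K + 1 - k0 ∧ ∃ j ∈ desc j0 d, ∃ w ∈ nw H B k0 d j,
      (k0 + d, j, w) = T := by
    intro T
    rw [hTT]
    simp only [Finset.mem_biUnion, Finset.mem_image, Finset.mem_range]
  have hnode : ∀ (d : ℕ) (j : ℤ), j ∈ desc j0 d → Ivl (k0 + d) j ⊆ Ivl k0 j0 := by
    intro d j hj x hx
    rw [mem_Ivl] at hx
    rw [← mem_desc (d := d), hx]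
    exact hj
  refine ⟨TT, ?_, ?_, ?_⟩
  · intro T hT
    obtain ⟨d, hd, j, hj, w, hw, rfl⟩ := (hmem T).mp hT
    exact ⟨by simp, by simp; omega, hnode d j hj, (mem_nw hH hB hw).1⟩
  · intro T hT T' hT' hne hle x hx hx'
    obtain ⟨d, hd, j, hj, w, hw, rfl⟩ := (hmem T).mp hT
    obtain ⟨e, he, i, hi, w', hw', rfl⟩ := (hmem T').mp hT'
    simp only at hle hx hx' ⊢
    rw [mem_Ivl] at hx hx'
    subst hx hx'
    refine sep hH hB (by omega) hw hw' ?_
    intro h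
    apply hne
    rw [Prod.mk.injEq] at h
    obtain ⟨h1, h2⟩ := h
    subst h1 h2
    rfl
  · intro x hx k hk0 hkK ξ hξ
    obtain ⟨d, rfl⟩ : ∃ d, k = k0 + d := ⟨k - k0, by omega⟩
    obtain ⟨w, hw, hclose⟩ := exhaust (k0 := k0) hH hB hξ
    obtain ⟨e, he, hwe⟩ := exists_nw hw
    refine ⟨(k0 + e, fl (k0 + e) x, w), ?_, by simp; omega, ?_, hclose⟩
    · rw [hmem]
      exact ⟨e, by omega, fl (k0 + e) x, mem_desc.mpr hx, w, hwe, rfl⟩
    · exact mem_Ivl.mpr rfl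

end Crest.Agent.R100.Greedy496
end
private theorem rz_2d011733cd : type_of% @_root_.Crest.Agent.R100.Greedy496.par.eq_1 := @_root_.Crest.Agent.R100.Greedy496.par.eq_1 -- L115
private theorem rz_20838c2e8b : type_of% @_root_.Crest.Agent.R100.Greedy496.up.eq_def := @_root_.Crest.Agent.R100.Greedy496.up.eq_def -- L109
private theorem rz_fb5924493f : type_of% @_root_.Crest.Agent.R100.Greedy496.up.eq_1 := @_root_.Crest.Agent.R100.Greedy496.up.eq_1 -- L109
end

-- ▼ part R100/GreedyBdd_496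
section

/-!
# R100 / S0132, helper496: the labels heavy at a node form a bounded set (Riemann–Lebesgue)
-/

set_option autoImplicit false

open MeasureTheory Set Filter Topology
open scoped Real FourierTransform

noncomputable section

namespace Crest.Agent.R100.Greedy496

open Crest.Agent.R100.Mart933 Crest.Agent.R100.Wide933

theorem e_neg_eq (θ y : ℝ) : e (-θ) y = ((𝐞 (-(y * θ)) : Circle) : ℂ) := by
  unfold e
  rw [Real.fourierChar_apply]
  congr 1
  push_cast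
  ring

/-- the coefficient at a node tends to `0` when the label goes to infinity (no hypothesis on `g`) -/
theorem tendsto_coef (g : ℝ → ℂ) (k : ℕ) (j : ℤ) :
    Tendsto (fun θ => coef g θ k j) (cocompact ℝ) (𝓝 0) := by
  have h := Real.tendsto_integral_exp_smul_cocompact ((Ivl k j).indicator g)
  have h2 := h.const_mul ((2 : ℂ) ^ k)
  rw [mul_zero] at h2
  refine h2.congr fun θ => ?_
  unfold coef
  congr 1
  rw [← integral_indicator (measurableSet_Ivl k j)]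
  congr 1
  funext y
  by_cases hy : y ∈ Ivl k j
  · rw [indicator_of_mem hy, indicator_of_mem hy, e_neg_eq, Circle.smul_def, smul_eq_mul, mul_comm]
  · rw [indicator_of_notMem hy, indicator_of_notMem hy, smul_zero]

/-- **bounded heavy set** -/
theorem bdd_heavy (g : ℝ → ℂ) {a : ℝ} (ha : 0 < a) (k : ℕ) (j : ℤ) :
    Bornology.IsBounded {ξ : ℝ | a ≤ ‖coef g ξ k j‖} := by
  have h := (tendsto_coef g k j).norm
  rw [norm_zero] at h
  have h1 : ∀ᶠ ξ in cocompact ℝ, ‖coef g ξ k j‖ < a := h.eventually (gt_mem_nhds ha)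
  rw [Filter.Eventually, mem_cocompact] at h1
  obtain ⟨t, ht, hsub⟩ := h1
  refine ht.isBounded.subset ?_
  intro ξ hξ
  by_contra hcon
  have : ‖coef g ξ k j‖ < a := hsub hcon
  exact absurd hξ (not_le.mpr this)

/-- **greedy tops of a level-dependent family of populations** (level `a`, width `B`). -/
theorem greedy_coef (h : ℕ → ℝ → ℂ) {a : ℝ} (ha : 0 < a) (B : ℝ) (hB : 0 < B) (k0 K : ℕ) (j0 : ℤ) :
    ∃ TT : Finset (ℕ × ℤ × ℝ),
      (∀ T ∈ TT, k0 ≤ T.1 ∧ T.1 ≤ K ∧ Ivl T.1 T.2.1 ⊆ Ivl k0 j0 ∧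
        a ≤ ‖coef (h T.1) T.2.2 T.1 T.2.1‖) ∧
      (∀ T ∈ TT, ∀ T' ∈ TT, T ≠ T' → T.1 ≤ T'.1 → ∀ x, x ∈ Ivl T.1 T.2.1 → x ∈ Ivl T'.1 T'.2.1 →
        B * 2 ^ T'.1 < |T.2.2 - T'.2.2|) ∧
      (∀ x ∈ Ivl k0 j0, ∀ k, k0 ≤ k → k ≤ K → ∀ ξ, a ≤ ‖coef (h k) ξ k (fl k x)‖ →
        ∃ T ∈ TT, T.1 ≤ k ∧ x ∈ Ivl T.1 T.2.1 ∧ |ξ - T.2.2| ≤ B * 2 ^ k) :=
  greedy (fun k j ξ => a ≤ ‖coef (h k) ξ k j‖) (fun k j => bdd_heavy (h k) ha k j) B hB k0 K j0

end Crest.Agent.R100.Greedy496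
end
end

-- ▼ part R100/Tops_279
section

/-!
# R100 / S0132, helper279: (TOPS), all constants explicit (assembly AS1)

Greedy tops of helper496 + `Grid279.tops` + choice of the width `B`, the depth `D` and `b`.
-/

set_option autoImplicit false

open MeasureTheory Set
open scoped ENNReal

noncomputable section

namespace Crest.Agent.R100.Grid279

open Crest.Agent.R100.Mart933 Crest.Agent.R100.Wide933 Crest.Agent.R100.Id833
open Crest.Agent.R100.Tree711
open Crest.Agent.R100.Sel721 (Sub Fam select fl_sub mem_of_Sub)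

/-- choice of `b` -/
theorem exists_b {ρ : ℝ} (hρ : 1 ≤ ρ) : ∃ b : ℕ, 208 * ρ ≤ 2 ^ b ∧ (2 : ℝ) ^ b ≤ 416 * ρ := by
  have hex : ∃ b : ℕ, 208 * ρ ≤ 2 ^ b := by
    obtain ⟨b, hb⟩ := pow_unbounded_of_one_lt (208 * ρ) (one_lt_two)
    exact ⟨b, hb.le⟩
  classical
  refine ⟨Nat.find hex, Nat.find_spec hex, ?_⟩
  rcases Nat.eq_zero_or_pos (Nat.find hex) with h | h
  · have := Nat.find_spec hex
    rw [h] at this ⊢
    simp only [pow_zero] at this ⊢
    linarith
  · have h1 := Nat.find_min hex (m := Nat.find hex - 1) (by omega)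
    push Not at h1
    have h2 : (2 : ℝ) ^ (Nat.find hex) = 2 * 2 ^ (Nat.find hex - 1) := by
      rw [← pow_succ']
      congr 1
      omega
    rw [h2]
    linarith

/-- **(TOPS)**: covering family of tops of level `a`, with its total measure -/
theorem tops_all {g : ℝ → ℂ} {κ : ℝ → ℕ} {M : ℝ} {m k₀ : ℕ} {j₀ : ℤ} {h : ℕ} {W : ℝ≥0∞} {a : ℝ}
    (hg : Measurable g) (hM : ∀ x, ‖g x‖ ≤ M) (hκ : Measurable κ) (hk₀m : k₀ ≤ m)
    (hsupp : ∀ y, g y ≠ 0 → y ∈ Ivl k₀ j₀) (hQ : ∀ k j, avN (Pb g κ k) k j ≤ 2)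
    (hh : 1 ≤ h)
    (hW : ∀ l, k₀ ≤ l → ∀ (jj : ℤ) (I : Finset ℤ) (Y : ℤ → ℝ),
      (∀ i ∈ I, (i : ℝ) * 2 ^ l ≤ Y i ∧ Y i < ((i : ℝ) + 1) * 2 ^ l) →
      ∑ i ∈ I, ‖coef (Pb g κ l) (Y i) l jj‖ₑ ^ (2 * (h : ℝ)) ≤ W)
    (ha : 0 < a) (ha2 : a ≤ 2) :
    ∃ (T : Finset (ℕ × ℤ × ℝ)) (B : ℝ), 0 ≤ B ∧ B ≤ 640000 * (2 / a) ^ 3 ∧
      (∀ t ∈ T, k₀ ≤ t.1) ∧
      (∀ x ∈ Ivl k₀ j₀, ∀ k, k₀ ≤ k → k ≤ m → ∀ ξ, a ≤ ‖bb g κ ξ k (fl k x)‖ →
        ∃ t ∈ T, t.1 ≤ k ∧ x ∈ Ivl t.1 t.2.1 ∧ |ξ - t.2.2| ≤ B * 2 ^ k) ∧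
      ENNReal.ofReal (∑ t ∈ T, (1 : ℝ) / 2 ^ t.1) ≤
        ENNReal.ofReal (3 * 10 ^ 9 * (2 / a) ^ 5 * (2 / a) ^ (2 * h) / 2 ^ k₀) * W := by
  have hρ : 1 ≤ 2 / a := by rw [le_div_iff₀ ha]; linarith
  set ρ : ℝ := 2 / a with hρdef
  have haρ : a = 2 / ρ := by rw [hρdef]; field_simp
  obtain ⟨b, hb1, hb2⟩ := exists_b hρ
  have hρ0 : 0 < ρ := by linarith
  have hρ3 : ρ ≤ ρ ^ 3 := le_self_pow₀ hρ (by norm_num)
  have h1ρ3 : 1 ≤ ρ ^ 3 := one_le_pow₀ hρ
  -- bound on `b`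
  have hbn : (b : ℝ) ≤ 416 * ρ := by
    have : (b : ℝ) ≤ 2 ^ b := by exact_mod_cast (Nat.lt_two_pow_self (n := b)).le
    linarith
  have hMe : 48 * (b : ℝ) * 2 ^ 2 / (a / 4) ^ 2 = 768 * b * ρ ^ 2 := by
    rw [haρ]
    field_simp
    ring
  have hMle : 768 * (b : ℝ) * ρ ^ 2 ≤ 319488 * ρ ^ 3 := by
    have : (b : ℝ) * ρ ^ 2 ≤ 416 * ρ * ρ ^ 2 := by gcongr
    nlinarith
  have hM0 : 0 ≤ 768 * (b : ℝ) * ρ ^ 2 := by positivity
  set D : ℕ := ⌈2 * (768 * (b : ℝ) * ρ ^ 2)⌉₊ + 1 with hDdef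
  have hD1 : 1 ≤ D := by omega
  have hD2 : 2 * (768 * (b : ℝ) * ρ ^ 2) ≤ D := by
    rw [hDdef]
    push_cast
    have := Nat.le_ceil (2 * (768 * (b : ℝ) * ρ ^ 2))
    linarith
  have hD3 : (D : ℝ) ≤ 638976 * ρ ^ 3 + 2 := by
    rw [hDdef]
    push_cast
    have := (Nat.ceil_lt_add_one (show 0 ≤ 2 * (768 * (b : ℝ) * ρ ^ 2) by positivity)).le
    linarith
  set B : ℝ := 2 ^ b + D with hB
  have hBpos : 0 < B := by positivity
  have hB3 : B ≤ 640000 * ρ ^ 3 := by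
    rw [hB]
    nlinarith
  obtain ⟨T, hT1, hT2, hT3⟩ := Greedy496.greedy_coef (fun k => Pb g κ k) ha B hBpos k₀ m j₀
  refine ⟨T, B, hBpos.le, hB3, fun t ht => (hT1 t ht).1, hT3, ?_⟩
  have hsub : ∀ t ∈ T, Sub t.1 t.2.1 k₀ j₀ := by
    intro t ht
    obtain ⟨h1, h2, h3, h4⟩ := hT1 t ht
    have hx : ((t.2.1 : ℝ) / 2 ^ t.1) ∈ Ivl t.1 t.2.1 := mem_Ivl.2 (IsStop.fl_rep _ _)
    have hx' := mem_Ivl.1 (h3 hx)
    have h5 := fl_sub h1 ((t.2.1 : ℝ) / 2 ^ t.1)
    rwa [IsStop.fl_rep, hx'] at h5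
  have hmain := tops (g := g) (κ := κ) (M := M) (Q := 2) (a := a) (k₀ := k₀) (m := m) (j₀ := j₀)
    (ι := ℕ × ℤ × ℝ) (k := fun t => t.1) (j := fun t => t.2.1) (w := fun t => t.2.2) (T := T)
    (b := b) (D := D) (p := 2 * (h : ℝ)) (W := W) hg hM hκ
    (fun y hy => by
      by_contra hc
      exact hy (mem_Ivl.1 (hsupp y hc)))
    hk₀m ha (fun l _ jj => hQ l jj)
    (fun t ht => ⟨(hT1 t ht).1, (hT1 t ht).2.1, hsub t ht, (hT1 t ht).2.2.2⟩)
    (by
      have : (1 : ℝ) ≤ h := by exact_mod_cast hh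
      linarith) hW (B := B)
    (by
      rw [haρ]
      have : 2 / ρ / 4 * 2 ^ b = 2 ^ b / (2 * ρ) := by field_simp; ring
      rw [this, le_div_iff₀ (by positivity)]
      linarith)
    (by rw [hB]; linarith [Nat.cast_nonneg (α := ℝ) D])
    (by
      rw [hB]
      have : (0 : ℝ) < 2 ^ b := by positivity
      linarith)
    (fun t ht t' ht' hne hs => by
      have hx : ((t.2.1 : ℝ) / 2 ^ t.1) ∈ Ivl t.1 t.2.1 := mem_Ivl.2 (IsStop.fl_rep _ _)
      have hx' : fl t'.1 ((t.2.1 : ℝ) / 2 ^ t.1) = t'.2.1 := mem_of_Sub hs (IsStop.fl_rep _ _)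
      have h1 := hT2 t' ht' t ht (Ne.symm hne) hs.1 _ (mem_Ivl.2 hx') hx
      rw [abs_sub_comm] at h1
      exact h1)
    hD1 (by rw [hMe]; exact hD2)
  rw [hMe] at hmain
  -- remove `(a/2)^p`
  have hpow : (a / 2) ^ (2 * (h : ℝ)) * ρ ^ (2 * h) = 1 := by
    have e1 : (2 * (h : ℝ)) = ((2 * h : ℕ) : ℝ) := by push_cast; ring
    rw [e1, Real.rpow_natCast, ← mul_pow, haρ]
    have : 2 / ρ / 2 * ρ = 1 := by field_simp
    rw [this, one_pow]
  have h5 : ENNReal.ofReal (∑ t ∈ T, (1 : ℝ) / 2 ^ t.1) = ENNReal.ofReal (ρ ^ (2 * h)) *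
      ENNReal.ofReal ((a / 2) ^ (2 * (h : ℝ)) * ∑ t ∈ T, (1 : ℝ) / 2 ^ t.1) := by
    rw [← ENNReal.ofReal_mul (by positivity), ← mul_assoc, mul_comm (ρ ^ (2 * h)), hpow, one_mul]
  rw [h5]
  have h2b : (2 : ℝ≥0∞) ^ b = ENNReal.ofReal (2 ^ b) := by
    rw [ENNReal.ofReal_pow (by norm_num), ENNReal.ofReal_ofNat]
  calc ENNReal.ofReal (ρ ^ (2 * h)) *
        ENNReal.ofReal ((a / 2) ^ (2 * (h : ℝ)) * ∑ t ∈ T, (1 : ℝ) / 2 ^ t.1)
      ≤ ENNReal.ofReal (ρ ^ (2 * h)) * (ENNReal.ofReal (1 + 2 * (768 * b * ρ ^ 2)) * (2 ^ b * W) *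
        ENNReal.ofReal ((1 + 10 * 2 / a) / 2 ^ k₀)) := by gcongr
    _ = ENNReal.ofReal (ρ ^ (2 * h) * (1 + 2 * (768 * b * ρ ^ 2)) * 2 ^ b *
        ((1 + 10 * 2 / a) / 2 ^ k₀)) * W := by
        rw [h2b, ENNReal.ofReal_mul (by positivity), ENNReal.ofReal_mul (by positivity),
          ENNReal.ofReal_mul (by positivity)]
        ring
    _ ≤ _ := by
        gcongr
        have e1 : (1 + 10 * 2 / a) = 1 + 10 * ρ := by rw [hρdef]; ring
        rw [e1]
        have e2 : 1 + 2 * (768 * (b : ℝ) * ρ ^ 2) ≤ 638977 * ρ ^ 3 := by nlinarith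
        have e3 : 1 + 10 * ρ ≤ 11 * ρ := by linarith
        have h2k : (0 : ℝ) < 2 ^ k₀ := by positivity
        calc ρ ^ (2 * h) * (1 + 2 * (768 * (b : ℝ) * ρ ^ 2)) * 2 ^ b * ((1 + 10 * ρ) / 2 ^ k₀)
            ≤ ρ ^ (2 * h) * (638977 * ρ ^ 3) * (416 * ρ) * ((11 * ρ) / 2 ^ k₀) := by gcongr
          _ = 2923958752 * ρ ^ 5 * ρ ^ (2 * h) / 2 ^ k₀ := by ring
          _ ≤ 3 * 10 ^ 9 * ρ ^ 5 * ρ ^ (2 * h) / 2 ^ k₀ := by
              gcongr
              norm_num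

end Crest.Agent.R100.Grid279
end
end

-- ▼ part R100/Num2_801
section

/-!
# R100 / S0132, helper801: `num : Core905.NumStmt`
-/

set_option autoImplicit false

namespace Crest.Agent.R100.Num801

theorem num : Core905.NumStmt := by
  intro C2 CE CV K hC2
  obtain ⟨n₀, hn₀⟩ := params C2 hC2 (|CE| + |CV| + 1) (K + 1)
  refine ⟨6 * C2 + 1, 1 / 200, by linarith, by norm_num, n₀ + 1, fun n hn => ?_⟩
  obtain ⟨h, G⟩ := hn₀ n (by omega)
  have hn1 : 1 ≤ n := by omega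
  have hh : 2 ≤ h := G.two_le
  have hh0 : (0 : ℝ) < h := by
    have : (2 : ℝ) ≤ h := by exact_mod_cast hh
    linarith
  have hb := G.bmin_pos
  have hb1 := G.bmin_le
  have hinv : 1 ≤ 1 / (n : ℝ) ^ (-(1 / 10) : ℝ) := by rwa [one_le_div hb]
  have hloss := G.loss
  have hCE : |CE| * (1 / (n : ℝ) ^ (-(1 / 10) : ℝ)) ^ (K + 1) ≤ 2 ^ h := by
    refine le_trans ?_ hloss
    have : |CE| ≤ |CE| + |CV| + 1 := by
      have := abs_nonneg CV; linarith
    gcongr
  refine ⟨hn1, h, (n : ℝ) ^ (-(1 / 10) : ℝ), by omega, by have := G.κ_le; omega, hb, hb1, ?_, ?_,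
    ?_, ?_, ?_⟩
  · have h1 := G.hnum
    have h2 : C2 * (2 * (h : ℝ)) / (2 * h) = C2 := by field_simp
    rwa [h2] at h1
  · refine G.hnum'.trans (le_of_eq ?_)
    ring
  · calc CE * (1 / (n : ℝ) ^ (-(1 / 10) : ℝ)) ^ K
        ≤ |CE| * (1 / (n : ℝ) ^ (-(1 / 10) : ℝ)) ^ (K + 1) := by
          have h1 : (1 / (n : ℝ) ^ (-(1 / 10) : ℝ)) ^ K ≤
              (1 / (n : ℝ) ^ (-(1 / 10) : ℝ)) ^ (K + 1) := pow_le_pow_right₀ hinv (by omega)
          have h2 : 0 ≤ (1 / (n : ℝ) ^ (-(1 / 10) : ℝ)) ^ K := by positivity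
          exact mul_le_mul (le_abs_self CE) h1 h2 (abs_nonneg CE)
      _ ≤ 2 ^ h := hCE
      _ ≤ 4 ^ h := by gcongr; norm_num
      _ ≤ 4 ^ (2 * h) := pow_le_pow_right₀ (by norm_num) (by omega)
  · by_cases h0 : CE = 0
    · rw [h0, zero_div, Real.log_zero]; positivity
    · have h1 : 0 < |CE| := abs_pos.2 h0
      rw [← Real.log_abs, abs_div, abs_of_pos hb]
      have h2 : |CE| / (n : ℝ) ^ (-(1 / 10) : ℝ) ≤ 2 ^ h := by
        refine le_trans ?_ hCE
        rw [← mul_one_div]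
        have : 1 / (n : ℝ) ^ (-(1 / 10) : ℝ) ≤ (1 / (n : ℝ) ^ (-(1 / 10) : ℝ)) ^ (K + 1) :=
          le_self_pow₀ hinv (by omega)
        gcongr
      have h3 := Real.log_le_log (by positivity) h2
      rw [Real.log_pow] at h3
      have h4 : Real.log 2 ≤ 1 := by
        have := Real.log_two_lt_d9; linarith
      have h5 : (h : ℝ) * Real.log 2 ≤ h * 1 := by gcongr
      linarith
  · have h1 := G.gain'
    have h2 := le_abs_self CV
    have h3 := abs_nonneg CE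
    linarith

end Crest.Agent.R100.Num801
end

-- ▼ part R100/FinX_800

/-!
# R100 / S0132, helper800: the last wiring, `CoreX` without hypotheses
-/

set_option autoImplicit false

open MeasureTheory Set
open scoped ENNReal

noncomputable section

namespace Crest.Agent.R100.FinX800

open Crest.Agent.R100.Mart933 Crest.Agent.R100.Wide933 Crest.Agent.R100.Id833
open Crest.Agent.R100.Tree711 Crest.Agent.R100.UB711 Crest.Agent.R100.Core905
open Crest.Agent.R100.UBX905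

theorem runStmt : RunStmt :=
  ⟨60, 600, 3602, 2, by norm_num, by norm_num, by norm_num,
    fun _ _ _ k0 m hg hM hκ _ hQ => UB711.runMax hg hM hκ hQ k0 m⟩

theorem topsStmt : TopsStmt := by
  refine ⟨640000, 3 * 10 ^ 9, 3, 5, by norm_num, by norm_num, ?_⟩
  intro g κ M m k0 j0 h W hg hM hκ hm hgt hsupp hQ hPP hh _ a ha ha2
  exact Grid279.tops_all hg hM hκ ((hgt 0).le.trans (hm 0)) hsupp hQ hh hPP ha ha2

theorem coreX : CoreX916.CoreX :=
  coreX_of (ubStmt runStmt topsStmt) Num801.num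

end Crest.Agent.R100.FinX800
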