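import Mathlib.MeasureTheory.Integral.IntervalIntegral.Basic
import Mathlib.MeasureTheory.Integral.IntervalIntegral.FundThmCalculus
import Mathlib.MeasureTheory.Integral.IntervalIntegral.Periodic
import Mathlib.MeasureTheory.Integral.Prod
import Mathlib.Analysis.SpecialFunctions.Integrals.Basic
import Mathlib.MeasureTheory.Function.Floor

-- ▼ part R100/HaarA_403
section

/-!
The dyadic Haar shift kernel and its average over shifts.
`sg v = 1` if the fractional part of `v` is `< 1/2`, `-1` otherwise.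
`q a b = sg a * sg (2a) * sg b` if `a`, `b` lie in the same unit cell.
`A u = ∫_0^1 q v (v-u) dv`.
-/
set_option autoImplicit false
open MeasureTheory Set Filter Topology intervalIntegral

namespace Crest.Agent.R100.Haar403

/-- Rademacher sign -/
noncomputable def sg (v : ℝ) : ℝ := if Int.fract v < 1 / 2 then 1 else -1

/-- the kernel of the Haar shift in one cell -/
noncomputable def q (a b : ℝ) : ℝ := if ⌊a⌋ = ⌊b⌋ then sg a * sg (2 * a) * sg b else 0

lemma abs_sg (v : ℝ) : |sg v| = 1 := by unfold sg; split_ifs <;> simp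

lemma sg_add_int (v : ℝ) (n : ℤ) : sg (v + n) = sg v := by
  unfold sg; rw [Int.fract_add_intCast]


lemma measurable_sg : Measurable sg :=
  Measurable.ite (measurableSet_lt measurable_fract measurable_const) measurable_const
    measurable_const

lemma ii_of_bdd {E : Type*} [NormedAddCommGroup E] [MeasurableSpace E] [BorelSpace E]
    [SecondCountableTopology E] {h : ℝ → E} (hm : Measurable h) {C : ℝ} (hb : ∀ v, ‖h v‖ ≤ C)
    (a b : ℝ) : IntervalIntegrable h volume a b := by
  rw [intervalIntegrable_iff]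
  exact Measure.integrableOn_of_bounded (by simp) hm.aestronglyMeasurable (ae_of_all _ hb)

lemma abs_q_le (a b : ℝ) : |q a b| ≤ 1 := by
  unfold q
  split_ifs
  · rw [abs_mul, abs_mul, abs_sg, abs_sg, abs_sg]; norm_num
  · simp

lemma q_add_int (a b : ℝ) (n : ℤ) : q (a + n) (b + n) = q a b := by
  unfold q
  have e : 2 * (a + n) = 2 * a + ((2 * n : ℤ) : ℝ) := by push_cast; ring
  rw [e, sg_add_int, sg_add_int, sg_add_int, Int.floor_add_intCast, Int.floor_add_intCast]
  simp

lemma measurable_q : Measurable (Function.uncurry q) := by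
  unfold q Function.uncurry
  refine Measurable.ite ?_ ?_ measurable_const
  · exact measurableSet_eq_fun (Int.measurable_floor.comp measurable_fst)
      (Int.measurable_floor.comp measurable_snd)
  · exact ((measurable_sg.comp measurable_fst).mul (measurable_sg.comp
      (measurable_fst.const_mul 2))).mul (measurable_sg.comp measurable_snd)

lemma q_eq_zero_of_le {a b : ℝ} (h : 1 ≤ |a - b|) : q a b = 0 := by
  unfold q
  rw [if_neg]
  intro hfl
  have h1 := Int.abs_sub_lt_one_of_floor_eq_floor hfl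
  linarith

/-- the average of the kernel over shifts -/
noncomputable def A (u : ℝ) : ℝ := ∫ v in (0 : ℝ)..1, q v (v - u)

lemma measurable_qshift : Measurable fun p : ℝ × ℝ => q p.2 (p.2 - p.1) :=
  measurable_q.comp (measurable_snd.prodMk (measurable_snd.sub measurable_fst))

lemma abs_A_le (u : ℝ) : |A u| ≤ 1 := by
  unfold A
  have := intervalIntegral.norm_integral_le_of_norm_le_const (a := 0) (b := 1) (C := 1)
    (f := fun v => q v (v - u)) (fun v _ => abs_q_le _ _)
  simpa using this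

lemma A_eq_zero {u : ℝ} (h : 1 ≤ |u|) : A u = 0 := by
  unfold A
  have : ∀ v, q v (v - u) = 0 := fun v => q_eq_zero_of_le (by simpa using h)
  simp [this]

lemma measurable_A : Measurable A := by
  unfold A
  simp_rw [intervalIntegral.integral_of_le (zero_le_one (α := ℝ))]
  exact (measurable_qshift.stronglyMeasurable.integral_prod_right').measurable

lemma sg_of_mem_left {v : ℝ} (h0 : 0 ≤ v) (h1 : v < 1 / 2) : sg v = 1 := by
  unfold sg
  rw [Int.fract_eq_self.mpr ⟨h0, by linarith⟩, if_pos h1]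

lemma sg_of_mem_right {v : ℝ} (h0 : 1 / 2 ≤ v) (h1 : v < 1) : sg v = -1 := by
  unfold sg
  rw [Int.fract_eq_self.mpr ⟨by linarith, h1⟩, if_neg (by linarith)]

/-- the periodicity average: `∫_0^1 q (a - 2^k σ) (b - 2^k σ) dσ = A (a - b)`. -/
lemma integral_q_shift (a b : ℝ) (k : ℕ) :
    ∫ σ in (0 : ℝ)..1, q (a - 2 ^ k * σ) (b - 2 ^ k * σ) = A (a - b) := by
  -- the 1-periodic function `v ↦ q v (v - (a-b))`
  set h : ℝ → ℝ := fun v => q v (v - (a - b)) with hh
  have hper : Function.Periodic h 1 := by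
    intro v
    have := q_add_int v (v - (a - b)) 1
    simp only [Int.cast_one] at this
    rw [hh]
    simp only
    rw [← this]; congr 1; ring
  have e1 : ∀ σ : ℝ, q (a - 2 ^ k * σ) (b - 2 ^ k * σ) = h (a - 2 ^ k * σ) := by
    intro σ; rw [hh]; congr 1; ring
  simp_rw [e1]
  have hpos : (0 : ℝ) < 2 ^ k := by positivity
  rw [intervalIntegral.integral_comp_sub_mul (f := h) hpos.ne']
  simp only [mul_zero, sub_zero, mul_one, smul_eq_mul]
  have hmeas : Measurable h := measurable_q.comp (measurable_id.prodMk (measurable_id.sub_const _))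
  have e2 : ∫ v in (a - 2 ^ k)..a, h v = (2 ^ k : ℝ) * ∫ v in (0 : ℝ)..1, h v := by
    have h1 := hper.intervalIntegral_add_zsmul_eq (2 ^ k : ℤ) (a - 2 ^ k)
      (fun t₁ t₂ => ii_of_bdd hmeas (C := 1) (fun v => abs_q_le _ _) t₁ t₂)
    rw [hper.intervalIntegral_add_eq (a - 2 ^ k) 0] at h1
    simp only [zsmul_eq_mul, mul_one, Int.cast_pow, Int.cast_ofNat, sub_add_cancel, zero_add] at h1
    exact h1
  rw [e2, ← mul_assoc, inv_mul_cancel₀ hpos.ne', one_mul]
  rfl

end Crest.Agent.R100.Haar403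
end

-- ▼ part R100/HaarB_403
section

/-! The two half-line integrals of the averaged kernel `A`. -/
set_option autoImplicit false
open MeasureTheory Set Filter Topology intervalIntegral

namespace Crest.Agent.R100.Haar403

lemma integral_congr_Ioo {E : Type*} [NormedAddCommGroup E] [NormedSpace ℝ E] {a b : ℝ}
    (hab : a ≤ b) {f g : ℝ → E} (h : ∀ x ∈ Ioo a b, f x = g x) :
    ∫ x in a..b, f x = ∫ x in a..b, g x := by
  rw [intervalIntegral.integral_of_le hab, intervalIntegral.integral_of_le hab,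
    integral_Ioc_eq_integral_Ioo, integral_Ioc_eq_integral_Ioo]
  exact setIntegral_congr_fun measurableSet_Ioo h

lemma ii_sg (a b : ℝ) : IntervalIntegrable sg volume a b :=
  ii_of_bdd measurable_sg (C := 1) (fun v => (abs_sg v).le) a b

lemma integral_sg_left {v : ℝ} (h0 : 0 ≤ v) (h1 : v ≤ 1 / 2) : ∫ w in (0 : ℝ)..v, sg w = v := by
  rw [integral_congr_Ioo (g := fun _ => (1 : ℝ)) h0 (fun w hw => sg_of_mem_left hw.1.le
    (hw.2.trans_le h1))]
  simp

lemma integral_sg_right {v : ℝ} (h0 : 1 / 2 ≤ v) (h1 : v ≤ 1) :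
    ∫ w in (0 : ℝ)..v, sg w = 1 - v := by
  rw [← intervalIntegral.integral_add_adjacent_intervals (ii_sg 0 (1 / 2)) (ii_sg (1 / 2) v),
    integral_sg_left (by norm_num) le_rfl,
    integral_congr_Ioo (g := fun _ => (-1 : ℝ)) h0 (fun w hw => sg_of_mem_right hw.1.le
    (hw.2.trans_le h1))]
  simp; ring

lemma floor_zero_of_mem {v : ℝ} (h0 : 0 ≤ v) (h1 : v < 1) : ⌊v⌋ = 0 :=
  Int.floor_eq_zero_iff.mpr ⟨h0, h1⟩

/-- inner integral, `u ∈ (0,1)` -/
lemma inner_pos {v : ℝ} (h0 : 0 ≤ v) (h1 : v < 1) :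
    ∫ u in (0 : ℝ)..1, q v (v - u) = sg v * sg (2 * v) * ∫ w in (0 : ℝ)..v, sg w := by
  rw [intervalIntegral.integral_comp_sub_left (fun w => q v w) v]
  have hq : Measurable fun w => q v w := measurable_q.comp (measurable_const.prodMk measurable_id)
  have hii := ii_of_bdd hq (C := 1) (fun w => abs_q_le v w)
  rw [sub_zero, ← intervalIntegral.integral_add_adjacent_intervals (hii (v - 1) 0) (hii 0 v),
    integral_congr_Ioo (g := fun _ => (0 : ℝ)) (by linarith), integral_congr_Ioo
    (g := fun w => sg v * sg (2 * v) * sg w) h0]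
  · simp
  · intro w hw
    unfold q
    rw [if_pos]
    rw [floor_zero_of_mem h0 h1, floor_zero_of_mem hw.1.le (hw.2.trans h1)]
  · intro w hw
    unfold q
    rw [if_neg]
    rw [floor_zero_of_mem h0 h1]
    intro h
    have := Int.floor_nonneg.mp h.le
    linarith [hw.2]

/-- inner integral, `u ∈ (-1,0)` -/
lemma inner_neg {v : ℝ} (h0 : 0 ≤ v) (h1 : v < 1) :
    ∫ u in (-1 : ℝ)..0, q v (v - u) = sg v * sg (2 * v) * ∫ w in v..1, sg w := by
  rw [intervalIntegral.integral_comp_sub_left (fun w => q v w) v]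
  have hq : Measurable fun w => q v w := measurable_q.comp (measurable_const.prodMk measurable_id)
  have hii := ii_of_bdd hq (C := 1) (fun w => abs_q_le v w)
  rw [sub_zero, ← intervalIntegral.integral_add_adjacent_intervals (hii v 1) (hii 1 (v - -1)),
    integral_congr_Ioo (g := fun _ => (0 : ℝ)) (by linarith) (a := 1), integral_congr_Ioo
    (g := fun w => sg v * sg (2 * v) * sg w) h1.le]
  · simp
  · intro w hw
    unfold q
    rw [if_pos]
    rw [floor_zero_of_mem h0 h1, floor_zero_of_mem (h0.trans hw.1.le) hw.2]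
  · intro w hw
    unfold q
    rw [if_neg]
    rw [floor_zero_of_mem h0 h1]
    intro h
    have := (Int.floor_eq_zero_iff.mp h.symm).2
    linarith [hw.1]

lemma swap_integral (a b : ℝ) (hab : a ≤ b) :
    ∫ u in a..b, A u = ∫ v in (0 : ℝ)..1, ∫ u in a..b, q v (v - u) := by
  unfold A
  simp_rw [intervalIntegral.integral_of_le hab, intervalIntegral.integral_of_le (zero_le_one (α := ℝ))]
  refine MeasureTheory.integral_integral_swap (f := fun u v => q v (v - u)) ?_
  refine Integrable.of_bound measurable_qshift.aestronglyMeasurable 1 (ae_of_all _ fun p => ?_)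
  exact abs_q_le _ _

lemma tent_integral : ∫ v in (0 : ℝ)..1, sg v * sg (2 * v) * ∫ w in (0 : ℝ)..v, sg w = -1 / 8 := by
  set F : ℝ → ℝ := fun v => sg v * sg (2 * v) * ∫ w in (0 : ℝ)..v, sg w with hF
  have hcont : Continuous fun v => ∫ w in (0 : ℝ)..v, sg w :=
    intervalIntegral.continuous_primitive (fun a b => ii_sg a b) 0
  have hFm : Measurable F := (measurable_sg.mul (measurable_sg.comp (measurable_const_mul 2))).mul
    hcont.measurable
  have hii : ∀ a b : ℝ, IntervalIntegrable F volume a b := by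
    intro a b
    have h1 : IntervalIntegrable (fun v => ∫ w in (0 : ℝ)..v, sg w) volume a b :=
      hcont.intervalIntegrable a b
    refine h1.mono_fun hFm.aestronglyMeasurable (ae_of_all _ fun v => ?_)
    rw [hF]
    simp only [norm_mul, Real.norm_eq_abs, abs_sg, one_mul]
    exact le_rfl
  have s1 : ∀ v ∈ Ioo (0 : ℝ) (1 / 4), F v = v := by
    intro v hv
    rw [hF]; simp only
    rw [sg_of_mem_left hv.1.le (by linarith [hv.2]), sg_of_mem_left (by linarith [hv.1])
      (by linarith [hv.2]), integral_sg_left hv.1.le (by linarith [hv.2])]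
    ring
  have s2 : ∀ v ∈ Ioo (1 / 4 : ℝ) (1 / 2), F v = -v := by
    intro v hv
    rw [hF]; simp only
    rw [sg_of_mem_left (by linarith [hv.1]) (by linarith [hv.2]), sg_of_mem_right
      (by linarith [hv.1]) (by linarith [hv.2]), integral_sg_left (by linarith [hv.1])
      (by linarith [hv.2])]
    ring
  have s3 : ∀ v ∈ Ioo (1 / 2 : ℝ) (3 / 4), F v = -(1 - v) := by
    intro v hv
    rw [hF]; simp only
    have e : sg (2 * v) = 1 := by
      have : sg (2 * v - 1 + (1 : ℤ)) = sg (2 * v - 1) := sg_add_int _ 1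
      rw [show 2 * v = 2 * v - 1 + ((1 : ℤ) : ℝ) by push_cast; ring, this]
      exact sg_of_mem_left (by linarith [hv.1]) (by linarith [hv.2])
    rw [e, sg_of_mem_right (by linarith [hv.1]) (by linarith [hv.2]),
      integral_sg_right (by linarith [hv.1]) (by linarith [hv.2])]
    ring
  have s4 : ∀ v ∈ Ioo (3 / 4 : ℝ) 1, F v = 1 - v := by
    intro v hv
    rw [hF]; simp only
    have e : sg (2 * v) = -1 := by
      have : sg (2 * v - 1 + (1 : ℤ)) = sg (2 * v - 1) := sg_add_int _ 1
      rw [show 2 * v = 2 * v - 1 + ((1 : ℤ) : ℝ) by push_cast; ring, this]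
      exact sg_of_mem_right (by linarith [hv.1]) (by linarith [hv.2])
    rw [e, sg_of_mem_right (by linarith [hv.1]) (by linarith [hv.2]),
      integral_sg_right (by linarith [hv.1]) (by linarith [hv.2])]
    ring
  rw [← intervalIntegral.integral_add_adjacent_intervals (hii 0 (3 / 4)) (hii (3 / 4) 1),
    ← intervalIntegral.integral_add_adjacent_intervals (hii 0 (1 / 2)) (hii (1 / 2) (3 / 4)),
    ← intervalIntegral.integral_add_adjacent_intervals (hii 0 (1 / 4)) (hii (1 / 4) (1 / 2)),
    integral_congr_Ioo (by norm_num) s1, integral_congr_Ioo (by norm_num) s2,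
    integral_congr_Ioo (by norm_num) s3, integral_congr_Ioo (by norm_num) s4]
  rw [show (∫ v in (1 / 4 : ℝ)..(1 / 2), -v) = -(∫ v in (1 / 4 : ℝ)..(1 / 2), v) from
    intervalIntegral.integral_neg]
  simp only [intervalIntegral.integral_neg, integral_id]
  rw [intervalIntegral.integral_sub (by simp) (by simp), intervalIntegral.integral_sub (by simp) (by simp)]
  simp only [integral_id, intervalIntegral.integral_const, smul_eq_mul]
  norm_num

theorem integral_A_pos : ∫ u in (0 : ℝ)..1, A u = -1 / 8 := by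
  rw [swap_integral 0 1 zero_le_one, integral_congr_Ioo zero_le_one (fun v hv => inner_pos hv.1.le hv.2)]
  exact tent_integral

theorem integral_A_neg : ∫ u in (-1 : ℝ)..0, A u = 1 / 8 := by
  rw [swap_integral (-1) 0 (by norm_num),
    integral_congr_Ioo zero_le_one (fun v hv => inner_neg hv.1.le hv.2)]
  have h : ∀ v : ℝ, (∫ w in v..1, sg w) = -∫ w in (0 : ℝ)..v, sg w := by
    intro v
    have h1 := intervalIntegral.integral_add_adjacent_intervals (ii_sg 0 v) (ii_sg v 1)
    rw [integral_sg_right (by norm_num) le_rfl] at h1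
    linarith
  simp_rw [h, mul_neg]
  rw [intervalIntegral.integral_neg, tent_integral]
  norm_num

end Crest.Agent.R100.Haar403
end

-- ▼ part R100/HaarModel_403

/-!
The dyadic (cancellative) model operator.
`cell k x = ⌊2^k x⌋`, `Av k g x` = average of `g` over the dyadic interval of length `2^{-k}`
containing `x`, `D k g x = Av (k+1) g x - Av k g x`, `H m g x = ∑_{k<m} sg (2^{k+1} x) D k g x`.
-/
set_option autoImplicit false
open MeasureTheory Set Filter Topology intervalIntegral

namespace Crest.Agent.R100.Haar403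

/-- index of the dyadic cell of generation `k` containing `x`. -/
noncomputable def cell (k : ℕ) (x : ℝ) : ℤ := ⌊(2 : ℝ) ^ k * x⌋

/-- average over the dyadic cell of generation `k` containing `x`. -/
noncomputable def Av (k : ℕ) (g : ℝ → ℂ) (x : ℝ) : ℂ :=
  (2 : ℂ) ^ k * ∫ y in (cell k x / 2 ^ k : ℝ)..((cell k x + 1) / 2 ^ k : ℝ), g y

/-- martingale difference. -/
noncomputable def D (k : ℕ) (g : ℝ → ℂ) (x : ℝ) : ℂ := Av (k + 1) g x - Av k g x

/-- the dyadic Haar shift with `m` scales. -/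
noncomputable def H (m : ℕ) (g : ℝ → ℂ) (x : ℝ) : ℂ :=
  ∑ k ∈ Finset.range m, (sg (2 ^ (k + 1) * x) : ℂ) * D k g x

/-- additive character of the line. -/
noncomputable def ee (θ y : ℝ) : ℂ := Complex.exp (2 * Real.pi * Complex.I * θ * y)

lemma two_pow_pos' (k : ℕ) : (0 : ℝ) < 2 ^ k := by positivity


lemma cell_eq_iff (k : ℕ) (x : ℝ) (j : ℤ) :
    cell k x = j ↔ (j / 2 ^ k : ℝ) ≤ x ∧ x < (j + 1) / 2 ^ k := by
  have h := two_pow_pos' k
  unfold cell
  rw [Int.floor_eq_iff, div_le_iff₀ h, lt_div_iff₀ h, mul_comm x]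

lemma cell_succ (k : ℕ) (x : ℝ) :
    cell (k + 1) x = 2 * cell k x + (if Int.fract ((2 : ℝ) ^ k * x) < 1 / 2 then 0 else 1) := by
  unfold cell
  set v : ℝ := 2 ^ k * x with hv
  have e : (2 : ℝ) ^ (k + 1) * x = 2 * v := by rw [hv, pow_succ]; ring
  rw [e]
  have h1 := Int.fract_add_floor v
  have h2 := Int.fract_nonneg v
  have h3 := Int.fract_lt_one v
  split_ifs with h
  · rw [Int.floor_eq_iff]; push_cast
    constructor <;> linarith
  · rw [Int.floor_eq_iff]; push_cast
    push Not at h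
    constructor <;> linarith

/-- left half and right half -/
lemma sg_eq_ite_cell (k : ℕ) (x : ℝ) :
    sg (2 ^ k * x) = if cell (k + 1) x = 2 * cell k x then 1 else -1 := by
  rw [cell_succ]
  unfold sg
  by_cases h : Int.fract ((2 : ℝ) ^ k * x) < 1 / 2 <;> simp

lemma ii_of_loc {g : ℝ → ℂ} (hg : LocallyIntegrable g volume) (a b : ℝ) :
    IntervalIntegrable g volume a b :=
  (hg.integrableOn_isCompact isCompact_uIcc).intervalIntegrable

/-- midpoint of the cell -/
lemma Av_succ_left {g : ℝ → ℂ} {k : ℕ} {x : ℝ} (h : cell (k + 1) x = 2 * cell k x) :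
    Av (k + 1) g x = 2 * ((2 : ℂ) ^ k *
      ∫ y in (cell k x / 2 ^ k : ℝ)..((cell k x + 1 / 2) / 2 ^ k : ℝ), g y) := by
  unfold Av
  rw [h]
  have h0 := two_pow_pos' k
  have e1 : (((2 * cell k x : ℤ) : ℝ) / 2 ^ (k + 1) : ℝ) = cell k x / 2 ^ k := by
    rw [pow_succ]; push_cast; field_simp
  have e2 : ((((2 * cell k x : ℤ) : ℝ) + 1) / 2 ^ (k + 1) : ℝ) = (cell k x + 1 / 2) / 2 ^ k := by
    rw [pow_succ]; push_cast; field_simp
  rw [e1, e2, pow_succ]; ring

lemma Av_succ_right {g : ℝ → ℂ} {k : ℕ} {x : ℝ} (h : cell (k + 1) x = 2 * cell k x + 1) :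
    Av (k + 1) g x = 2 * ((2 : ℂ) ^ k *
      ∫ y in ((cell k x + 1 / 2) / 2 ^ k : ℝ)..((cell k x + 1) / 2 ^ k : ℝ), g y) := by
  unfold Av
  rw [h]
  have h0 := two_pow_pos' k
  have e1 : (((2 * cell k x + 1 : ℤ) : ℝ) / 2 ^ (k + 1) : ℝ) = (cell k x + 1 / 2) / 2 ^ k := by
    rw [pow_succ]; push_cast; field_simp
  have e2 : ((((2 * cell k x + 1 : ℤ) : ℝ) + 1) / 2 ^ (k + 1) : ℝ) = (cell k x + 1) / 2 ^ k := by
    rw [pow_succ]; push_cast; field_simp; ring
  rw [e1, e2, pow_succ]; ring

lemma Av_split {g : ℝ → ℂ} (hg : LocallyIntegrable g volume) (k : ℕ) (x : ℝ) :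
    Av k g x = (2 : ℂ) ^ k * (∫ y in (cell k x / 2 ^ k : ℝ)..((cell k x + 1 / 2) / 2 ^ k : ℝ), g y) +
      (2 : ℂ) ^ k * ∫ y in ((cell k x + 1 / 2) / 2 ^ k : ℝ)..((cell k x + 1) / 2 ^ k : ℝ), g y := by
  unfold Av
  rw [← mul_add, intervalIntegral.integral_add_adjacent_intervals (ii_of_loc hg _ _)
    (ii_of_loc hg _ _)]

/-- the martingale difference as an integral against the Haar function -/
lemma D_eq {g : ℝ → ℂ} (hg : LocallyIntegrable g volume) (k : ℕ) (x : ℝ) :
    D k g x = (sg (2 ^ k * x) : ℂ) * ((2 : ℂ) ^ k *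
      ((∫ y in (cell k x / 2 ^ k : ℝ)..((cell k x + 1 / 2) / 2 ^ k : ℝ), g y) -
      ∫ y in ((cell k x + 1 / 2) / 2 ^ k : ℝ)..((cell k x + 1) / 2 ^ k : ℝ), g y)) := by
  unfold D
  rw [Av_split hg k x]
  by_cases h : Int.fract ((2 : ℝ) ^ k * x) < 1 / 2
  · have hc : cell (k + 1) x = 2 * cell k x := by rw [cell_succ, if_pos h, add_zero]
    have hs : sg (2 ^ k * x) = 1 := by unfold sg; rw [if_pos h]
    rw [Av_succ_left hc, hs]
    push_cast; ring
  · have hc : cell (k + 1) x = 2 * cell k x + 1 := by rw [cell_succ, if_neg h]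
    have hs : sg (2 ^ k * x) = -1 := by unfold sg; rw [if_neg h]
    rw [Av_succ_right hc, hs]
    push_cast; ring

/-- one scale as an integral operator with kernel `2^k q (2^k x) (2^k y)`. -/
lemma scale_eq {g : ℝ → ℂ} (hg : LocallyIntegrable g volume) (k : ℕ) (x : ℝ) :
    (sg (2 ^ (k + 1) * x) : ℂ) * D k g x =
      (2 : ℂ) ^ k * ∫ y, (q (2 ^ k * x) (2 ^ k * y) : ℂ) * g y := by
  have h0 := two_pow_pos' k
  have hsupp : (fun y => (q (2 ^ k * x) (2 ^ k * y) : ℂ) * g y) =
      (Ico (cell k x / 2 ^ k : ℝ) ((cell k x + 1) / 2 ^ k)).indicator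
        (fun y => ((sg (2 ^ k * x) * sg (2 * (2 ^ k * x)) * sg (2 ^ k * y) : ℝ) : ℂ) * g y) := by
    ext y
    by_cases hy : y ∈ Ico (cell k x / 2 ^ k : ℝ) ((cell k x + 1) / 2 ^ k)
    · rw [indicator_of_mem hy]
      have : cell k y = cell k x := (cell_eq_iff k y _).mpr hy
      have this' : ⌊(2 : ℝ) ^ k * x⌋ = ⌊(2 : ℝ) ^ k * y⌋ := this.symm
      unfold q
      rw [if_pos this']
    · rw [indicator_of_notMem hy]
      have : cell k y ≠ cell k x := fun h => hy ((cell_eq_iff k y _).mp h)
      have this' : ¬ ⌊(2 : ℝ) ^ k * x⌋ = ⌊(2 : ℝ) ^ k * y⌋ := fun h => this h.symm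
      unfold q
      rw [if_neg this']
      simp
  rw [hsupp, MeasureTheory.integral_indicator measurableSet_Ico, integral_Ico_eq_integral_Ioc,
    ← intervalIntegral.integral_of_le (by gcongr; linarith)]
  have hmid1 : (cell k x / 2 ^ k : ℝ) ≤ (cell k x + 1 / 2) / 2 ^ k := by gcongr; linarith
  have hmid2 : ((cell k x + 1 / 2) / 2 ^ k : ℝ) ≤ (cell k x + 1) / 2 ^ k := by gcongr; linarith
  have hii : ∀ a b : ℝ, IntervalIntegrable
      (fun y => ((sg (2 ^ k * x) * sg (2 * (2 ^ k * x)) * sg (2 ^ k * y) : ℝ) : ℂ) * g y)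
      volume a b := by
    intro a b
    refine (ii_of_loc hg a b).mono_fun ?_ (ae_of_all _ fun y => ?_)
    · refine AEStronglyMeasurable.mul ?_ (intervalIntegrable_iff.mp (ii_of_loc hg a b)).aestronglyMeasurable
      refine Measurable.aestronglyMeasurable ?_
      exact Complex.measurable_ofReal.comp (measurable_const.mul
        (measurable_sg.comp (measurable_const_mul _)))
    · simp only [norm_mul, Complex.norm_real, Real.norm_eq_abs, abs_mul, abs_sg, one_mul]
      exact le_rfl
  rw [← intervalIntegral.integral_add_adjacent_intervals (hii _ ((cell k x + 1 / 2) / 2 ^ k))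
    (hii _ _),
    integral_congr_Ioo (g := fun y => ((sg (2 ^ k * x) * sg (2 * (2 ^ k * x)) : ℝ) : ℂ) * g y) hmid1,
    integral_congr_Ioo (g := fun y => -(((sg (2 ^ k * x) * sg (2 * (2 ^ k * x)) : ℝ) : ℂ)) * g y)
      hmid2]
  · rw [intervalIntegral.integral_const_mul, intervalIntegral.integral_const_mul, D_eq hg,
      pow_succ' (2 : ℝ), mul_assoc (2 : ℝ)]
    push_cast
    ring
  · intro y hy
    have hs : sg (2 ^ k * y) = -1 := by
      have h1 : (cell k x : ℝ) + 1 / 2 < 2 ^ k * y := by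
        have := hy.1; rw [div_lt_iff₀ h0] at this; linarith
      have h2 : 2 ^ k * y < (cell k x : ℝ) + 1 := by
        have := hy.2; rw [lt_div_iff₀ h0] at this; linarith
      have h3 := sg_add_int (2 ^ k * y - cell k x) (cell k x)
      rw [sub_add_cancel] at h3
      rw [h3]
      exact sg_of_mem_right (by linarith) (by linarith)
    rw [hs]; push_cast; ring
  · intro y hy
    have hs : sg (2 ^ k * y) = 1 := by
      have h1 : (cell k x : ℝ) < 2 ^ k * y := by
        have := hy.1; rw [div_lt_iff₀ h0] at this; linarith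
      have h2 : 2 ^ k * y < (cell k x : ℝ) + 1 / 2 := by
        have := hy.2; rw [lt_div_iff₀ h0] at this; linarith
      have h3 := sg_add_int (2 ^ k * y - cell k x) (cell k x)
      rw [sub_add_cancel] at h3
      rw [h3]
      exact sg_of_mem_left (by linarith) (by linarith)
    rw [hs]; push_cast; ring

/-- averages of norms dominate norms of averages -/
lemma norm_Av_le {g : ℝ → ℂ} {B : ℝ} (hB : ∀ y, ‖g y‖ ≤ B) (k : ℕ) (x : ℝ) :
    ‖Av k g x‖ ≤ B := by
  unfold Av
  have h0 := two_pow_pos' k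
  rw [norm_mul, norm_pow, Complex.norm_ofNat]
  have h1 := intervalIntegral.norm_integral_le_of_norm_le_const
    (a := (cell k x / 2 ^ k : ℝ)) (b := ((cell k x + 1) / 2 ^ k : ℝ)) (fun y _ => hB y)
  have h2 : |((cell k x + 1) / 2 ^ k : ℝ) - cell k x / 2 ^ k| = 1 / 2 ^ k := by
    rw [← sub_div, add_sub_cancel_left, abs_of_pos (by positivity)]
  rw [h2] at h1
  calc 2 ^ k * ‖∫ y in (cell k x / 2 ^ k : ℝ)..((cell k x + 1) / 2 ^ k : ℝ), g y‖
      ≤ 2 ^ k * (B * (1 / 2 ^ k)) := by gcongr
    _ = B := by field_simp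

lemma norm_ee (θ y : ℝ) : ‖ee θ y‖ = 1 := by
  unfold ee
  rw [show (2 * Real.pi * Complex.I * θ * y : ℂ) = ((2 * Real.pi * θ * y : ℝ) : ℂ) * Complex.I by
    push_cast; ring]
  exact Complex.norm_exp_ofReal_mul_I _

lemma ee_add (θ y z : ℝ) : ee θ (y + z) = ee θ y * ee θ z := by
  unfold ee
  rw [← Complex.exp_add]; congr 1; push_cast; ring

lemma continuous_ee (θ : ℝ) : Continuous (ee θ) := by
  unfold ee; fun_prop

end Crest.Agent.R100.Haar403
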