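import Crest.Agent.R100.Wide_933

-- ▼ part R100/WideTops_933
section

/-!
# R100 / S0132, helper933: selection of the wide tops and their Bessel inequality
-/

set_option autoImplicit false

open MeasureTheory Set
open scoped ENNReal

noncomputable section

namespace Crest.Agent.R100.Wide933

open Crest.Agent.R100.Mart933

/-! ## selection -/

/-- existence of a maximal separated set of candidates within the budget -/
theorem exists_pick (A cand : Finset ℝ) (B k : ℕ) (hA : A.card ≤ B) :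
    ∃ N : Finset ℝ, N ⊆ cand ∧ (∀ θ ∈ N, ∀ θ' ∈ N, θ ≠ θ' → (B : ℝ) * 2 ^ k < |θ' - θ|) ∧
      (A ∪ N).card ≤ B ∧
      ((A ∪ N).card < B → ∀ θ ∈ cand, ∃ θ' ∈ N, |θ - θ'| ≤ B * 2 ^ k) := by
  classical
  set P : Finset (Finset ℝ) := cand.powerset.filter fun N =>
    (∀ θ ∈ N, ∀ θ' ∈ N, θ ≠ θ' → (B : ℝ) * 2 ^ k < |θ' - θ|) ∧ (A ∪ N).card ≤ B with hP
  have hne : P.Nonempty := ⟨∅, by
    rw [hP, Finset.mem_filter]
    simp [hA]⟩
  obtain ⟨N, hN, hmax⟩ := Finset.exists_max_image P Finset.card hne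
  rw [hP, Finset.mem_filter, Finset.mem_powerset] at hN
  obtain ⟨h1, h2, h3⟩ := hN
  refine ⟨N, h1, h2, h3, ?_⟩
  intro hlt θ hθ
  by_contra hcon
  push Not at hcon
  have hnot : θ ∉ N := by
    intro h
    have := hcon θ h
    rw [sub_self, abs_zero] at this
    have h0 : (0 : ℝ) ≤ B * 2 ^ k := by positivity
    linarith
  have hins : insert θ N ∈ P := by
    rw [hP, Finset.mem_filter, Finset.mem_powerset]
    refine ⟨Finset.insert_subset hθ h1, ?_, ?_⟩
    · intro a ha b hb hab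
      rw [Finset.mem_insert] at ha hb
      rcases ha with rfl | ha <;> rcases hb with rfl | hb
      · exact absurd rfl hab
      · rw [abs_sub_comm]; exact hcon b hb
      · exact hcon a ha
      · exact h2 a ha b hb hab
    · rw [Finset.union_insert]
      exact (Finset.card_insert_le _ _).trans (by omega)
  have := hmax _ hins
  rw [Finset.card_insert_of_notMem hnot] at this
  omega

open Classical in
/-- the chosen set -/
def pick (A cand : Finset ℝ) (B k : ℕ) : Finset ℝ :=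
  if h : A.card ≤ B then Classical.choose (exists_pick A cand B k h) else ∅

theorem pick_spec {A cand : Finset ℝ} {B : ℕ} (k : ℕ) (hA : A.card ≤ B) :
    pick A cand B k ⊆ cand ∧
      (∀ θ ∈ pick A cand B k, ∀ θ' ∈ pick A cand B k, θ ≠ θ' → (B : ℝ) * 2 ^ k < |θ' - θ|) ∧
      (A ∪ pick A cand B k).card ≤ B ∧
      ((A ∪ pick A cand B k).card < B → ∀ θ ∈ cand, ∃ θ' ∈ pick A cand B k, |θ - θ'| ≤ B * 2 ^ k) := by
  unfold pick
  rw [dif_pos hA]
  exact Classical.choose_spec (exists_pick A cand B k hA)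

open Classical in
/-- candidates at a node -/
def cand (Θ : Finset ℝ) (H : ℕ → ℤ → ℝ → Prop) (B k : ℕ) (j : ℤ) (A : Finset ℝ) : Finset ℝ :=
  Θ.filter fun θ => H k j θ ∧ ∀ θ' ∈ A, (B : ℝ) * 2 ^ k < |θ - θ'|

open Classical in
/-- frequencies of the tops above (or at) a node -/
def up (Θ : Finset ℝ) (H : ℕ → ℤ → ℝ → Prop) (B : ℕ) : ℕ → ℤ → Finset ℝ
  | 0, j => ∅ ∪ pick ∅ (cand Θ H B 0 j ∅) B 0
  | k + 1, j => up Θ H B k (j / 2) ∪
      pick (up Θ H B k (j / 2)) (cand Θ H B (k + 1) j (up Θ H B k (j / 2))) B (k + 1)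

/-- frequencies of the tops strictly above a node -/
def par (Θ : Finset ℝ) (H : ℕ → ℤ → ℝ → Prop) (B : ℕ) : ℕ → ℤ → Finset ℝ
  | 0, _ => ∅
  | k + 1, j => up Θ H B k (j / 2)

/-- frequencies of the tops at a node -/
def nw (Θ : Finset ℝ) (H : ℕ → ℤ → ℝ → Prop) (B : ℕ) (k : ℕ) (j : ℤ) : Finset ℝ :=
  pick (par Θ H B k j) (cand Θ H B k j (par Θ H B k j)) B k

variable {Θ : Finset ℝ} {H : ℕ → ℤ → ℝ → Prop} {B : ℕ}

open Classical in
theorem up_eq (k : ℕ) (j : ℤ) : up Θ H B k j = par Θ H B k j ∪ nw Θ H B k j := by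
  cases k <;> rfl

theorem card_up_le (k : ℕ) : ∀ j : ℤ, (up Θ H B k j).card ≤ B := by
  classical
  induction k with
  | zero =>
    intro j
    exact (pick_spec (A := ∅) 0 (by simp)).2.2.1
  | succ k ih =>
    intro j
    exact (pick_spec (k + 1) (ih (j / 2))).2.2.1

theorem card_par_le (k : ℕ) (j : ℤ) : (par Θ H B k j).card ≤ B := by
  cases k with
  | zero => simp [par]
  | succ k => exact card_up_le k _

theorem mem_nw {k : ℕ} {j : ℤ} {θ : ℝ} (h : θ ∈ nw Θ H B k j) :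
    θ ∈ Θ ∧ H k j θ ∧ ∀ θ' ∈ par Θ H B k j, (B : ℝ) * 2 ^ k < |θ - θ'| := by
  classical
  have := (pick_spec (cand := cand Θ H B k j (par Θ H B k j)) k (card_par_le k j)).1 h
  unfold cand at this
  rw [Finset.mem_filter] at this
  exact this

theorem sep_nw (k : ℕ) (j : ℤ) :
    ∀ θ ∈ nw Θ H B k j, ∀ θ' ∈ nw Θ H B k j, θ ≠ θ' → (B : ℝ) * 2 ^ k < |θ' - θ| :=
  (pick_spec (cand := cand Θ H B k j (par Θ H B k j)) k (card_par_le k j)).2.1

theorem disj_nw (k : ℕ) (j : ℤ) : Disjoint (par Θ H B k j) (nw Θ H B k j) := by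
  rw [Finset.disjoint_left]
  intro θ h1 h2
  have := (mem_nw h2).2.2 θ h1
  rw [sub_self, abs_zero] at this
  have h0 : (0 : ℝ) ≤ B * 2 ^ k := by positivity
  linarith

theorem card_up (k : ℕ) (j : ℤ) :
    (up Θ H B k j).card = (par Θ H B k j).card + (nw Θ H B k j).card := by
  classical
  rw [up_eq, Finset.card_union_of_disjoint (disj_nw k j)]

theorem up_mono {k : ℕ} {j : ℤ} : up Θ H B k (j / 2) ⊆ up Θ H B (k + 1) j := by
  classical
  rw [up_eq (k + 1) j]
  exact Finset.subset_union_left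

theorem up_mono_fl {k l : ℕ} (h : k ≤ l) (x : ℝ) : up Θ H B k (fl k x) ⊆ up Θ H B l (fl l x) := by
  induction l, h using Nat.le_induction with
  | base => exact subset_rfl
  | succ l _ ih =>
    refine ih.trans ?_
    rw [fl_half l x]
    exact up_mono

/-- every element of `up` comes from a top at some ancestor -/
theorem exists_nw {k : ℕ} {x : ℝ} {θ : ℝ} (h : θ ∈ up Θ H B k (fl k x)) :
    ∃ l ≤ k, θ ∈ nw Θ H B l (fl l x) := by
  classical
  induction k with
  | zero =>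
    rw [up_eq, Finset.mem_union] at h
    rcases h with h | h
    · simp [par] at h
    · exact ⟨0, le_rfl, h⟩
  | succ k ih =>
    rw [up_eq, Finset.mem_union] at h
    rcases h with h | h
    · simp only [par] at h
      rw [← fl_half] at h
      obtain ⟨l, hl, h'⟩ := ih h
      exact ⟨l, by omega, h'⟩
    · exact ⟨k + 1, le_rfl, h⟩

/-- exhaustion: heavy frequencies are close to a top when the budget is not used up -/
theorem exhaust {k : ℕ} {j : ℤ} (hc : (up Θ H B k j).card < B) {θ : ℝ} (hθ : θ ∈ Θ)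
    (hH : H k j θ) : ∃ θ' ∈ up Θ H B k j, |θ - θ'| ≤ B * 2 ^ k := by
  classical
  by_cases hA : ∀ θ' ∈ par Θ H B k j, (B : ℝ) * 2 ^ k < |θ - θ'|
  · have hmem : θ ∈ cand Θ H B k j (par Θ H B k j) := by
      unfold cand
      rw [Finset.mem_filter]
      exact ⟨hθ, hH, hA⟩
    have hs := (pick_spec (A := par Θ H B k j) (B := B)
      (cand := cand Θ H B k j (par Θ H B k j)) k (card_par_le k j)).2.2.2
    rw [up_eq] at hc
    obtain ⟨θ', h1, h2⟩ := hs hc θ hmem
    refine ⟨θ', ?_, h2⟩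
    rw [up_eq, Finset.mem_union]
    exact Or.inr h1
  · push Not at hA
    obtain ⟨θ', h1, h2⟩ := hA
    refine ⟨θ', ?_, h2⟩
    rw [up_eq, Finset.mem_union]
    exact Or.inl h1

/-! ## from nodes to a cell -/

/-- an inequality of integrals over all the nodes of a level passes to the larger nodes -/
theorem node_to_root {F F' : ℝ → ℝ} (hF : ∀ k j, IntegrableOn F (Ivl k j))
    (hF' : ∀ k j, IntegrableOn F' (Ivl k j)) (d : ℕ) : ∀ l : ℕ,
    (∀ j, ∫ x in Ivl (l + d) j, F x ≤ ∫ x in Ivl (l + d) j, F' x) →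
    ∀ j, ∫ x in Ivl l j, F x ≤ ∫ x in Ivl l j, F' x := by
  induction d with
  | zero => intro l h j; exact h j
  | succ d ih =>
    intro l h j
    have h' := ih (l + 1) (by
      intro j
      have e : l + 1 + d = l + (d + 1) := by omega
      rw [e]
      exact h j)
    rw [integral_Ivl hF, integral_Ivl hF']
    exact add_le_add (h' _) (h' _)

theorem node_to_root_meas {P : ℝ → Prop} {g : ℝ → ℝ≥0∞} (d : ℕ) : ∀ l : ℕ,
    (∀ j, volume {x ∈ Ivl (l + d) j | P x} ≤ ∫⁻ x in Ivl (l + d) j, g x) →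
    ∀ j, volume {x ∈ Ivl l j | P x} ≤ ∫⁻ x in Ivl l j, g x := by
  induction d with
  | zero => intro l h j; exact h j
  | succ d ih =>
    intro l h j
    have h' := ih (l + 1) (by
      intro j
      have e : l + 1 + d = l + (d + 1) := by omega
      rw [e]
      exact h j)
    rw [lintegral_Ivl]
    have hsub : {x ∈ Ivl l j | P x} ⊆
        {x ∈ Ivl (l + 1) (2 * j) | P x} ∪ {x ∈ Ivl (l + 1) (2 * j + 1) | P x} := by
      rintro x ⟨hx, hx'⟩
      rw [Ivl_split] at hx
      rcases hx with hx | hx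
      · left; exact ⟨hx, hx'⟩
      · right; exact ⟨hx, hx'⟩
    exact (measure_mono hsub).trans ((measure_union_le _ _).trans (add_le_add (h' _) (h' _)))

/-! ## the test function -/

variable (Θ H B) in
open Classical in
/-- coefficients attached to the tops above a node -/
def cc (ph : ℕ → ℤ → ℝ → ℂ) : ℕ → ℤ → ℝ → ℂ
  | 0, j, θ => ph 0 j θ
  | k + 1, j, θ => if θ ∈ up Θ H B k (j / 2) then cc ph k (j / 2) θ else ph (k + 1) j θ

variable (Θ H B) in
/-- coefficients attached to the tops strictly above a node -/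
def pc (ph : ℕ → ℤ → ℝ → ℂ) : ℕ → ℤ → ℝ → ℂ
  | 0, _, _ => 0
  | k + 1, j, θ => cc Θ H B ph k (j / 2) θ

theorem norm_cc_le {ph : ℕ → ℤ → ℝ → ℂ} (hph : ∀ k j θ, ‖ph k j θ‖ ≤ 1) (k : ℕ) :
    ∀ (j : ℤ) (θ : ℝ), ‖cc Θ H B ph k j θ‖ ≤ 1 := by
  classical
  induction k with
  | zero => intro j θ; exact hph _ _ _
  | succ k ih =>
    intro j θ
    simp only [cc]
    split_ifs
    · exact ih _ _
    · exact hph _ _ _

theorem norm_pc_le {ph : ℕ → ℤ → ℝ → ℂ} (hph : ∀ k j θ, ‖ph k j θ‖ ≤ 1) (k : ℕ) (j : ℤ) (θ : ℝ) :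
    ‖pc Θ H B ph k j θ‖ ≤ 1 := by
  cases k with
  | zero => simp [pc]
  | succ k => exact norm_cc_le hph k _ _

theorem xs_split (ph : ℕ → ℤ → ℝ → ℂ) (k : ℕ) (j : ℤ) (x : ℝ) :
    xs (up Θ H B k j) (cc Θ H B ph k j) x =
      xs (par Θ H B k j) (pc Θ H B ph k j) x + xs (nw Θ H B k j) (ph k j) x := by
  classical
  unfold xs
  rw [up_eq, Finset.sum_union (disj_nw k j)]
  congr 1
  · refine Finset.sum_congr rfl fun θ hθ => ?_
    cases k with
    | zero => simp [par] at hθ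
    | succ k =>
      simp only [par] at hθ
      simp only [cc, pc, hθ, if_true]
  · refine Finset.sum_congr rfl fun θ hθ => ?_
    cases k with
    | zero => rfl
    | succ k =>
      have : θ ∉ up Θ H B k (j / 2) := fun h =>
        (Finset.disjoint_left.1 (disj_nw (Θ := Θ) (H := H) (B := B) (k + 1) j)) h hθ
      simp only [cc, this, if_false]

theorem measurable_node {γ : Type*} [MeasurableSpace γ] (k : ℕ) {g : ℤ → ℝ → γ}
    (hg : ∀ j, Measurable (g j)) : Measurable fun x => g (fl k x) x := by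
  have h : Measurable fun p : ℤ × ℝ => g p.1 p.2 := measurable_from_prod_countable_right hg
  exact h.comp ((measurable_fl k).prodMk measurable_id)

/-- node step of the `L²` bound -/
theorem node_L2 (hB : 0 < B) {ph : ℕ → ℤ → ℝ → ℂ} (hph : ∀ k j θ, ‖ph k j θ‖ ≤ 1)
    (k : ℕ) (j : ℤ) :
    ∫ x in Ivl k j, ‖xs (up Θ H B k j) (cc Θ H B ph k j) x‖ ^ 2 ≤
      (∫ x in Ivl k j, ‖xs (par Θ H B k j) (pc Θ H B ph k j) x‖ ^ 2) +
        2 * (nw Θ H B k j).card * (1 / 2 ^ k) := by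
  set P : ℝ → ℂ := xs (par Θ H B k j) (pc Θ H B ph k j) with hP
  set Q : ℝ → ℂ := xs (nw Θ H B k j) (ph k j) with hQ
  have hPm : Measurable P := measurable_xs _ _
  have hQm : Measurable Q := measurable_xs _ _
  have hPb := norm_xs_le (par Θ H B k j) (norm_pc_le (Θ := Θ) (H := H) (B := B) hph k j)
  have hQb := norm_xs_le (nw Θ H B k j) (hph k j)
  have iPQ : IntegrableOn (fun x => (starRingEnd ℂ) (P x) * Q x) (Ivl k j) :=
    integrable_xs_mul _ _ (norm_pc_le hph k j) (hph k j) k j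
  have iQQ : IntegrableOn (fun x => (starRingEnd ℂ) (Q x) * Q x) (Ivl k j) :=
    integrable_xs_mul _ _ (hph k j) (hph k j) k j
  have iP2 : IntegrableOn (fun x => ‖P x‖ ^ 2) (Ivl k j) := by
    apply intOn k j (hPm.norm.pow_const 2) (M := ((par Θ H B k j).card : ℝ) ^ 2)
    intro x
    rw [Real.norm_eq_abs, abs_of_nonneg (by positivity)]
    have := hPb x
    gcongr
  have hpt : ∀ x, ‖xs (up Θ H B k j) (cc Θ H B ph k j) x‖ ^ 2 =
      ‖P x‖ ^ 2 + (2 * ((starRingEnd ℂ) (P x) * Q x).re + ((starRingEnd ℂ) (Q x) * Q x).re) := by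
    intro x
    rw [xs_split]
    change ‖P x + Q x‖ ^ 2 = _
    rw [← Complex.normSq_eq_norm_sq, ← Complex.normSq_eq_norm_sq, Complex.normSq_add]
    have h1 : ((starRingEnd ℂ) (Q x) * Q x).re = Complex.normSq (Q x) := by
      rw [mul_comm, Complex.mul_conj]; simp
    have h2 : ((starRingEnd ℂ) (P x) * Q x).re = (P x * (starRingEnd ℂ) (Q x)).re := by
      simp only [Complex.mul_re, Complex.conj_re, Complex.conj_im]
      ring
    rw [h1, h2]
    ring
  simp_rw [hpt]
  have iRe1 : IntegrableOn (fun x => 2 * ((starRingEnd ℂ) (P x) * Q x).re) (Ivl k j) :=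
    (iPQ.re).const_mul 2
  have iRe2 : IntegrableOn (fun x => ((starRingEnd ℂ) (Q x) * Q x).re) (Ivl k j) := iQQ.re
  have iSum : IntegrableOn (fun x => 2 * ((starRingEnd ℂ) (P x) * Q x).re +
      ((starRingEnd ℂ) (Q x) * Q x).re) (Ivl k j) := iRe1.add iRe2
  rw [integral_add iP2 iSum, integral_add iRe1 iRe2, integral_const_mul]
  have e1 : (∫ x in Ivl k j, ((starRingEnd ℂ) (P x) * Q x).re) =
      (∫ x in Ivl k j, (starRingEnd ℂ) (P x) * Q x).re := integral_re iPQ
  have e2 : (∫ x in Ivl k j, ((starRingEnd ℂ) (Q x) * Q x).re) =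
      (∫ x in Ivl k j, (starRingEnd ℂ) (Q x) * Q x).re := integral_re iQQ
  rw [e1, e2]
  have hBR : (0 : ℝ) < B := by exact_mod_cast hB
  have b1 := norm_cross_le (par Θ H B k j) (nw Θ H B k j)
    (norm_pc_le (Θ := Θ) (H := H) (B := B) hph k j) (hph k j) hBR k j
    (fun θ hθ θ' hθ' => (mem_nw hθ').2.2 θ hθ)
  have b2 := norm_self_le (nw Θ H B k j) (hph k j) hBR k j (sep_nw k j)
  have b1' := (Complex.re_le_norm (∫ x in Ivl k j, (starRingEnd ℂ) (P x) * Q x)).trans b1
  have b2' := (Complex.re_le_norm (∫ x in Ivl k j, (starRingEnd ℂ) (Q x) * Q x)).trans b2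
  set p : ℝ := ((par Θ H B k j).card : ℝ) with hp
  set q : ℝ := ((nw Θ H B k j).card : ℝ) with hq
  have hp0 : 0 ≤ p := by positivity
  have hq0 : 0 ≤ q := by positivity
  have hpq : p + q ≤ B := by
    have h := card_up_le (Θ := Θ) (H := H) (B := B) k j
    rw [card_up] at h
    rw [hp, hq]
    exact_mod_cast h
  have hpi := Real.pi_pos
  have hpi3 := Real.pi_gt_three
  set w : ℝ := 1 / 2 ^ k with hw
  have hw0 : 0 < w := by positivity
  have e3 : 1 / (Real.pi * B) / 2 ^ k = 1 / (Real.pi * B) * w := by rw [hw]; ring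
  rw [e3] at b1' b2'
  have hkey : 2 * (p * q * (1 / (Real.pi * B) * w)) + (q * w + q * q * (1 / (Real.pi * B) * w)) ≤
      2 * q * w := by
    have h1 : 2 * p + q ≤ 2 * B := by linarith
    have h2 : (2 * p + q) * (1 / (Real.pi * B)) ≤ 1 := by
      calc (2 * p + q) * (1 / (Real.pi * B)) ≤ (2 * B) * (1 / (Real.pi * B)) := by gcongr
        _ = 2 / Real.pi := by field_simp
        _ ≤ 1 := by
          rw [div_le_one hpi]; linarith
    have h3 : (q * w) * ((2 * p + q) * (1 / (Real.pi * B))) ≤ (q * w) * 1 :=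
      mul_le_mul_of_nonneg_left h2 (by positivity)
    nlinarith
  linarith

/-- node step of the pairing -/
theorem node_pair {f : ℝ → ℂ} (hf : Measurable f) {M : ℝ} (hM : ∀ x, ‖f x‖ ≤ M)
    {ph : ℕ → ℤ → ℝ → ℂ} (hph : ∀ k j θ, ‖ph k j θ‖ ≤ 1) {δ : ℝ}
    (hph' : ∀ k j θ, H k j θ → δ ≤ ((starRingEnd ℂ) (ph k j θ) * coef f θ k j).re)
    (k : ℕ) (j : ℤ) :
    (∫ x in Ivl k j, (f x * (starRingEnd ℂ) (xs (par Θ H B k j) (pc Θ H B ph k j) x)).re) +
        δ * (nw Θ H B k j).card * (1 / 2 ^ k) ≤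
      ∫ x in Ivl k j, (f x * (starRingEnd ℂ) (xs (up Θ H B k j) (cc Θ H B ph k j) x)).re := by
  set P : ℝ → ℂ := xs (par Θ H B k j) (pc Θ H B ph k j) with hP
  set N := nw Θ H B k j with hN
  have hM0 : 0 ≤ M := (norm_nonneg _).trans (hM 0)
  have iP : IntegrableOn (fun x => f x * (starRingEnd ℂ) (P x)) (Ivl k j) := by
    apply intOn k j (M := M * (par Θ H B k j).card)
    · exact hf.mul (Complex.continuous_conj.measurable.comp (measurable_xs _ _))
    · intro x
      rw [norm_mul, RCLike.norm_conj]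
      exact mul_le_mul (hM x) (norm_xs_le _ (norm_pc_le hph k j) x) (norm_nonneg _) hM0
  have iQ : IntegrableOn (fun x => f x * (starRingEnd ℂ) (xs N (ph k j) x)) (Ivl k j) := by
    apply intOn k j (M := M * N.card)
    · exact hf.mul (Complex.continuous_conj.measurable.comp (measurable_xs _ _))
    · intro x
      rw [norm_mul, RCLike.norm_conj]
      exact mul_le_mul (hM x) (norm_xs_le _ (hph k j) x) (norm_nonneg _) hM0
  have hpt : ∀ x, (f x * (starRingEnd ℂ) (xs (up Θ H B k j) (cc Θ H B ph k j) x)).re =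
      (f x * (starRingEnd ℂ) (P x)).re + (f x * (starRingEnd ℂ) (xs N (ph k j) x)).re := by
    intro x
    rw [xs_split, map_add, mul_add, Complex.add_re]
  simp_rw [hpt]
  have iPre : IntegrableOn (fun x => (f x * (starRingEnd ℂ) (P x)).re) (Ivl k j) := iP.re
  have iQre : IntegrableOn (fun x => (f x * (starRingEnd ℂ) (xs N (ph k j) x)).re) (Ivl k j) :=
    iQ.re
  rw [integral_add iPre iQre]
  have e2 : (∫ x in Ivl k j, (f x * (starRingEnd ℂ) (xs N (ph k j) x)).re) =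
      (∫ x in Ivl k j, f x * (starRingEnd ℂ) (xs N (ph k j) x)).re := integral_re iQ
  have e3 : (∫ x in Ivl k j, f x * (starRingEnd ℂ) (xs N (ph k j) x)) =
      ∑ θ ∈ N, (starRingEnd ℂ) (ph k j θ) * ∫ x in Ivl k j, f x * e (-θ) x := by
    have h1 : ∀ x, f x * (starRingEnd ℂ) (xs N (ph k j) x) =
        ∑ θ ∈ N, (starRingEnd ℂ) (ph k j θ) * (f x * e (-θ) x) := by
      intro x
      unfold xs
      rw [map_sum, Finset.mul_sum]
      refine Finset.sum_congr rfl fun θ _ => ?_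
      rw [map_mul, conj_e]
      ring
    simp_rw [h1]
    rw [integral_finsetSum _ (fun θ _ => (integrable_fe hf hM (-θ) k j).const_mul _)]
    refine Finset.sum_congr rfl fun θ _ => ?_
    rw [integral_const_mul]
  have e4 : δ * N.card * (1 / 2 ^ k) ≤
      (∑ θ ∈ N, (starRingEnd ℂ) (ph k j θ) * ∫ x in Ivl k j, f x * e (-θ) x).re := by
    rw [Complex.re_sum]
    have h2 : ∀ θ ∈ N, δ * (1 / 2 ^ k) ≤
        ((starRingEnd ℂ) (ph k j θ) * ∫ x in Ivl k j, f x * e (-θ) x).re := by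
      intro θ hθ
      have hH := (mem_nw hθ).2.1
      have h3 := hph' k j θ hH
      unfold coef at h3
      have h4 : (starRingEnd ℂ) (ph k j θ) * ((2 : ℂ) ^ k * ∫ y in Ivl k j, f y * e (-θ) y) =
          ((2 ^ k : ℝ) : ℂ) * ((starRingEnd ℂ) (ph k j θ) * ∫ y in Ivl k j, f y * e (-θ) y) := by
        push_cast; ring
      rw [h4, Complex.re_ofReal_mul] at h3
      have h5 : (0 : ℝ) < 2 ^ k := by positivity
      rw [mul_one_div, div_le_iff₀ h5]
      linarith
    calc δ * N.card * (1 / 2 ^ k) = ∑ _θ ∈ N, δ * (1 / 2 ^ k) := by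
          rw [Finset.sum_const, nsmul_eq_mul]; ring
      _ ≤ _ := Finset.sum_le_sum h2
  rw [e2, e3]
  linarith

/-- the number of tops above a point -/
def cnt (Θ : Finset ℝ) (H : ℕ → ℤ → ℝ → Prop) (B : ℕ) (k : ℕ) (x : ℝ) : ℝ :=
  (up Θ H B k (fl k x)).card

theorem measurable_cnt (k : ℕ) : Measurable (cnt Θ H B k) :=
  measurable_fl_comp k (fun j => ((up Θ H B k j).card : ℝ))

theorem cnt_nonneg (k : ℕ) (x : ℝ) : 0 ≤ cnt Θ H B k x := by
  unfold cnt; positivity

theorem cnt_le (k : ℕ) (x : ℝ) : cnt Θ H B k x ≤ B := by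
  unfold cnt
  exact_mod_cast card_up_le k _

theorem intOn_cnt (k l : ℕ) (j : ℤ) : IntegrableOn (cnt Θ H B k) (Ivl l j) := by
  apply intOn l j (measurable_cnt k) (M := B)
  intro x
  rw [Real.norm_eq_abs, abs_of_nonneg (cnt_nonneg k x)]
  exact cnt_le k x

variable (Θ H B) in
/-- the test function -/
def Gx (ph : ℕ → ℤ → ℝ → ℂ) (k : ℕ) (x : ℝ) : ℂ :=
  xs (up Θ H B k (fl k x)) (cc Θ H B ph k (fl k x)) x

theorem measurable_Gx (ph : ℕ → ℤ → ℝ → ℂ) (k : ℕ) : Measurable (Gx Θ H B ph k) :=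
  measurable_node k (g := fun j => xs (up Θ H B k j) (cc Θ H B ph k j)) fun _ => measurable_xs _ _

theorem norm_Gx_le {ph : ℕ → ℤ → ℝ → ℂ} (hph : ∀ k j θ, ‖ph k j θ‖ ≤ 1) (k : ℕ) (x : ℝ) :
    ‖Gx Θ H B ph k x‖ ≤ B := by
  unfold Gx
  refine (norm_xs_le _ (norm_cc_le hph k _) x).trans ?_
  exact_mod_cast card_up_le k _

/-- **`L²` bound of the test function** -/
theorem L2_Gx (hB : 0 < B) {ph : ℕ → ℤ → ℝ → ℂ} (hph : ∀ k j θ, ‖ph k j θ‖ ≤ 1) (i : ℤ) (k : ℕ) :
    ∫ x in Ivl 0 i, ‖Gx Θ H B ph k x‖ ^ 2 ≤ 2 * ∫ x in Ivl 0 i, cnt Θ H B k x := by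
  have iG : ∀ k l j, IntegrableOn (fun x => ‖Gx Θ H B ph k x‖ ^ 2) (Ivl l j) := by
    intro k l j
    apply intOn l j ((measurable_Gx ph k).norm.pow_const 2) (M := (B : ℝ) ^ 2)
    intro x
    rw [Real.norm_eq_abs, abs_of_nonneg (by positivity)]
    have := norm_Gx_le (Θ := Θ) (H := H) (B := B) hph k x
    gcongr
  induction k with
  | zero =>
    have h := node_L2 (Θ := Θ) (H := H) hB hph 0 i
    have e1 : ∫ x in Ivl 0 i, ‖Gx Θ H B ph 0 x‖ ^ 2 =
        ∫ x in Ivl 0 i, ‖xs (up Θ H B 0 i) (cc Θ H B ph 0 i) x‖ ^ 2 := by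
      apply setIntegral_congr_fun (measurableSet_Ivl _ _)
      intro x hx
      rw [mem_Ivl] at hx
      simp only [Gx, hx]
    have e2 : ∫ x in Ivl 0 i, cnt Θ H B 0 x = (nw Θ H B 0 i).card := by
      have : ∀ x ∈ Ivl 0 i, cnt Θ H B 0 x = (nw Θ H B 0 i).card := by
        intro x hx
        rw [mem_Ivl] at hx
        simp only [cnt, hx, card_up]
        simp [par]
      rw [setIntegral_congr_fun (measurableSet_Ivl _ _) this]
      simp [volume_real_Ivl]
    rw [e1, e2]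
    refine h.trans ?_
    simp [par, xs]
  | succ k ih =>
    have key : ∫ x in Ivl 0 i, (‖Gx Θ H B ph (k + 1) x‖ ^ 2 - 2 * cnt Θ H B (k + 1) x) ≤
        ∫ x in Ivl 0 i, (‖Gx Θ H B ph k x‖ ^ 2 - 2 * cnt Θ H B k x) := by
      apply node_to_root (fun l j => (iG (k + 1) l j).sub ((intOn_cnt (k + 1) l j).const_mul 2))
        (fun l j => (iG k l j).sub ((intOn_cnt k l j).const_mul 2)) (k + 1) 0
      intro j
      rw [Nat.zero_add]
      have h := node_L2 (Θ := Θ) (H := H) hB hph (k + 1) j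
      have e1 : ∫ x in Ivl (k + 1) j, ‖Gx Θ H B ph (k + 1) x‖ ^ 2 =
          ∫ x in Ivl (k + 1) j, ‖xs (up Θ H B (k + 1) j) (cc Θ H B ph (k + 1) j) x‖ ^ 2 := by
        apply setIntegral_congr_fun (measurableSet_Ivl _ _)
        intro x hx
        rw [mem_Ivl] at hx
        simp only [Gx, hx]
      have e2 : ∫ x in Ivl (k + 1) j, ‖Gx Θ H B ph k x‖ ^ 2 =
          ∫ x in Ivl (k + 1) j, ‖xs (par Θ H B (k + 1) j) (pc Θ H B ph (k + 1) j) x‖ ^ 2 := by
        apply setIntegral_congr_fun (measurableSet_Ivl _ _)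
        intro x hx
        rw [mem_Ivl] at hx
        simp only [Gx, par, fl_half k x, hx]
        rfl
      have e3 : ∫ x in Ivl (k + 1) j, cnt Θ H B (k + 1) x =
          (∫ x in Ivl (k + 1) j, cnt Θ H B k x) + (nw Θ H B (k + 1) j).card * (1 / 2 ^ (k + 1)) := by
        have h1 : ∀ x ∈ Ivl (k + 1) j, cnt Θ H B (k + 1) x =
            (par Θ H B (k + 1) j).card + (nw Θ H B (k + 1) j).card := by
          intro x hx
          rw [mem_Ivl] at hx
          simp only [cnt, hx, card_up]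
          push_cast; ring
        have h2 : ∀ x ∈ Ivl (k + 1) j, cnt Θ H B k x = (par Θ H B (k + 1) j).card := by
          intro x hx
          rw [mem_Ivl] at hx
          simp only [cnt, par, fl_half k x, hx]
        rw [setIntegral_congr_fun (measurableSet_Ivl _ _) h1,
          setIntegral_congr_fun (measurableSet_Ivl _ _) h2, setIntegral_const, setIntegral_const,
          volume_real_Ivl]
        simp only [smul_eq_mul]
        ring
      simp only [Pi.sub_apply]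
      rw [integral_sub (iG (k + 1) (k + 1) j) ((intOn_cnt (k + 1) (k + 1) j).const_mul 2),
        integral_sub (iG k (k + 1) j) ((intOn_cnt k (k + 1) j).const_mul 2), integral_const_mul,
        integral_const_mul, e1, e2, e3]
      linarith
    rw [integral_sub (iG (k + 1) 0 i) ((intOn_cnt (k + 1) 0 i).const_mul 2),
      integral_sub (iG k 0 i) ((intOn_cnt k 0 i).const_mul 2), integral_const_mul,
      integral_const_mul] at key
    linarith

/-- **pairing bound** -/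
theorem pair_Gx {f : ℝ → ℂ} (hf : Measurable f) {M : ℝ} (hM : ∀ x, ‖f x‖ ≤ M)
    {ph : ℕ → ℤ → ℝ → ℂ} (hph : ∀ k j θ, ‖ph k j θ‖ ≤ 1) {δ : ℝ}
    (hph' : ∀ k j θ, H k j θ → δ ≤ ((starRingEnd ℂ) (ph k j θ) * coef f θ k j).re)
    (i : ℤ) (k : ℕ) :
    δ * ∫ x in Ivl 0 i, cnt Θ H B k x ≤
      ∫ x in Ivl 0 i, (f x * (starRingEnd ℂ) (Gx Θ H B ph k x)).re := by
  have hM0 : 0 ≤ M := (norm_nonneg _).trans (hM 0)
  have iG : ∀ k l j, IntegrableOn (fun x => (f x * (starRingEnd ℂ) (Gx Θ H B ph k x)).re)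
      (Ivl l j) := by
    intro k l j
    have : IntegrableOn (fun x => f x * (starRingEnd ℂ) (Gx Θ H B ph k x)) (Ivl l j) := by
      apply intOn l j (M := M * B)
      · exact hf.mul (Complex.continuous_conj.measurable.comp (measurable_Gx _ _))
      · intro x
        rw [norm_mul, RCLike.norm_conj]
        exact mul_le_mul (hM x) (norm_Gx_le hph k x) (norm_nonneg _) hM0
    exact this.re
  induction k with
  | zero =>
    have h := node_pair (Θ := Θ) (H := H) (B := B) hf hM hph hph' 0 i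
    have e1 : ∫ x in Ivl 0 i, (f x * (starRingEnd ℂ) (Gx Θ H B ph 0 x)).re =
        ∫ x in Ivl 0 i, (f x * (starRingEnd ℂ) (xs (up Θ H B 0 i) (cc Θ H B ph 0 i) x)).re := by
      apply setIntegral_congr_fun (measurableSet_Ivl _ _)
      intro x hx
      rw [mem_Ivl] at hx
      simp only [Gx, hx]
    have e2 : ∫ x in Ivl 0 i, cnt Θ H B 0 x = (nw Θ H B 0 i).card := by
      have : ∀ x ∈ Ivl 0 i, cnt Θ H B 0 x = (nw Θ H B 0 i).card := by
        intro x hx
        rw [mem_Ivl] at hx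
        simp only [cnt, hx, card_up]
        simp [par]
      rw [setIntegral_congr_fun (measurableSet_Ivl _ _) this]
      simp [volume_real_Ivl]
    rw [e1, e2]
    refine le_trans ?_ h
    simp [par, xs]
  | succ k ih =>
    have key : ∫ x in Ivl 0 i, ((f x * (starRingEnd ℂ) (Gx Θ H B ph k x)).re -
          δ * cnt Θ H B k x) ≤
        ∫ x in Ivl 0 i, ((f x * (starRingEnd ℂ) (Gx Θ H B ph (k + 1) x)).re -
          δ * cnt Θ H B (k + 1) x) := by
      apply node_to_root (fun l j => (iG k l j).sub ((intOn_cnt k l j).const_mul δ))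
        (fun l j => (iG (k + 1) l j).sub ((intOn_cnt (k + 1) l j).const_mul δ)) (k + 1) 0
      intro j
      rw [Nat.zero_add]
      have h := node_pair (Θ := Θ) (H := H) (B := B) hf hM hph hph' (k + 1) j
      have e1 : ∫ x in Ivl (k + 1) j, (f x * (starRingEnd ℂ) (Gx Θ H B ph (k + 1) x)).re =
          ∫ x in Ivl (k + 1) j, (f x * (starRingEnd ℂ)
            (xs (up Θ H B (k + 1) j) (cc Θ H B ph (k + 1) j) x)).re := by
        apply setIntegral_congr_fun (measurableSet_Ivl _ _)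
        intro x hx
        rw [mem_Ivl] at hx
        simp only [Gx, hx]
      have e2 : ∫ x in Ivl (k + 1) j, (f x * (starRingEnd ℂ) (Gx Θ H B ph k x)).re =
          ∫ x in Ivl (k + 1) j, (f x * (starRingEnd ℂ)
            (xs (par Θ H B (k + 1) j) (pc Θ H B ph (k + 1) j) x)).re := by
        apply setIntegral_congr_fun (measurableSet_Ivl _ _)
        intro x hx
        rw [mem_Ivl] at hx
        simp only [Gx, par, fl_half k x, hx]
        rfl
      have e3 : ∫ x in Ivl (k + 1) j, cnt Θ H B (k + 1) x =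
          (∫ x in Ivl (k + 1) j, cnt Θ H B k x) + (nw Θ H B (k + 1) j).card * (1 / 2 ^ (k + 1)) := by
        have h1 : ∀ x ∈ Ivl (k + 1) j, cnt Θ H B (k + 1) x =
            (par Θ H B (k + 1) j).card + (nw Θ H B (k + 1) j).card := by
          intro x hx
          rw [mem_Ivl] at hx
          simp only [cnt, hx, card_up]
          push_cast; ring
        have h2 : ∀ x ∈ Ivl (k + 1) j, cnt Θ H B k x = (par Θ H B (k + 1) j).card := by
          intro x hx
          rw [mem_Ivl] at hx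
          simp only [cnt, par, fl_half k x, hx]
        rw [setIntegral_congr_fun (measurableSet_Ivl _ _) h1,
          setIntegral_congr_fun (measurableSet_Ivl _ _) h2, setIntegral_const, setIntegral_const,
          volume_real_Ivl]
        simp only [smul_eq_mul]
        ring
      simp only [Pi.sub_apply]
      rw [integral_sub (iG (k + 1) (k + 1) j) ((intOn_cnt (k + 1) (k + 1) j).const_mul δ),
        integral_sub (iG k (k + 1) j) ((intOn_cnt k (k + 1) j).const_mul δ), integral_const_mul,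
        integral_const_mul, e1, e2, e3]
      linarith
    rw [integral_sub (iG (k + 1) 0 i) ((intOn_cnt (k + 1) 0 i).const_mul δ),
      integral_sub (iG k 0 i) ((intOn_cnt k 0 i).const_mul δ), integral_const_mul,
      integral_const_mul] at key
    linarith

/-- heavy coefficients at threshold `δ` -/
def Hv (f : ℝ → ℂ) (δ : ℝ) (k : ℕ) (j : ℤ) (θ : ℝ) : Prop := δ ≤ ‖coef f θ k j‖

/-- **Bessel inequality for the wide tops**: total length of the tops. -/
theorem bessel {f : ℝ → ℂ} (hf : Measurable f) {M : ℝ} (hM : ∀ x, ‖f x‖ ≤ M) {δ : ℝ}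
    (hδ : 0 < δ) (hB : 0 < B) (i : ℤ) (k : ℕ) :
    ∫ x in Ivl 0 i, cnt Θ (Hv f δ) B k x ≤ 2 * δ⁻¹ ^ 2 * ∫ x in Ivl 0 i, ‖f x‖ ^ 2 := by
  have hM0 : 0 ≤ M := (norm_nonneg _).trans (hM 0)
  set ph : ℕ → ℤ → ℝ → ℂ := fun k j θ => coef f θ k j / ‖coef f θ k j‖ with hphd
  have hph : ∀ k j θ, ‖ph k j θ‖ ≤ 1 := by
    intro k j θ
    rw [hphd]
    simp only [norm_div, Complex.norm_real, norm_norm]
    exact div_self_le_one _
  have hph' : ∀ k j θ, Hv f δ k j θ → δ ≤ ((starRingEnd ℂ) (ph k j θ) * coef f θ k j).re := by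
    intro k j θ h
    have hne : (‖coef f θ k j‖ : ℂ) ≠ 0 := by
      have : 0 < ‖coef f θ k j‖ := hδ.trans_le h
      exact_mod_cast this.ne'
    have e1 : (starRingEnd ℂ) (ph k j θ) * coef f θ k j = (‖coef f θ k j‖ : ℂ) := by
      rw [hphd]
      simp only [map_div₀, Complex.conj_ofReal]
      rw [div_mul_eq_mul_div, mul_comm ((starRingEnd ℂ) _), Complex.mul_conj,
        Complex.normSq_eq_norm_sq]
      push_cast
      field_simp
    rw [e1, Complex.ofReal_re]
    exact h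
  have h1 := pair_Gx (Θ := Θ) (B := B) hf hM hph hph' i k
  have h2 := L2_Gx (Θ := Θ) (H := Hv f δ) hB hph i k
  set I0 := ∫ x in Ivl 0 i, cnt Θ (Hv f δ) B k x with hI0
  have iF : IntegrableOn (fun x => ‖f x‖ ^ 2) (Ivl 0 i) := by
    apply intOn 0 i (hf.norm.pow_const 2) (M := M ^ 2)
    intro x
    rw [Real.norm_eq_abs, abs_of_nonneg (by positivity)]
    have := hM x
    gcongr
  have iG2 : IntegrableOn (fun x => ‖Gx Θ (Hv f δ) B ph k x‖ ^ 2) (Ivl 0 i) := by
    apply intOn 0 i ((measurable_Gx ph k).norm.pow_const 2) (M := (B : ℝ) ^ 2)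
    intro x
    rw [Real.norm_eq_abs, abs_of_nonneg (by positivity)]
    have := norm_Gx_le (Θ := Θ) (H := Hv f δ) (B := B) hph k x
    gcongr
  have iFG : IntegrableOn (fun x => (f x * (starRingEnd ℂ) (Gx Θ (Hv f δ) B ph k x)).re)
      (Ivl 0 i) := by
    have : IntegrableOn (fun x => f x * (starRingEnd ℂ) (Gx Θ (Hv f δ) B ph k x)) (Ivl 0 i) := by
      apply intOn 0 i (M := M * B)
      · exact hf.mul (Complex.continuous_conj.measurable.comp (measurable_Gx _ _))
      · intro x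
        rw [norm_mul, RCLike.norm_conj]
        exact mul_le_mul (hM x) (norm_Gx_le hph k x) (norm_nonneg _) hM0
    exact this.re
  have h3 : ∫ x in Ivl 0 i, (f x * (starRingEnd ℂ) (Gx Θ (Hv f δ) B ph k x)).re ≤
      δ⁻¹ * (∫ x in Ivl 0 i, ‖f x‖ ^ 2) + δ / 4 * ∫ x in Ivl 0 i, ‖Gx Θ (Hv f δ) B ph k x‖ ^ 2 := by
    rw [← integral_const_mul, ← integral_const_mul,
      ← integral_add (iF.const_mul _) (iG2.const_mul _)]
    apply integral_mono iFG ((iF.const_mul _).add (iG2.const_mul _))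
    intro x
    have h4 : (f x * (starRingEnd ℂ) (Gx Θ (Hv f δ) B ph k x)).re ≤
        ‖f x‖ * ‖Gx Θ (Hv f δ) B ph k x‖ := by
      refine (Complex.re_le_norm _).trans ?_
      rw [norm_mul, RCLike.norm_conj]
    refine h4.trans ?_
    change ‖f x‖ * ‖Gx Θ (Hv f δ) B ph k x‖ ≤
      δ⁻¹ * ‖f x‖ ^ 2 + δ / 4 * ‖Gx Θ (Hv f δ) B ph k x‖ ^ 2
    have h5 : 0 ≤ δ⁻¹ * (‖f x‖ - δ / 2 * ‖Gx Θ (Hv f δ) B ph k x‖) ^ 2 := by positivity
    have h6 : δ⁻¹ * (‖f x‖ - δ / 2 * ‖Gx Θ (Hv f δ) B ph k x‖) ^ 2 =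
        δ⁻¹ * ‖f x‖ ^ 2 + δ / 4 * ‖Gx Θ (Hv f δ) B ph k x‖ ^ 2 -
          ‖f x‖ * ‖Gx Θ (Hv f δ) B ph k x‖ := by
      field_simp
      ring
    linarith
  have h7 : δ / 2 * I0 ≤ δ⁻¹ * ∫ x in Ivl 0 i, ‖f x‖ ^ 2 := by
    have h8 : δ / 4 * ∫ x in Ivl 0 i, ‖Gx Θ (Hv f δ) B ph k x‖ ^ 2 ≤ δ / 4 * (2 * I0) := by
      gcongr
    nlinarith
  have h9 : I0 = 2 * δ⁻¹ * (δ / 2 * I0) := by field_simp
  rw [h9]
  calc 2 * δ⁻¹ * (δ / 2 * I0) ≤ 2 * δ⁻¹ * (δ⁻¹ * ∫ x in Ivl 0 i, ‖f x‖ ^ 2) := by gcongr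
    _ = _ := by ring

end Crest.Agent.R100.Wide933
end
private theorem rz_2652ea85fc : type_of% @_root_.Crest.Agent.R100.Wide933.cc.eq_def := @_root_.Crest.Agent.R100.Wide933.cc.eq_def -- L241
private theorem rz_554d7c5986 : type_of% @_root_.Crest.Agent.R100.Wide933.cc.eq_1 := @_root_.Crest.Agent.R100.Wide933.cc.eq_1 -- L241
private theorem rz_9eb4ad57d3 : type_of% @_root_.Crest.Agent.R100.Wide933.par.eq_1 := @_root_.Crest.Agent.R100.Wide933.par.eq_1 -- L87
private theorem rz_2d2f01c067 : type_of% @_root_.Crest.Agent.R100.Wide933.pc.eq_1 := @_root_.Crest.Agent.R100.Wide933.pc.eq_1 -- L247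
end

-- ▼ part R100/Hunt_933

/-!
# R100 / S0132, helper933: HUNT (exponential bound on a fixed grid), leaf M5

The part of the model operator where the local coefficients are `< 2^{1-j₀}` is
`O(2^{-j₀/2} (n + j₀ + t))` outside a set of measure `O(e^{-t} ∫|f|)`.
-/

set_option autoImplicit false

open MeasureTheory Set
open scoped ENNReal

noncomputable section

namespace Crest.Agent.R100.Hunt933

open Crest.Agent.R100.Mart933 Crest.Agent.R100.Wide933

/-! ## comparison of two frequencies -/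

theorem norm_e_sub_le (u x y : ℝ) : ‖e u y - e u x‖ ≤ 2 * Real.pi * |u| * |y - x| := by
  have h1 : e u y - e u x = e u x * (e u (y - x) - 1) := by
    have : e u y = e u x * e u (y - x) := by
      unfold e
      rw [← Complex.exp_add]
      congr 1
      push_cast
      ring
    rw [this]; ring
  rw [h1, norm_mul, norm_e, one_mul]
  have h2 : e u (y - x) = Complex.exp (Complex.I * ((2 * Real.pi * (u * (y - x)) : ℝ) : ℂ)) := by
    unfold e
    rw [mul_comm]
  rw [h2]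
  refine Real.norm_exp_I_mul_ofReal_sub_one_le.trans (le_of_eq ?_)
  rw [Real.norm_eq_abs, abs_mul, abs_of_pos (by positivity : (0 : ℝ) < 2 * Real.pi), abs_mul]
  ring

theorem e_neg_sub (θ θ' y : ℝ) : e (-θ) y = e (-θ') y * e (-(θ - θ')) y := by
  rw [← e_add]; congr 1; ring

theorem dist_Ivl {k : ℕ} {j : ℤ} {x y : ℝ} (hx : x ∈ Ivl k j) (hy : y ∈ Ivl k j) :
    |y - x| ≤ 1 / 2 ^ k := by
  unfold Ivl at hx hy
  rw [mem_Ico] at hx hy
  have h0 : (0 : ℝ) < 2 ^ k := by positivity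
  have e1 : ((j : ℝ) + 1) / 2 ^ k = (j : ℝ) / 2 ^ k + 1 / 2 ^ k := by ring
  rw [e1] at hx hy
  rw [abs_le]
  constructor <;> linarith [hx.1, hx.2, hy.1, hy.2]

/-- comparison of local coefficients at two frequencies -/
theorem coef_compare {f : ℝ → ℂ} (hf : Measurable f) {M : ℝ} (hM : ∀ x, ‖f x‖ ≤ M)
    (θ θ' : ℝ) {k : ℕ} {j : ℤ} {x : ℝ} (hx : x ∈ Ivl k j) :
    ‖coef f θ k j - e (-(θ - θ')) x * coef f θ' k j‖ ≤
      2 * Real.pi * |θ - θ'| * (1 / 2 ^ k) * avN f k j := by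
  set u := θ - θ' with hu
  have h0 : (0 : ℝ) < 2 ^ k := by positivity
  have e1 : coef f θ k j - e (-u) x * coef f θ' k j =
      (2 : ℂ) ^ k * ∫ y in Ivl k j, f y * e (-θ') y * (e (-u) y - e (-u) x) := by
    unfold coef
    have i1 := integrable_fe hf hM (-θ) k j
    have i2 : IntegrableOn (fun y => e (-u) x * (f y * e (-θ') y)) (Ivl k j) :=
      (integrable_fe hf hM (-θ') k j).const_mul _
    have h : ∫ y in Ivl k j, f y * e (-θ') y * (e (-u) y - e (-u) x) =
        (∫ y in Ivl k j, f y * e (-θ) y) - ∫ y in Ivl k j, e (-u) x * (f y * e (-θ') y) := by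
      rw [← integral_sub i1 i2]
      congr 1
      ext y
      rw [e_neg_sub θ θ' y]
      ring
    rw [h, integral_const_mul]
    ring
  rw [e1, norm_mul, norm_pow, Complex.norm_ofNat]
  have h2 : ‖∫ y in Ivl k j, f y * e (-θ') y * (e (-u) y - e (-u) x)‖ ≤
      2 * Real.pi * |u| * (1 / 2 ^ k) * ∫ y in Ivl k j, ‖f y‖ := by
    refine (norm_integral_le_integral_norm _).trans ?_
    rw [← integral_const_mul]
    apply integral_mono_of_nonneg
    · exact Filter.Eventually.of_forall fun y => norm_nonneg _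
    · exact (intOn k j hf.norm (M := M) (fun x => by simpa using hM x)).const_mul _
    · refine (ae_restrict_iff' (measurableSet_Ivl k j)).2 (Filter.Eventually.of_forall ?_)
      intro y hy
      change ‖f y * e (-θ') y * (e (-u) y - e (-u) x)‖ ≤ 2 * Real.pi * |u| * (1 / 2 ^ k) * ‖f y‖
      rw [norm_mul, norm_mul, norm_e, mul_one]
      have h3 := norm_e_sub_le (-u) x y
      rw [abs_neg] at h3
      have h4 := dist_Ivl hx hy
      have hpi := Real.pi_pos
      calc ‖f y‖ * ‖e (-u) y - e (-u) x‖ ≤ ‖f y‖ * (2 * Real.pi * |u| * (1 / 2 ^ k)) := by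
            gcongr
            exact h3.trans (by gcongr)
        _ = _ := by ring
  unfold avN
  calc (2 : ℝ) ^ k * ‖∫ y in Ivl k j, f y * e (-θ') y * (e (-u) y - e (-u) x)‖
      ≤ 2 ^ k * (2 * Real.pi * |u| * (1 / 2 ^ k) * ∫ y in Ivl k j, ‖f y‖) := by gcongr
    _ = _ := by ring

section main

variable {f : ℝ → ℂ} {M : ℝ} {al ε : ℕ → ℤ → Prop}

theorem avN_child_le (hf : Measurable f) (hM : ∀ x, ‖f x‖ ≤ M)
    (hal : ∀ k j, al k j → avN f k j ≤ 1) {k : ℕ} {j : ℤ} (h : al k j) :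
    avN f (k + 1) (2 * j) ≤ 2 ∧ avN f (k + 1) (2 * j + 1) ≤ 2 := by
  have h1 := avN_split hf hM k j
  have h2 := hal k j h
  have h3 := avN_nonneg f (k + 1) (2 * j)
  have h4 := avN_nonneg f (k + 1) (2 * j + 1)
  constructor <;> linarith

theorem avN_succ_le (hf : Measurable f) (hM : ∀ x, ‖f x‖ ≤ M)
    (hal : ∀ k j, al k j → avN f k j ≤ 1) {k : ℕ} {x : ℝ} (h : al k (fl k x)) :
    avN f (k + 1) (fl (k + 1) x) ≤ 2 := by
  have h1 := avN_child_le hf hM hal h
  rcases fl_succ_div k x with h2 | h2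
  · rw [h2]; exact h1.1
  · rw [h2]; exact h1.2

theorem bound_children (hf : Measurable f) (hM : ∀ x, ‖f x‖ ≤ M)
    (hal : ∀ k j, al k j → avN f k j ≤ 1) (θ : ℝ) (k : ℕ) (j : ℤ) (h : al k j) :
    ‖coef f θ k j‖ ≤ 2 ∧ ‖coef f θ (k + 1) (2 * j)‖ ≤ 2 ∧ ‖coef f θ (k + 1) (2 * j + 1)‖ ≤ 2 := by
  have h1 := avN_child_le hf hM hal h
  have h2 := hal k j h
  exact ⟨(norm_coef_le f θ k j).trans (by linarith), (norm_coef_le f θ _ _).trans h1.1,
    (norm_coef_le f θ _ _).trans h1.2⟩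

/-- comparison of the martingale differences at two frequencies -/
theorem dl_compare (hf : Measurable f) (hM : ∀ x, ‖f x‖ ≤ M)
    (hal : ∀ k j, al k j → avN f k j ≤ 1) (θ θ' : ℝ) {k : ℕ} {x : ℝ} (h : al k (fl k x)) :
    ‖dl (coef f θ) k x - e (-(θ - θ')) x * dl (coef f θ') k x‖ ≤
      4 * Real.pi * |θ - θ'| * (1 / 2 ^ k) := by
  have hx : x ∈ Ivl k (fl k x) := mem_Ivl.2 rfl
  have hx' : x ∈ Ivl (k + 1) (fl (k + 1) x) := mem_Ivl.2 rfl
  have c1 := coef_compare hf hM θ θ' hx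
  have c2 := coef_compare hf hM θ θ' hx'
  have a1 := hal _ _ h
  have a2 := avN_succ_le hf hM hal h
  have hpi := Real.pi_pos
  have hu := abs_nonneg (θ - θ')
  have h0 : (0 : ℝ) < 1 / 2 ^ k := by positivity
  have e1 : dl (coef f θ) k x - e (-(θ - θ')) x * dl (coef f θ') k x =
      (coef f θ (k + 1) (fl (k + 1) x) - e (-(θ - θ')) x * coef f θ' (k + 1) (fl (k + 1) x)) -
      (coef f θ k (fl k x) - e (-(θ - θ')) x * coef f θ' k (fl k x)) := by
    unfold dl; ring
  rw [e1]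
  refine (norm_sub_le _ _).trans ?_
  have b1 : 2 * Real.pi * |θ - θ'| * (1 / 2 ^ k) * avN f k (fl k x) ≤
      2 * Real.pi * |θ - θ'| * (1 / 2 ^ k) * 1 := by gcongr
  have b2 : 2 * Real.pi * |θ - θ'| * (1 / 2 ^ (k + 1)) * avN f (k + 1) (fl (k + 1) x) ≤
      2 * Real.pi * |θ - θ'| * (1 / 2 ^ (k + 1)) * 2 := by gcongr
  have e2 : (1 : ℝ) / 2 ^ (k + 1) = 1 / 2 ^ k / 2 := by rw [pow_succ]; field_simp
  rw [e2] at b2 c2
  nlinarith

/-! ## parameters -/

/-- budget of the family of level `j` -/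
def Bj (n t j : ℕ) : ℕ := 2 ^ (2 * t + n + 3 * j)

/-- threshold of the family of level `j` -/
def dj (j : ℕ) : ℝ := (1 / 2) ^ (j + 1)

/-- `√(1/2)` -/
def rr : ℝ := Real.sqrt (1 / 2)

theorem rr_pos : 0 < rr := Real.sqrt_pos.2 (by norm_num)

theorem rr_sq : rr ^ 2 = 1 / 2 := Real.sq_sqrt (by norm_num)

theorem rr_le : rr ≤ 0.7072 := by
  unfold rr
  rw [Real.sqrt_le_left (by norm_num)]
  norm_num

theorem rr_le_one : rr ≤ 1 := rr_le.trans (by norm_num)

/-- linear term -/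
def LL (n t j : ℕ) : ℝ := n + t + 3 * j + 1

theorem LL_pos (n t j : ℕ) : 0 < LL n t j := by unfold LL; positivity

theorem one_le_LL (n t j : ℕ) : 1 ≤ LL n t j := by
  unfold LL
  have h1 : (0 : ℝ) ≤ n := Nat.cast_nonneg n
  have h2 : (0 : ℝ) ≤ t := Nat.cast_nonneg t
  have h3 : (0 : ℝ) ≤ j := Nat.cast_nonneg j
  linarith

/-- the tail level -/
def lam (n t j : ℕ) : ℝ := 24 * rr ^ j * LL n t j

/-- size of the disc -/
def Rj (j : ℕ) : ℝ := 9 * (1 / 2) ^ j

theorem Rj_pos (j : ℕ) : 0 < Rj j := by unfold Rj; positivity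

theorem sqrt_Rj (j : ℕ) : Real.sqrt (Rj j) = 3 * rr ^ j := by
  unfold Rj
  have : (9 : ℝ) * (1 / 2) ^ j = (3 * rr ^ j) ^ 2 := by
    rw [mul_pow, ← pow_mul, mul_comm j 2, pow_mul, rr_sq]; norm_num
  rw [this, Real.sqrt_sq (by have := rr_pos; positivity)]

theorem lam_div (n t j : ℕ) : lam n t j / (8 * Real.sqrt (Rj j)) = LL n t j := by
  rw [sqrt_Rj, lam]
  have := rr_pos
  field_simp
  ring

theorem lam_pos (n t j : ℕ) : 0 < lam n t j := by
  have := rr_pos
  have := LL_pos n t j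
  unfold lam
  positivity


/-- the switch used for the top frequency `θ'` -/
def sw (f : ℝ → ℂ) (ε : ℕ → ℤ → Prop) (j : ℕ) (θ' : ℝ) (k : ℕ) (i : ℤ) : Prop :=
  ε k i ∧ ‖coef f θ' k i‖ ≤ Rj j / 3 ∧ ‖hd (coef f θ') k i‖ ≤ 2 * Rj j / 3

/-- exceptional points of first kind: the budget is used up -/
def XX (f : ℝ → ℂ) (Θ : Finset ℝ) (n t j m : ℕ) : Set ℝ :=
  {x | (Bj n t j : ℝ) ≤ cnt Θ (Hv f (dj j)) (Bj n t j) m x}

/-- exceptional points of second kind -/
def EE (f : ℝ → ℂ) (ε : ℕ → ℤ → Prop) (Θ : Finset ℝ) (n t j m : ℕ) : Set ℝ :=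
  {x | ∃ k ≤ m, ∃ θ' ∈ nw Θ (Hv f (dj j)) (Bj n t j) k (fl k x), ∃ K, k ≤ K ∧ K ≤ m ∧
    lam n t j < ‖SS (coef f θ') (sw f ε j θ') k K x‖}

theorem SS_add (a : ℕ → ℤ → ℂ) (η : ℕ → ℤ → Prop) {k l K : ℕ} (h1 : k ≤ l) (h2 : l ≤ K) (x : ℝ) :
    SS a η k l x + SS a η l K x = SS a η k K x := by
  classical
  unfold SS
  exact Finset.sum_Ico_consecutive _ h1 h2

open Classical in
theorem norm_SS_le_of (a : ℕ → ℤ → ℂ) (ha : IsMart a) (η : ℕ → ℤ → Prop) {k K : ℕ} (h : k ≤ K)
    {x c : ℝ} (hc : 0 ≤ c) (hb : ∀ l, k ≤ l → l < K → η l (fl l x) → ‖hd a l (fl l x)‖ ≤ c) :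
    ‖SS a η k K x‖ ≤ (K - k) * c := by
  unfold SS
  refine (norm_sum_le _ _).trans ?_
  calc ∑ l ∈ Finset.Ico k K, ‖if η l (fl l x) then (rad (l + 1) x : ℂ) * dl a l x else 0‖
      ≤ ∑ _l ∈ Finset.Ico k K, c := by
        refine Finset.sum_le_sum fun l hl => ?_
        rw [Finset.mem_Ico] at hl
        split_ifs with hη
        · rw [norm_mul, Complex.norm_real, Real.norm_eq_abs, abs_rad, one_mul, norm_dl ha]
          exact hb l hl.1 hl.2 hη
        · simpa using hc
    _ = (K - k) * c := by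
        rw [Finset.sum_const, Nat.card_Ico, nsmul_eq_mul, Nat.cast_sub h]

open Classical in
/-- comparison of the signed sums at two frequencies -/
theorem SS_compare (hf : Measurable f) (hM : ∀ x, ‖f x‖ ≤ M)
    (hal : ∀ k j, al k j → avN f k j ≤ 1) (hea : ∀ k j, ε k j → al k j) (θ θ' : ℝ)
    {q₀ K : ℕ} {x : ℝ} :
    ‖SS (coef f θ) ε q₀ K x - e (-(θ - θ')) x * SS (coef f θ') ε q₀ K x‖ ≤
      ∑ q ∈ Finset.Ico q₀ K, 4 * Real.pi * |θ - θ'| * (1 / 2 ^ q) := by
  unfold SS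
  rw [Finset.mul_sum, ← Finset.sum_sub_distrib]
  refine (norm_sum_le _ _).trans (Finset.sum_le_sum fun q _ => ?_)
  split_ifs with hη
  · have e1 : (rad (q + 1) x : ℂ) * dl (coef f θ) q x -
        e (-(θ - θ')) x * ((rad (q + 1) x : ℂ) * dl (coef f θ') q x) =
        (rad (q + 1) x : ℂ) * (dl (coef f θ) q x - e (-(θ - θ')) x * dl (coef f θ') q x) := by ring
    rw [e1, norm_mul, Complex.norm_real, Real.norm_eq_abs, abs_rad, one_mul]
    exact dl_compare hf hM hal θ θ' (hea _ _ hη)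
  · have hpi := Real.pi_pos
    simp only [mul_zero, sub_zero, norm_zero]
    positivity

theorem sum_geom_le {C : ℝ} (hC : 0 ≤ C) (q₀ K : ℕ) :
    ∑ q ∈ Finset.Ico q₀ K, C * (1 / 2 ^ q) ≤ 2 * C * (1 / 2 ^ q₀) := by
  rcases le_total K q₀ with h | h
  · rw [Finset.Ico_eq_empty_of_le h]
    simp only [Finset.sum_empty]
    positivity
  · have : ∀ d : ℕ, ∑ q ∈ Finset.Ico q₀ (q₀ + d), C * ((1 : ℝ) / 2 ^ q) =
        2 * C * (1 / 2 ^ q₀) - 2 * C * (1 / 2 ^ (q₀ + d)) := by
      intro d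
      induction d with
      | zero => simp
      | succ d ih =>
        have e : q₀ + (d + 1) = (q₀ + d) + 1 := by omega
        rw [e, Finset.sum_Ico_succ_top (by omega), ih, pow_succ]
        field_simp
        ring
    obtain ⟨d, rfl⟩ := Nat.exists_eq_add_of_le h
    rw [this d]
    have : 0 ≤ 2 * C * (1 / 2 ^ (q₀ + d)) := by positivity
    linarith

/-- **the block estimate** -/
theorem block (hf : Measurable f) (hM : ∀ x, ‖f x‖ ≤ M)
    (hal : ∀ k j, al k j → avN f k j ≤ 1) (hea : ∀ k j, ε k j → al k j) {Θ : Finset ℝ}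
    {n t j m : ℕ} {x : ℝ} (hX : x ∉ XX f Θ n t j m) (hE : x ∉ EE f ε Θ n t j m)
    {θ : ℝ} (hθ : θ ∈ Θ) {l K : ℕ} (hlK : l < K) (hKm : K ≤ m) 
    (hbig : (1 / 2) ^ j ≤ ‖coef f θ l (fl l x)‖ ∨ (1 / 2) ^ j ≤ ‖hd (coef f θ) l (fl l x)‖)
    (hsm : ∀ q, l ≤ q → q < K → ε q (fl q x) →
      ‖coef f θ q (fl q x)‖ ≤ 2 * (1 / 2) ^ j ∧ ‖hd (coef f θ) q (fl q x)‖ ≤ 2 * (1 / 2) ^ j) :
    ‖SS (coef f θ) ε l K x‖ ≤ 60 * rr ^ j * LL n t j := by
  classical
  set c : ℝ := (1 / 2) ^ j with hc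
  have hc0 : 0 < c := by positivity
  have ha := isMart_coef hf hM
  set B := Bj n t j with hB
  -- budget not used
  have hcard : ∀ q ≤ m, (up Θ (Hv f (dj j)) B q (fl q x)).card < B := by
    intro q hq
    have h1 : (up Θ (Hv f (dj j)) B q (fl q x)).card ≤ (up Θ (Hv f (dj j)) B m (fl m x)).card :=
      Finset.card_le_card (up_mono_fl hq x)
    have h2 : ¬ ((B : ℝ) ≤ cnt Θ (Hv f (dj j)) B m x) := hX
    rw [not_le] at h2
    unfold cnt at h2
    have h3 : (up Θ (Hv f (dj j)) B m (fl m x)).card < B := by exact_mod_cast h2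
    omega
  -- a heavy node at level l or l+1
  have hheavy : dj j ≤ ‖coef f θ l (fl l x)‖ ∨ dj j ≤ ‖coef f θ (l + 1) (fl (l + 1) x)‖ := by
    have hd2 : dj j = c / 2 := by unfold dj; rw [pow_succ, hc]; ring
    rw [hd2]
    by_cases h1 : c / 2 ≤ ‖coef f θ l (fl l x)‖
    · exact Or.inl h1
    · right
      push Not at h1
      rcases hbig with h | h
      · linarith
      · have h2 := norm_dl (ha θ) l x
        unfold dl at h2
        have h3 := norm_sub_le (coef f θ (l + 1) (fl (l + 1) x)) (coef f θ l (fl l x))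
        rw [h2] at h3
        linarith
  have htop : ∃ θ' ∈ up Θ (Hv f (dj j)) B (l + 1) (fl (l + 1) x), |θ - θ'| ≤ B * 2 ^ (l + 1) := by
    rcases hheavy with h | h
    · obtain ⟨θ', h1, h2⟩ := exhaust (hcard l (by omega)) hθ h
      refine ⟨θ', up_mono_fl (Nat.le_succ l) x h1, h2.trans ?_⟩
      rw [pow_succ]
      have : (0 : ℝ) ≤ B * 2 ^ l := by positivity
      nlinarith
    · exact exhaust (hcard (l + 1) (by omega)) hθ h
  obtain ⟨θ', hθ', hdist⟩ := htop
  obtain ⟨kT, hkT, hnw⟩ := exists_nw hθ'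
  set s : ℕ := n + 4 * j + 4 + 2 * t with hs
  have hs2 : (2 : ℝ) ^ s = B * 16 * 2 ^ j := by
    rw [hB, Bj, hs]
    push_cast
    rw [show (16 : ℝ) = 2 ^ 4 by norm_num, ← pow_add, ← pow_add]
    congr 1; ring
  set q₀ : ℕ := min (l + 1 + s) K with hq₀
  have hlq : l ≤ q₀ := by rw [hq₀]; exact le_min (by omega) hlK.le
  have hq₀K : q₀ ≤ K := min_le_right _ _
  have hq₀s : q₀ ≤ l + 1 + s := min_le_left _ _
  -- first part
  have part1 : ‖SS (coef f θ) ε l q₀ x‖ ≤ (s + 1) * (2 * c) := by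
    refine (norm_SS_le_of _ (ha θ) ε hlq (c := 2 * c) (by positivity) ?_).trans ?_
    · intro q h1 h2 h3
      exact (hsm q h1 (by omega) h3).2
    · have h4 : ((q₀ : ℝ) - l) ≤ s + 1 := by
        have : (q₀ : ℝ) ≤ l + 1 + s := by exact_mod_cast hq₀s
        linarith
      exact mul_le_mul_of_nonneg_right h4 (by positivity)
  -- second part
  have part2 : ‖SS (coef f θ) ε q₀ K x‖ ≤ 2 * c + 2 * lam n t j := by
    rcases Nat.eq_or_lt_of_le hq₀K with hqK | hqK
    · rw [hqK]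
      have : SS (coef f θ) ε K K x = 0 := by unfold SS; simp
      rw [this, norm_zero]
      have := lam_pos n t j
      positivity
    · have hq₀e : q₀ = l + 1 + s := by
        rw [hq₀]
        apply min_eq_left
        by_contra hcon
        push Not at hcon
        rw [hq₀, min_eq_right hcon.le] at hqK
        omega
      have hkq : kT ≤ q₀ := by omega
      set u := |θ - θ'| with hu
      have hu0 : 0 ≤ u := abs_nonneg _
      have hpi := Real.pi_pos
      have hpi4 := Real.pi_lt_four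
      have hpi3 : Real.pi < 3.15 := Real.pi_lt_d2
      -- the error at scale q
      have herr : ∀ q, q₀ ≤ q → u * (1 / 2 ^ q) ≤ 1 / 16 * c := by
        intro q hq
        have h1 : (1 : ℝ) / 2 ^ q ≤ 1 / 2 ^ q₀ := by
          apply one_div_le_one_div_of_le (by positivity)
          exact pow_le_pow_right₀ (by norm_num) hq
        have h2 : (2 : ℝ) ^ q₀ = 2 ^ (l + 1) * (B * 16 * 2 ^ j) := by
          rw [hq₀e, pow_add, hs2]
        have hB0 : (0 : ℝ) < B := by
          rw [hB, Bj]; positivity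
        calc u * (1 / 2 ^ q) ≤ (B * 2 ^ (l + 1)) * (1 / 2 ^ q₀) := by gcongr
          _ = 1 / 16 * (1 / 2 ^ j) := by
              rw [h2]; field_simp
          _ = 1 / 16 * c := by rw [hc, one_div_pow]
      have hcmp := SS_compare (ε := ε) hf hM hal hea θ θ' (q₀ := q₀) (K := K) (x := x)
      have hsum : ∑ q ∈ Finset.Ico q₀ K, 4 * Real.pi * u * (1 / 2 ^ q) ≤ 2 * c := by
        refine (sum_geom_le (by positivity) q₀ K).trans ?_
        have := herr q₀ le_rfl
        calc 2 * (4 * Real.pi * u) * (1 / 2 ^ q₀) = 8 * Real.pi * (u * (1 / 2 ^ q₀)) := by ring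
          _ ≤ 8 * Real.pi * (1 / 16 * c) := by gcongr
          _ ≤ 2 * c := by nlinarith
      -- sizes at θ'
      have hsz : ∀ q, q₀ ≤ q → q < K → ε q (fl q x) → sw f ε j θ' q (fl q x) := by
        intro q h1 h2 h3
        have hx : x ∈ Ivl q (fl q x) := mem_Ivl.2 rfl
        obtain ⟨s1, s2⟩ := hsm q (by omega) h2 h3
        have c1 := coef_compare hf hM θ θ' hx
        have c2 := dl_compare hf hM hal θ θ' (hea _ _ h3)
        have a1 := hal _ _ (hea _ _ h3)
        have he1 := herr q h1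
        have n1 : ‖coef f θ' q (fl q x)‖ = ‖e (-(θ - θ')) x * coef f θ' q (fl q x)‖ := by
          rw [norm_mul, norm_e, one_mul]
        have n2 : ‖hd (coef f θ') q (fl q x)‖ = ‖e (-(θ - θ')) x * dl (coef f θ') q x‖ := by
          rw [norm_mul, norm_e, one_mul, norm_dl (ha θ')]
        have n3 : ‖hd (coef f θ) q (fl q x)‖ = ‖dl (coef f θ) q x‖ := (norm_dl (ha θ) q x).symm
        have t1 : ‖e (-(θ - θ')) x * coef f θ' q (fl q x)‖ ≤
            ‖coef f θ q (fl q x)‖ + ‖coef f θ q (fl q x) - e (-(θ - θ')) x * coef f θ' q (fl q x)‖ := by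
          have := norm_sub_norm_le (e (-(θ - θ')) x * coef f θ' q (fl q x)) (coef f θ q (fl q x))
          rw [norm_sub_rev] at this
          linarith
        have t2 : ‖e (-(θ - θ')) x * dl (coef f θ') q x‖ ≤
            ‖dl (coef f θ) q x‖ + ‖dl (coef f θ) q x - e (-(θ - θ')) x * dl (coef f θ') q x‖ := by
          have := norm_sub_norm_le (e (-(θ - θ')) x * dl (coef f θ') q x) (dl (coef f θ) q x)
          rw [norm_sub_rev] at this
          linarith
        have b1 : 2 * Real.pi * u * (1 / 2 ^ q) * avN f q (fl q x) ≤ c := by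
          calc 2 * Real.pi * u * (1 / 2 ^ q) * avN f q (fl q x) ≤
              2 * Real.pi * u * (1 / 2 ^ q) * 1 := by gcongr
            _ = 2 * Real.pi * (u * (1 / 2 ^ q)) := by ring
            _ ≤ 2 * Real.pi * (1 / 16 * c) := by gcongr
            _ ≤ c := by nlinarith
        have b2 : 4 * Real.pi * u * (1 / 2 ^ q) ≤ c := by
          calc 4 * Real.pi * u * (1 / 2 ^ q) = 4 * Real.pi * (u * (1 / 2 ^ q)) := by ring
            _ ≤ 4 * Real.pi * (1 / 16 * c) := by gcongr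
            _ ≤ c := by nlinarith
        refine ⟨h3, ?_, ?_⟩
        · unfold Rj
          rw [n1]
          have : (9 : ℝ) * (1 / 2) ^ j / 3 = 3 * c := by rw [hc]; ring
          rw [this]
          linarith
        · unfold Rj
          rw [n2]
          have : 2 * (9 * (1 / 2) ^ j) / 3 = 6 * c := by rw [hc]; ring
          rw [this, ]
          rw [n3] at s2
          linarith
      have hsame : SS (coef f θ') ε q₀ K x = SS (coef f θ') (sw f ε j θ') q₀ K x := by
        unfold SS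
        refine Finset.sum_congr rfl fun q hq => ?_
        rw [Finset.mem_Ico] at hq
        by_cases h : ε q (fl q x)
        · rw [if_pos h, if_pos (hsz q hq.1 hq.2 h)]
        · rw [if_neg h, if_neg (fun h' => h h'.1)]
      have hadd := SS_add (coef f θ') (sw f ε j θ') hkq hq₀K x
      have hEE : ∀ K', kT ≤ K' → K' ≤ m →
          ‖SS (coef f θ') (sw f ε j θ') kT K' x‖ ≤ lam n t j := by
        intro K' h1 h2
        by_contra hcon
        push Not at hcon
        exact hE ⟨kT, by omega, θ', hnw, K', h1, h2, hcon⟩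
      have l1 := hEE q₀ hkq (by omega)
      have l2 := hEE K (by omega) hKm
      have l3 : ‖SS (coef f θ') ε q₀ K x‖ ≤ 2 * lam n t j := by
        rw [hsame]
        have : SS (coef f θ') (sw f ε j θ') q₀ K x =
            SS (coef f θ') (sw f ε j θ') kT K x - SS (coef f θ') (sw f ε j θ') kT q₀ x := by
          rw [← hadd]; ring
        rw [this]
        refine (norm_sub_le _ _).trans (by linarith)
      have l4 : ‖e (-(θ - θ')) x * SS (coef f θ') ε q₀ K x‖ = ‖SS (coef f θ') ε q₀ K x‖ := by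
        rw [norm_mul, norm_e, one_mul]
      have l5 := norm_sub_norm_le (SS (coef f θ) ε q₀ K x) (e (-(θ - θ')) x * SS (coef f θ') ε q₀ K x)
      rw [l4] at l5
      linarith
  rw [← SS_add (coef f θ) ε hlq hq₀K x]
  refine (norm_add_le _ _).trans ?_
  have hcr : c ≤ rr ^ j := by
    have h1 : c = rr ^ j * rr ^ j := by
      rw [hc, ← rr_sq, ← pow_mul, ← pow_add]
      congr 1; ring
    have h2 : rr ^ j ≤ 1 := pow_le_one₀ rr_pos.le rr_le_one
    have h3 : 0 < rr ^ j := pow_pos rr_pos j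
    rw [h1]
    nlinarith
  have hr0 : 0 < rr ^ j := pow_pos rr_pos j
  have hscast : ((s : ℕ) : ℝ) = n + 4 * j + 4 + 2 * t := by rw [hs]; push_cast; ring
  have hfin : (s + 1) * (2 * c) + (2 * c + 2 * lam n t j) ≤ 60 * rr ^ j * LL n t j := by
    rw [hscast]
    unfold lam LL
    have hn0 : (0 : ℝ) ≤ n := Nat.cast_nonneg n
    have ht0 : (0 : ℝ) ≤ t := Nat.cast_nonneg t
    have hj0 : (0 : ℝ) ≤ j := Nat.cast_nonneg j
    have h1 : ((n : ℝ) + 4 * j + 4 + 2 * t + 1) * (2 * c) + 2 * c ≤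
        ((n : ℝ) + 4 * j + 4 + 2 * t + 1) * (2 * rr ^ j) + 2 * rr ^ j := by gcongr
    have h2 : ((n : ℝ) + 4 * j + 4 + 2 * t + 1) * (2 * rr ^ j) + 2 * rr ^ j ≤
        12 * rr ^ j * ((n : ℝ) + t + 3 * j + 1) := by
      have : 0 ≤ rr ^ j * (10 * n + 8 * t + 28 * j) := by positivity
      nlinarith
    nlinarith
  linarith

end main

end Crest.Agent.R100.Hunt933
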