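import Crest.Agent.R100.HuntLocal_933

-- ▼ part R100/M7a_800
section

/-!
# R100 / S0132, M7a (helper800): the model bounds, rescaling to the nodes, John-Nirenberg

`ModelWeak γ W`: in the unit cell, off a set of probability `γ < 1`, all the truncated model sums
`TL m f θ` are at most `A W(n)`.  This self-improves (John-Nirenberg) to an exponential bound in all
the nodes, with maximal truncations.
-/

set_option autoImplicit false

open MeasureTheory Set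
open scoped ENNReal

noncomputable section

namespace Crest.Agent.R100.M7800

open Crest.Agent.R100.Mart933 Crest.Agent.R100.Wide933 Crest.Agent.R100.Hunt933
open Crest.Agent.R100.Local933 Crest.Agent.R100.Haar403



/-! ## running density conditions -/

/-- all the averages between the generations `k0` and `k` are at most `c` -/
def AL (f : ℝ → ℂ) (c : ℝ) (k0 k : ℕ) (j : ℤ) : Prop :=
  ∀ k', k0 ≤ k' → k' ≤ k → avN f k' (j / 2 ^ (k - k')) ≤ c

theorem AL_fl (f : ℝ → ℂ) (c : ℝ) (k0 k : ℕ) (x : ℝ) :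
    AL f c k0 k (fl k x) ↔ ∀ k', k0 ≤ k' → k' ≤ k → avN f k' (fl k' x) ≤ c := by
  unfold AL
  constructor
  · intro h k' h1 h2
    rw [fl_anc h2 x]
    exact h k' h1 h2
  · intro h k' h1 h2
    rw [← fl_anc h2 x]
    exact h k' h1 h2

theorem alive_fl (f : ℝ → ℂ) (k : ℕ) (x : ℝ) :
    alive f k (fl k x) ↔ ∀ k' ≤ k, avN f k' (fl k' x) ≤ 1 := by
  unfold alive
  constructor
  · intro h k' h2
    rw [fl_anc h2 x]
    exact h k' h2
  · intro h k' h2
    rw [← fl_anc h2 x]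
    exact h k' h2

/-! ## rescaling -/

/-- `f` on the node `(k0, i0)` blown up to the unit cell -/
def rs (f : ℝ → ℂ) (k0 : ℕ) (i0 : ℤ) (y : ℝ) : ℂ := f (y / 2 ^ k0 + i0 / 2 ^ k0)

theorem measurable_rs {f : ℝ → ℂ} (hf : Measurable f) (k0 : ℕ) (i0 : ℤ) :
    Measurable (rs f k0 i0) := by
  unfold rs
  exact hf.comp (by fun_prop)

theorem int_rs {E : Type*} [NormedAddCommGroup E] [NormedSpace ℝ E] (G : ℝ → E) (k0 : ℕ) (i0 : ℤ)
    (k : ℕ) (j : ℤ) :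
    ∫ y in Ivl k j, G (y / 2 ^ k0 + i0 / 2 ^ k0) =
      (2 : ℝ) ^ k0 • ∫ x in Ivl (k0 + k) (2 ^ k * i0 + j), G x := by
  rw [integral_Ivl_eq, integral_Ivl_eq,
    intervalIntegral.integral_comp_div_add (fun x => G x) (by positivity : (2 : ℝ) ^ k0 ≠ 0)]
  congr 2
  · push_cast
    rw [pow_add]
    field_simp
    ring
  · push_cast
    rw [pow_add]
    field_simp
    ring

theorem avN_rs (f : ℝ → ℂ) (k0 : ℕ) (i0 : ℤ) (k : ℕ) (j : ℤ) :
    avN (rs f k0 i0) k j = avN f (k0 + k) (2 ^ k * i0 + j) := by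
  unfold avN rs
  rw [int_rs (fun x => ‖f x‖) k0 i0 k j, smul_eq_mul, pow_add]
  ring

theorem coef_rs (f : ℝ → ℂ) (θ : ℝ) (k0 : ℕ) (i0 : ℤ) (k : ℕ) (j : ℤ) :
    coef (rs f k0 i0) (θ / 2 ^ k0) k j =
      e θ (i0 / 2 ^ k0) * coef f θ (k0 + k) (2 ^ k * i0 + j) := by
  unfold coef rs
  have h : ∀ y : ℝ, f (y / 2 ^ k0 + i0 / 2 ^ k0) * e (-(θ / 2 ^ k0)) y =
      (fun x : ℝ => e θ (i0 / 2 ^ k0) * (f x * e (-θ) x)) (y / 2 ^ k0 + i0 / 2 ^ k0) := by
    intro y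
    simp only
    have : e (-(θ / 2 ^ k0)) y = e θ (i0 / 2 ^ k0) * e (-θ) (y / 2 ^ k0 + i0 / 2 ^ k0) := by
      unfold e
      rw [← Complex.exp_add]
      congr 1
      push_cast
      ring
    rw [this]; ring
  simp_rw [h]
  rw [int_rs (fun x : ℝ => e θ (i0 / 2 ^ k0) * (f x * e (-θ) x)) k0 i0 k j, integral_const_mul,
    pow_add, Complex.real_smul]
  push_cast
  ring

theorem fl_rs (k0 : ℕ) (i0 : ℤ) (k : ℕ) (y : ℝ) :
    fl (k0 + k) (y / 2 ^ k0 + i0 / 2 ^ k0) = 2 ^ k * i0 + fl k y := by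
  unfold fl
  have h : (2 : ℝ) ^ (k0 + k) * (y / 2 ^ k0 + i0 / 2 ^ k0) =
      ((2 ^ k * i0 : ℤ) : ℝ) + 2 ^ k * y := by
    push_cast
    rw [pow_add]
    field_simp
    ring
  rw [h, Int.floor_intCast_add]

theorem dl_rs (f : ℝ → ℂ) (θ : ℝ) (k0 : ℕ) (i0 : ℤ) (k : ℕ) (y : ℝ) :
    dl (coef (rs f k0 i0) (θ / 2 ^ k0)) k y =
      e θ (i0 / 2 ^ k0) * dl (coef f θ) (k0 + k) (y / 2 ^ k0 + i0 / 2 ^ k0) := by
  unfold dl
  rw [coef_rs, coef_rs, fl_rs, add_assoc, fl_rs, ← mul_sub]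

theorem rad_rs (k0 : ℕ) (i0 : ℤ) (k : ℕ) (y : ℝ) :
    rad (k0 + k) (y / 2 ^ k0 + i0 / 2 ^ k0) = rad k y := by
  unfold rad
  rw [add_assoc, fl_rs]
  have : Even ((2 : ℤ) ^ (k + 1) * i0) := by
    rw [pow_succ, mul_assoc, mul_comm, mul_assoc]
    exact even_two_mul _
  simp only [Int.even_add, this, true_iff]

theorem alive_rs (f : ℝ → ℂ) (k0 : ℕ) (i0 : ℤ) (k : ℕ) (y : ℝ) :
    alive (rs f k0 i0) k (fl k y) ↔
      AL f 1 k0 (k0 + k) (fl (k0 + k) (y / 2 ^ k0 + i0 / 2 ^ k0)) := by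
  rw [alive_fl, AL_fl]
  constructor
  · intro h k' h1 h2
    obtain ⟨d, rfl⟩ := Nat.exists_eq_add_of_le h1
    rw [fl_rs, ← avN_rs]
    exact h d (by omega)
  · intro h k' h2
    have := h (k0 + k') (by omega) (by omega)
    rwa [fl_rs, ← avN_rs] at this

theorem SS_rs (f : ℝ → ℂ) (θ : ℝ) (k0 : ℕ) (i0 : ℤ) (K : ℕ) (y : ℝ) :
    SS (coef (rs f k0 i0) (θ / 2 ^ k0)) (alive (rs f k0 i0)) 0 K y =
      e θ (i0 / 2 ^ k0) *
        SS (coef f θ) (AL f 1 k0) k0 (k0 + K) (y / 2 ^ k0 + i0 / 2 ^ k0) := by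
  classical
  unfold SS
  rw [Finset.mul_sum, Finset.sum_Ico_eq_sum_range, Finset.sum_Ico_eq_sum_range]
  rw [Nat.sub_zero, Nat.add_sub_cancel_left]
  refine Finset.sum_congr rfl fun l _ => ?_
  rw [zero_add]
  by_cases h : alive (rs f k0 i0) l (fl l y)
  · rw [if_pos h, if_pos ((alive_rs f k0 i0 l y).1 h), dl_rs]
    rw [add_assoc, rad_rs]
    ring
  · rw [if_neg h, if_neg (fun h' => h ((alive_rs f k0 i0 l y).2 h')), mul_zero]

theorem TL_rs (f : ℝ → ℂ) (θ : ℝ) (k0 : ℕ) (i0 : ℤ) (K : ℕ) (y : ℝ) :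
    ‖TL K (rs f k0 i0) (θ / 2 ^ k0) y‖ =
      ‖SS (coef f θ) (AL f 1 k0) k0 (k0 + K) (y / 2 ^ k0 + i0 / 2 ^ k0)‖ := by
  rw [TL_eq, SS_rs, norm_mul, norm_e, one_mul]



/-! ## stopping -/



/-! ## structure of the sums -/




theorem SS_congr {a : ℕ → ℤ → ℂ} {η η' : ℕ → ℤ → Prop} {k K : ℕ} {x : ℝ}
    (h : ∀ l, k ≤ l → l < K → (η l (fl l x) ↔ η' l (fl l x))) : SS a η k K x = SS a η' k K x := by
  classical
  unfold SS
  refine Finset.sum_congr rfl fun i hi => ?_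
  rw [Finset.mem_Ico] at hi
  simp only [h i hi.1 hi.2]






end Crest.Agent.R100.M7800
end
end

-- ▼ part R100/M7b_800

/-!
# R100 / S0132, M7b (helper800): John-Nirenberg for the truncated model sums
-/

set_option autoImplicit false

open MeasureTheory Set
open scoped ENNReal

noncomputable section

namespace Crest.Agent.R100.M7800

open Crest.Agent.R100.Mart933 Crest.Agent.R100.Wide933 Crest.Agent.R100.Hunt933
open Crest.Agent.R100.Local933 Crest.Agent.R100.Haar403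

variable {f : ℝ → ℂ} {M : ℝ}



/-- the set where one of the full sums is large -/
def E1 (f : ℝ → ℂ) (Θ : Finset ℝ) (k0 m : ℕ) (s : ℝ) : Set ℝ :=
  {x | ∃ θ ∈ Θ, s < ‖SS (coef f θ) (AL f 1 k0) k0 m x‖}







end Crest.Agent.R100.M7800
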